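import Mathlib

/-!
# Row 326, filter bank: definitions

A cyclic convolution of length `N = P * Q ^ e` is reduced to a cyclic convolution on the grid
`[P] ^ (e + 1)` by an oversampled filter bank (analysis `ana`, synthesis `syn`).
Arrays are flat functions `ℕ → ℤ`; an array of shape `[R][P][Z]` stores the entry
`(i, ρ, z)` at `(i * P + ρ) * Z + z`.
-/

set_option autoImplicit false

namespace Crest.Agent.X326.FB

open Finset

/-- flat integer arrays -/
abbrev Arr : Type := ℕ → ℤ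

/-- the `ℓ¹` norm of the first `n` entries -/
def l1 (n : ℕ) (a : Arr) : ℤ := ∑ x ∈ range n, |a x|

/-- block number `i` of an array with blocks of size `Z` -/
def blk (Z i : ℕ) (a : Arr) : Arr := fun z => a (i * Z + z)

/-- `μ` is a bilinear product on blocks of size `Z`, submultiplicative for `ℓ¹` -/
structure Bil (Z : ℕ) (μ : Arr → Arr → Arr) : Prop where
  add_left : ∀ a a' b, μ (a + a') b = μ a b + μ a' b
  add_right : ∀ a b b', μ a (b + b') = μ a b + μ a b'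
  smul_left : ∀ (c : ℤ) a b, μ (c • a) b = c • μ a b
  smul_right : ∀ (c : ℤ) a b, μ a (c • b) = c • μ a b
  l1_le : ∀ a b, l1 Z (μ a b) ≤ l1 Z a * l1 Z b

/-- negacyclic product of records of `r` coefficients (multiplication modulo `y ^ r + 1`) -/
def nega (r : ℕ) (a b : Arr) : Arr := fun u =>
  ∑ v ∈ range r, if v ≤ u then a v * b (u - v) else -(a v * b (u + r - v))

/-- cyclic convolution along an outer axis of length `n`, blocks of size `Z` multiplied by `μ` -/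
def cyc (n Z : ℕ) (μ : Arr → Arr → Arr) (a b : Arr) : Arr := fun x =>
  ∑ i ∈ range n, μ (blk Z i a) (blk Z ((x / Z + (n - i)) % n) b) (x % Z)

/-- `e + 1` nested cyclic convolutions of length `P` : the cyclic convolution on `[P] ^ (e+1)` -/
def tower (P : ℕ) : ℕ → ℕ → (Arr → Arr → Arr) → Arr → Arr → Arr
  | 0, Z, μ => cyc P Z μ
  | e + 1, Z, μ => tower P e (P * Z) (cyc P Z μ)

/-- The banded polyphase operator from shape `[R][P][Z]` to shape `[_][P][Z]`:
`out (j, ρ, z) = ∑ i < 2 R, φ ρ (j * ao - i * ai) * a (i % R, ρ, z)`. -/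
def band (P Z R ao ai : ℕ) (φ : ℕ → ℤ → ℤ) (a : Arr) : Arr := fun x =>
  ∑ i ∈ range (2 * R), φ (x / Z % P) (((x / (P * Z) * ao : ℕ) : ℤ) - ((i * ai : ℕ) : ℤ)) *
    a ((i % R * P + x / Z % P) * Z + x % Z)

/-- analysis: shape `[M][P][Z]` to shape `[M * P / Q][P][Z]` -/
def ana (P Q M Z δ : ℕ) (h : ℤ → ℤ) : Arr → Arr :=
  band P Z M Q P fun ρ m => h (m - ρ + δ)

/-- synthesis: shape `[M'][P][Z]` to shape `[M' * Q / P][P][Z]` -/
def syn (P Q M' Z δ : ℕ) (g : ℤ → ℤ) : Arr → Arr :=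
  band P Z M' P Q fun ρ m => g (m + ρ + (M' * Q : ℕ) - 2 * δ)

/-- all `e` analysis levels: shape `[P * Q ^ e][Z]` to shape `[P] ^ (e + 1) [Z]` -/
def anaAll (P Q δ : ℕ) (h : ℤ → ℤ) : ℕ → ℕ → Arr → Arr
  | 0, _, a => a
  | e + 1, Z, a => anaAll P Q δ h e (P * Z) (ana P Q (Q ^ (e + 1)) Z δ h a)

/-- all `e` synthesis levels: shape `[P] ^ (e + 1) [Z]` to shape `[P * Q ^ e][Z]` -/
def synAll (P Q δ : ℕ) (g : ℤ → ℤ) : ℕ → ℕ → Arr → Arr
  | 0, _, c => c
  | e + 1, Z, c => syn P Q (P * Q ^ e) Z δ g (synAll P Q δ g e (P * Z) c)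

/-- The integer taps of the two filters (`g` = synthesis, `h` = analysis), scaled by `2 ^ p`. -/
structure Taps (P Q p δ E : ℕ) (g h : ℤ → ℤ) : Prop where
  supp_h : ∀ m : ℤ, (δ : ℤ) < |m| → h m = 0
  supp_g : ∀ m : ℤ, (2 * δ : ℤ) < |m| → g m = 0
  abs_h : ∀ m, |h m| ≤ 2 ^ p * P
  abs_g : ∀ m, |g m| ≤ 2 ^ p * P
  nyq : ∀ n : ℤ, g (n * P) = if n = 0 then 2 ^ p else 0
  interp : ∀ x c : ℤ,
    |∑ m ∈ (Icc (-(δ : ℤ)) δ).filter (fun m => m ≡ c [ZMOD Q]), g (x - m) * h m - 2 ^ p * g x| ≤ E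

/-- floor division of every entry by `2 ^ s` -/
def shr (s : ℕ) (a : Arr) : Arr := fun x => a x / 2 ^ s

/-- division of every entry by `2 ^ s`, rounded to a nearest integer -/
def rnd (s : ℕ) (a : Arr) : Arr := fun x => (a x + 2 ^ s / 2) / 2 ^ s

/-- the norm of one level of `ana` or `syn` is at most `2 ^ p * gain P δ` -/
def gain (P δ : ℕ) : ℕ := (4 * δ + 1) * P

/-- the analysed and truncated input of the grid convolution (`e + 1` levels) -/
def prep (P Q p δ : ℕ) (h : ℤ → ℤ) (e Z : ℕ) (a : Arr) : Arr :=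
  shr (p * e) (anaAll P Q δ h (e + 1) Z a)

/-- synthesis and final rounding (`e + 1` levels) -/
def finish (P Q p δ : ℕ) (g : ℤ → ℤ) (e Z : ℕ) (c : Arr) : Arr :=
  rnd (p * (e + 3)) (synAll P Q δ g (e + 1) Z c)

/-- **Main statement of the filter bank** (`e + 1 ≥ 1` levels, grid `[P] ^ (e + 2)`). -/
def MainStatement : Prop :=
  ∀ (P Q p δ E c₀ e Z A : ℕ) (g h : ℤ → ℤ) (μ : Arr → Arr → Arr) (a b c : Arr),
    Taps P Q p δ E g h → 0 < Q → Q ≤ P → 0 < Z → 6 * δ < P * Q → E ≤ 2 ^ p * c₀ → Bil Z μ →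
    l1 (P * Q ^ (e + 1) * Z) a ≤ A → l1 (P * Q ^ (e + 1) * Z) b ≤ A →
    16 * (e + 1) * (c₀ + 1) * gain P δ ^ (3 * e + 3) * (P ^ (e + 2) * Z) ^ 2 * (A + 1) ^ 2
      ≤ 2 ^ p →
    (∀ x < P ^ (e + 2) * Z,
      c x = tower P (e + 1) Z μ (prep P Q p δ h e Z a) (prep P Q p δ h e Z b) x) →
    ∀ x < P * Q ^ (e + 1) * Z, finish P Q p δ g e Z c x = cyc (P * Q ^ (e + 1)) Z μ a b x

end Crest.Agent.X326.FB
private theorem rz_67cb25e494 : type_of% @_root_.Crest.Agent.X326.FB.anaAll.eq_def := @_root_.Crest.Agent.X326.FB.anaAll.eq_def -- L63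
private theorem rz_496734bb8d : type_of% @_root_.Crest.Agent.X326.FB.anaAll.eq_1 := @_root_.Crest.Agent.X326.FB.anaAll.eq_1 -- L63
private theorem rz_58f2a58447 : type_of% @_root_.Crest.Agent.X326.FB.synAll.eq_def := @_root_.Crest.Agent.X326.FB.synAll.eq_def -- L68
private theorem rz_90e2d203c7 : type_of% @_root_.Crest.Agent.X326.FB.synAll.eq_1 := @_root_.Crest.Agent.X326.FB.synAll.eq_1 -- L68
private theorem rz_f694ccd806 : type_of% @_root_.Crest.Agent.X326.FB.tower.eq_def := @_root_.Crest.Agent.X326.FB.tower.eq_def -- L44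
private theorem rz_8e46f45ac8 : type_of% @_root_.Crest.Agent.X326.FB.tower.eq_1 := @_root_.Crest.Agent.X326.FB.tower.eq_1 -- L44
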