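import Crest.Agent.X326.FB.MajDefs

-- ▼ part X326/FB/Maj
section

/-!
# Filter bank for row 326: algebraic properties of the filters (Nyquist property, degrees)
-/

set_option autoImplicit false

namespace Crest.Agent.X326.FB

open Polynomial Finset

/-- upper half of the binomial expansion of `(a + b)^(2n+1)` -/
def hsum {R : Type*} [CommRing R] (n : ℕ) (a b : R) : R :=
  ∑ j ∈ range (n + 1), (((2 * n + 1).choose (n + 1 + j) : ℕ) : R) * a ^ (n + 1 + j) * b ^ (n - j)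

theorem hsum_add {R : Type*} [CommRing R] (n : ℕ) (a b : R) :
    hsum n a b + hsum n b a = (a + b) ^ (2 * n + 1) := by
  rw [add_pow, show 2 * n + 1 + 1 = (n + 1) + (n + 1) by ring, Finset.sum_range_add,
    ← Finset.sum_range_reflect _ (n + 1), add_comm]
  unfold hsum
  congr 1
  · refine Finset.sum_congr rfl fun j hj => ?_
    have hj' : j ≤ n := by simpa [Nat.lt_succ_iff] using hj
    have e1 : n + 1 - 1 - j = n - j := by omega
    have e2 : 2 * n + 1 - (n - j) = n + 1 + j := by omega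
    rw [e1, e2, Nat.choose_symm_of_eq_add (show 2 * n + 1 = (n + 1 + j) + (n - j) by omega)]
    ring
  · refine Finset.sum_congr rfl fun j hj => ?_
    have hj' : j ≤ n := by simpa [Nat.lt_succ_iff] using hj
    have e2 : 2 * n + 1 - (n + 1 + j) = n - j := by omega
    rw [e2]
    ring

theorem hsum_smul {R : Type*} [CommRing R] (n : ℕ) (c a b : R) :
    hsum n (c * a) (c * b) = c ^ (2 * n + 1) * hsum n a b := by
  unfold hsum
  rw [Finset.mul_sum]
  refine Finset.sum_congr rfl fun j hj => ?_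
  have hj' : j ≤ n := by simpa [Nat.lt_succ_iff] using hj
  have e : 2 * n + 1 = (n + 1 + j) + (n - j) := by omega
  rw [mul_pow, mul_pow]
  conv_rhs => rw [e, pow_add]
  rw [← e]
  ring

theorem map_hsum {R S F : Type*} [CommRing R] [CommRing S] [FunLike F R S] [RingHomClass F R S]
    (f : F) (n : ℕ) (a b : R) : f (hsum n a b) = hsum n (f a) (f b) := by
  unfold hsum
  simp [map_sum]

theorem Mj_eq (n : ℕ) : Mj n = hsum n ((1 + X) ^ 2) (-(1 - X) ^ 2) := by
  unfold Mj hsum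
  simp

theorem aeval_Mj {A : Type*} [CommRing A] [Algebra ℤ A] (n : ℕ) (z : A) :
    aeval z (Mj n) = hsum n ((1 + z) ^ 2) (-(1 - z) ^ 2) := by
  rw [Mj_eq, map_hsum]
  simp

/-- half-band property -/
theorem Mj_sub_comp_neg (n : ℕ) :
    Mj n - (Mj n).comp (-X) = C ((4 : ℤ) ^ (2 * n + 1)) * X ^ (2 * n + 1) := by
  have h1 : (Mj n).comp (-X) = -hsum n (-(1 - X) ^ 2 : ℤ[X]) ((1 + X) ^ 2) := by
    rw [comp_eq_aeval, aeval_Mj]
    have h := hsum_smul n (-1 : ℤ[X]) (-(1 - X) ^ 2) ((1 + X) ^ 2)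
    rw [Odd.neg_one_pow ⟨n, rfl⟩] at h
    rw [neg_one_mul (hsum _ _ _)] at h
    rw [← h]
    congr 1 <;> ring
  rw [h1, sub_neg_eq_add, Mj_eq, hsum_add]
  have : ((1 + X) ^ 2 + -(1 - X) ^ 2 : ℤ[X]) = 4 * X := by ring
  rw [this, mul_pow]
  simp

theorem coeff_comp_neg_X' (p : ℤ[X]) (i : ℕ) : (p.comp (-X)).coeff i = (-1) ^ i * p.coeff i := by
  have h := Polynomial.comp_C_mul_X_coeff (p := p) (r := (-1 : ℤ)) (n := i)
  have e : (C (-1 : ℤ) * X : ℤ[X]) = -X := by simp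
  rw [e] at h
  rw [h, mul_comm]

theorem two_mul_coeff_Mj (n i : ℕ) (hi : Odd i) :
    2 * (Mj n).coeff i = if i = 2 * n + 1 then 4 ^ (2 * n + 1) else 0 := by
  have h := congrArg (fun p => p.coeff i) (Mj_sub_comp_neg n)
  simp only [coeff_sub, coeff_comp_neg_X', hi.neg_one_pow, coeff_C_mul, coeff_X_pow] at h
  split_ifs with h1
  · rw [if_pos h1] at h; linarith
  · rw [if_neg h1] at h; linarith

theorem GI_zero (n : ℕ) : GI n 0 = 1 := by simp [GI]

theorem GI_succ (n k : ℕ) : GI n (k + 1) = GI n k * expand ℤ (2 ^ k) (Mj n) := by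
  simp [GI, Finset.prod_range_succ]

theorem GI_succ' (n k : ℕ) : GI n (k + 1) = Mj n * expand ℤ 2 (GI n k) := by
  unfold GI
  rw [Finset.prod_range_succ', map_prod, mul_comm]
  congr 1
  · simp
  · refine Finset.prod_congr rfl fun i _ => ?_
    rw [expand_expand, pow_succ']

theorem sG_zero (n : ℕ) : sG n 0 = 1 := by simp [sG]

theorem sG_succ (n k : ℕ) : sG n (k + 1) = 4 ^ (2 * n + 1) * sG n k := by
  unfold sG
  rw [← pow_add]
  congr 1
  ring

theorem sG_pos (n k : ℕ) : 0 < sG n k := by unfold sG; positivity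

theorem dG_zero (n : ℕ) : dG n 0 = 0 := by simp [dG]

theorem dG_succ' (n k : ℕ) : dG n (k + 1) = (2 * n + 1) + 2 * dG n k := by
  unfold dG
  have h : 1 ≤ 2 ^ k := Nat.one_le_two_pow
  obtain ⟨u, hu⟩ : ∃ u, 2 ^ k = u + 1 := ⟨2 ^ k - 1, by omega⟩
  rw [pow_succ, hu]
  have e1 : (u + 1) * 2 - 1 = 2 * u + 1 := by omega
  rw [e1, Nat.add_sub_cancel]
  ring

theorem dG_succ (n k : ℕ) : dG n (k + 1) = dG n k + 2 ^ k * (2 * n + 1) := by
  unfold dG
  have h : 1 ≤ 2 ^ k := Nat.one_le_two_pow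
  obtain ⟨u, hu⟩ : ∃ u, 2 ^ k = u + 1 := ⟨2 ^ k - 1, by omega⟩
  rw [pow_succ, hu]
  have e1 : (u + 1) * 2 - 1 = 2 * u + 1 := by omega
  rw [e1, Nat.add_sub_cancel]
  ring


/-- **(A3) Nyquist property** of the synthesis filter. -/
theorem GI_nyquist (n k : ℕ) : ∀ i : ℕ, i ≡ dG n k [MOD 2 ^ k] →
    2 ^ k * (GI n k).coeff i = if i = dG n k then (sG n k : ℤ) else 0 := by
  induction k with
  | zero =>
    intro i _
    simp [GI_zero, dG_zero, sG_zero, coeff_one]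
  | succ k ih =>
    intro i hi
    have hodd : Odd i := by
      have h2 : i ≡ dG n (k + 1) [MOD 2] :=
        hi.of_dvd (Dvd.intro_left (2 ^ k) (by rw [pow_succ]))
      rw [dG_succ'] at h2
      unfold Nat.ModEq at h2
      rw [Nat.odd_iff]
      omega
    have key : 2 * (GI n (k + 1)).coeff i =
        if 2 * n + 1 ≤ i then 4 ^ (2 * n + 1) * (GI n k).coeff ((i - (2 * n + 1)) / 2) else 0 := by
      rw [GI_succ', coeff_mul, Finset.mul_sum]
      have h1 : ∀ x ∈ (Finset.HasAntidiagonal.antidiagonal i : Finset (ℕ × ℕ)),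
          2 * ((Mj n).coeff x.1 * (expand ℤ 2 (GI n k)).coeff x.2) =
            if x.1 = 2 * n + 1 then
              4 ^ (2 * n + 1) * (GI n k).coeff ((i - (2 * n + 1)) / 2) else 0 := by
        intro x hx
        have hx' : x.1 + x.2 = i := by simpa using hx
        rw [coeff_expand (by norm_num)]
        obtain ⟨u, hu⟩ := hodd
        by_cases h2 : 2 ∣ x.2
        · have h3 : Odd x.1 := by
            rw [Nat.odd_iff]; omega
          rw [if_pos h2, ← mul_assoc, two_mul_coeff_Mj n _ h3]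
          split_ifs with h4
          · have : x.2 = i - (2 * n + 1) := by omega
            rw [this]
          · simp
        · rw [if_neg h2, if_neg (by omega)]
          simp
      rw [Finset.sum_congr rfl h1]
      split_ifs with h
      · rw [Finset.sum_eq_single ((2 * n + 1, i - (2 * n + 1)) : ℕ × ℕ)]
        · simp
        · intro b hb hne
          have hb' : b.1 + b.2 = i := by simpa using hb
          rw [if_neg]
          intro h5
          apply hne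
          ext
          · exact h5
          · simp only; omega
        · intro hn
          exfalso
          apply hn
          have : 2 * n + 1 + (i - (2 * n + 1)) = i := by omega
          simpa using this
      · refine Finset.sum_eq_zero fun x hx => ?_
        have hx' : x.1 + x.2 = i := by simpa using hx
        rw [if_neg (by omega)]
    rw [pow_succ, mul_assoc, key]
    by_cases h : 2 * n + 1 ≤ i
    · rw [if_pos h]
      obtain ⟨u, hu⟩ := hodd
      obtain ⟨v, hv⟩ : ∃ v, i = (2 * n + 1) + 2 * v := ⟨u - n, by omega⟩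
      have e : (i - (2 * n + 1)) / 2 = v := by omega
      have hv' : v ≡ dG n k [MOD 2 ^ k] := by
        rw [dG_succ', hv, pow_succ'] at hi
        exact Nat.ModEq.mul_left_cancel' (by norm_num) (Nat.ModEq.add_left_cancel' _ hi)
      rw [e, mul_left_comm, ih v hv', dG_succ', sG_succ]
      by_cases h6 : v = dG n k
      · rw [if_pos h6, if_pos (by omega)]
        push_cast
        rfl
      · rw [if_neg h6, if_neg (by omega)]
        simp
    · rw [if_neg h, if_neg (by rw [dG_succ']; omega)]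
      simp


theorem natDegree_Mj_le (n : ℕ) : (Mj n).natDegree ≤ 2 * (2 * n + 1) := by
  unfold Mj
  refine natDegree_sum_le_of_forall_le _ _ fun j hj => ?_
  have hj' : j ≤ n := by simpa [Nat.lt_succ_iff] using hj
  have h1 : ((1 + X : ℤ[X]) ^ 2).natDegree ≤ 2 := by compute_degree
  have h2 : (-(1 - X : ℤ[X]) ^ 2).natDegree ≤ 2 := by compute_degree
  refine natDegree_mul_le.trans ?_
  have h3 : (C (((2 * n + 1).choose (n + 1 + j) : ℕ) : ℤ) *
      ((1 + X : ℤ[X]) ^ 2) ^ (n + 1 + j)).natDegree ≤ (n + 1 + j) * 2 :=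
    (natDegree_C_mul_le _ _).trans (natDegree_pow_le_of_le _ h1)
  have h4 : ((-(1 - X : ℤ[X]) ^ 2) ^ (n - j)).natDegree ≤ (n - j) * 2 :=
    natDegree_pow_le_of_le _ h2
  omega

theorem natDegree_expand_Mj_le (n q : ℕ) :
    (expand ℤ q (Mj n)).natDegree ≤ 2 * (q * (2 * n + 1)) := by
  rw [natDegree_expand]
  have := Nat.mul_le_mul_right q (natDegree_Mj_le n)
  nlinarith

theorem natDegree_GI_le (n k : ℕ) : (GI n k).natDegree ≤ 2 * dG n k := by
  induction k with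
  | zero => simp [GI_zero]
  | succ k ih =>
    rw [GI_succ, dG_succ]
    refine natDegree_mul_le.trans ?_
    have := natDegree_expand_Mj_le n (2 ^ k)
    omega

theorem natDegree_HI_le (n k Q2 : ℕ) : (HI n k Q2).natDegree ≤ 2 * dH n k Q2 := by
  unfold HI dH
  refine natDegree_mul_le.trans ?_
  have h1 := natDegree_expand_Mj_le n Q2
  have h2 := natDegree_GI_le n (k - 1)
  rw [mul_comm Q2] at h1
  omega


end Crest.Agent.X326.FB
end

-- ▼ part X326/FB/MajSup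

/-!
# Filter bank for row 326: sup bounds of the filters on the unit circle
-/

set_option autoImplicit false
set_option linter.unusedSectionVars false

namespace Crest.Agent.X326.FB

open Polynomial Finset

/-! ### the majority function -/

theorem hsum_nonneg (n : ℕ) {a b : ℝ} (ha : 0 ≤ a) (hb : 0 ≤ b) : 0 ≤ hsum n a b := by
  unfold hsum
  exact Finset.sum_nonneg fun j _ => by positivity

theorem sum_choose_upper (n : ℕ) :
    ∑ j ∈ range (n + 1), (((2 * n + 1).choose (n + 1 + j) : ℕ) : ℝ) = 4 ^ n := by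
  have h := hsum_add n (1 : ℝ) 1
  have h1 : hsum n (1 : ℝ) 1 =
      ∑ j ∈ range (n + 1), (((2 * n + 1).choose (n + 1 + j) : ℕ) : ℝ) := by
    simp [hsum]
  rw [h1] at h
  have h2 : ((1 : ℝ) + 1) ^ (2 * n + 1) = 2 * 4 ^ n := by
    rw [pow_succ, pow_mul]; norm_num; ring
  linarith

theorem hsum_le_tail (n : ℕ) {a b : ℝ} (ha : 0 ≤ a) (hab : a ≤ b) (ha1 : a ≤ 1) :
    hsum n a b ≤ (4 * (a * b)) ^ n := by
  have hb : 0 ≤ b := ha.trans hab
  rw [mul_pow, ← sum_choose_upper, Finset.sum_mul]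
  unfold hsum
  refine Finset.sum_le_sum fun j hj => ?_
  have hj' : j ≤ n := by simpa [Nat.lt_succ_iff] using hj
  rw [mul_assoc]
  refine mul_le_mul_of_nonneg_left ?_ (by positivity)
  have e1 : a ^ (n + 1 + j) = a ^ n * a * a ^ j := by rw [pow_add, pow_succ]
  have e2 : b ^ n = b ^ j * b ^ (n - j) := by rw [← pow_add]; congr 1; omega
  rw [mul_pow, e1, e2]
  have h1 : a ^ j ≤ b ^ j := pow_le_pow_left₀ ha hab j
  have h2 : a * a ^ j ≤ b ^ j := by
    have : 0 ≤ a ^ j := by positivity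
    nlinarith
  have h3 : 0 ≤ a ^ n * b ^ (n - j) := by positivity
  nlinarith

/-- frequency response of the half-band filter -/
noncomputable def am (n : ℕ) (θ : ℝ) : ℝ :=
  hsum n ((1 + Real.cos (2 * Real.pi * θ)) / 2) ((1 - Real.cos (2 * Real.pi * θ)) / 2)

theorem am_nonneg (n : ℕ) (θ : ℝ) : 0 ≤ am n θ := by
  have h1 := Real.neg_one_le_cos (2 * Real.pi * θ)
  have h2 := Real.cos_le_one (2 * Real.pi * θ)
  exact hsum_nonneg n (by linarith) (by linarith)

theorem am_add_half (n : ℕ) (θ : ℝ) : am n θ + am n (θ + 1 / 2) = 1 := by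
  unfold am
  have h : Real.cos (2 * Real.pi * (θ + 1 / 2)) = -Real.cos (2 * Real.pi * θ) := by
    rw [← Real.cos_add_pi]; congr 1; ring
  rw [h, ← sub_eq_add_neg, sub_neg_eq_add, hsum_add]
  have : (1 + Real.cos (2 * Real.pi * θ)) / 2 + (1 - Real.cos (2 * Real.pi * θ)) / 2 = 1 := by ring
  rw [this, one_pow]

theorem am_le_one (n : ℕ) (θ : ℝ) : am n θ ≤ 1 := by
  have h1 := am_add_half n θ
  have h2 := am_nonneg n (θ + 1 / 2)
  linarith

theorem am_add_int (n : ℕ) (θ : ℝ) (m : ℤ) : am n (θ + m) = am n θ := by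
  unfold am
  have h : Real.cos (2 * Real.pi * (θ + m)) = Real.cos (2 * Real.pi * θ) := by
    rw [← Real.cos_add_int_mul_two_pi (2 * Real.pi * θ) m]; congr 1; ring
  rw [h]

/-- `θ` is at distance at least `c` from the integers -/
def Far (c θ : ℝ) : Prop := ∀ m : ℤ, c ≤ |θ - m|

theorem Far.mono {c c' θ : ℝ} (h : Far c θ) (hc : c' ≤ c) : Far c' θ := fun m => hc.trans (h m)


theorem cos_le_of_far {η θ : ℝ} (hη0 : 0 ≤ η) (hη : η ≤ 1 / 4) (h : Far (1 / 4 + η) θ) :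
    Real.cos (2 * Real.pi * θ) ≤ -(4 * η) := by
  have hpi := Real.pi_pos
  set δ := θ - round θ with hδ
  have h1 : |δ| ≤ 1 / 2 := abs_sub_round θ
  have h2 : 1 / 4 + η ≤ |δ| := h (round θ)
  have h3 : Real.cos (2 * Real.pi * θ) = Real.cos (2 * Real.pi * |δ|) := by
    have e1 : 2 * Real.pi * θ = 2 * Real.pi * δ + (round θ : ℤ) * (2 * Real.pi) := by
      rw [hδ]; ring
    rw [e1, Real.cos_add_int_mul_two_pi, ← Real.cos_abs (2 * Real.pi * δ), abs_mul,
      abs_of_pos (by positivity : 0 < 2 * Real.pi)]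
  have h4 : Real.cos (2 * Real.pi * |δ|) ≤ Real.cos (2 * Real.pi * η + Real.pi / 2) := by
    apply Real.cos_le_cos_of_nonneg_of_le_pi
    · positivity
    · nlinarith
    · nlinarith
  rw [Real.cos_add_pi_div_two] at h4
  have h5 := Real.mul_le_sin (x := 2 * Real.pi * η) (by positivity) (by nlinarith)
  have h6 : 2 / Real.pi * (2 * Real.pi * η) = 4 * η := by field_simp; ring
  linarith

/-- stop band of the half-band filter -/
theorem am_le_of_far (n : ℕ) {η θ : ℝ} (hη0 : 0 ≤ η) (hη : η ≤ 1 / 4) (h : Far (1 / 4 + η) θ) :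
    am n θ ≤ (1 - 16 * η ^ 2) ^ n := by
  have h1 := cos_le_of_far hη0 hη h
  have h2 := Real.neg_one_le_cos (2 * Real.pi * θ)
  unfold am
  set c := Real.cos (2 * Real.pi * θ)
  refine (hsum_le_tail n (by linarith) (by linarith) (by linarith)).trans ?_
  refine pow_le_pow_left₀ (by nlinarith) (by nlinarith) n

/-- pass band of the half-band filter -/
theorem one_sub_am_le (n : ℕ) {η θ : ℝ} (hη0 : 0 ≤ η) (hη : η ≤ 1 / 4) (h : |θ| ≤ 1 / 4 - η) :
    1 - am n θ ≤ (1 - 16 * η ^ 2) ^ n := by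
  have h1 := am_add_half n θ
  have h2 : Far (1 / 4 + η) (θ + 1 / 2) := by
    intro m
    obtain ⟨h3, h4⟩ := abs_le.mp h
    rcases le_or_gt m 0 with hm | hm
    · have : (m : ℝ) ≤ 0 := by exact_mod_cast hm
      exact le_abs.mpr (Or.inl (by linarith))
    · have : (1 : ℝ) ≤ m := by exact_mod_cast hm
      exact le_abs.mpr (Or.inr (by linarith))
  have h3 := am_le_of_far n hη0 hη h2
  linarith

/-! ### the synthesis filter -/

/-- frequency response of `GI` -/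
noncomputable def gm (n k : ℕ) (θ : ℝ) : ℝ := ∏ i ∈ range k, am n (2 ^ i * θ)

theorem gm_nonneg (n k : ℕ) (θ : ℝ) : 0 ≤ gm n k θ :=
  Finset.prod_nonneg fun _ _ => am_nonneg _ _

theorem gm_le_one (n k : ℕ) (θ : ℝ) : gm n k θ ≤ 1 :=
  Finset.prod_le_one (fun _ _ => am_nonneg _ _) fun _ _ => am_le_one _ _

theorem gm_succ' (n k : ℕ) (θ : ℝ) : gm n (k + 1) θ = am n θ * gm n k (2 * θ) := by
  unfold gm
  rw [Finset.prod_range_succ', mul_comm]
  congr 1
  · simp
  · refine Finset.prod_congr rfl fun i _ => ?_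
    congr 1; ring

theorem gm_add_int (n k : ℕ) (θ : ℝ) (m : ℤ) : gm n k (θ + m) = gm n k θ := by
  unfold gm
  refine Finset.prod_congr rfl fun i _ => ?_
  rw [← am_add_int n (2 ^ i * θ) (2 ^ i * m)]
  congr 1
  push_cast
  ring

theorem gm_le_of_far (n : ℕ) {η : ℝ} (hη0 : 0 ≤ η) (hη : η ≤ 1 / 12) (k : ℕ) :
    ∀ θ : ℝ, Far ((1 / 4 + η) / 2 ^ k) θ → gm n (k + 1) θ ≤ (1 - 16 * η ^ 2) ^ n := by
  induction k with
  | zero =>
    intro θ h
    have h1 := am_le_of_far n hη0 (by linarith) (θ := θ) (by simpa using h)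
    simpa [gm] using h1
  | succ k ih =>
    intro θ h
    rw [gm_succ']
    by_cases h1 : Far (1 / 4 + η) θ
    · have h2 := am_le_of_far n hη0 (by linarith) h1
      have h3 := gm_le_one n (k + 1) (2 * θ)
      have h4 := am_nonneg n θ
      nlinarith
    · have h2 : Far ((1 / 4 + η) / 2 ^ k) (2 * θ) := by
        unfold Far at h1
        push Not at h1
        obtain ⟨m, hm⟩ := h1
        intro m'
        by_cases h3 : m' = 2 * m
        · have h4 := h m
          rw [h3]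
          push_cast
          rw [← mul_sub, abs_mul, abs_two]
          rw [pow_succ, ← div_div] at h4
          linarith
        · have h5 : (1 / 4 + η) / 2 ^ k ≤ 1 / 4 + η :=
            div_le_self (by linarith) (one_le_pow₀ (by norm_num))
          obtain ⟨h6, h7⟩ := abs_lt.mp hm
          rcases lt_or_gt_of_ne h3 with h8 | h8
          · have : (m' : ℝ) + 1 ≤ 2 * m := by exact_mod_cast h8
            exact le_abs.mpr (Or.inl (by linarith))
          · have : 2 * (m : ℝ) + 1 ≤ m' := by exact_mod_cast h8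
            exact le_abs.mpr (Or.inr (by linarith))
      have h3 := ih _ h2
      have h4 := am_le_one n θ
      have h5 := gm_nonneg n (k + 1) (2 * θ)
      nlinarith

theorem one_sub_gm_le (n : ℕ) {η : ℝ} (hη0 : 0 ≤ η) (hη : η ≤ 1 / 4) (k : ℕ) {θ : ℝ}
    (h : 2 ^ k * |θ| ≤ 2 * (1 / 4 - η)) : 1 - gm n k θ ≤ k * (1 - 16 * η ^ 2) ^ n := by
  induction k with
  | zero => simp [gm]
  | succ k ih =>
    have h0 : 0 ≤ |θ| := abs_nonneg θ
    have hp : (0 : ℝ) < 2 ^ k := by positivity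
    rw [pow_succ] at h
    have h1 := ih (by nlinarith)
    have h2 := one_sub_am_le n hη0 hη (θ := 2 ^ k * θ)
      (by rw [abs_mul, abs_of_pos hp]; nlinarith)
    have h3 : gm n (k + 1) θ = gm n k θ * am n (2 ^ k * θ) := by
      simp [gm, Finset.prod_range_succ]
    have h4 := gm_le_one n k θ
    have h5 := am_le_one n (2 ^ k * θ)
    rw [h3]
    push_cast
    nlinarith

/-! ### the analysis filter -/

/-- frequency response of `HI` -/
noncomputable def hm (n k Q2 : ℕ) (θ : ℝ) : ℝ := am n (Q2 * θ) * gm n (k - 1) θ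

theorem hm_nonneg (n k Q2 : ℕ) (θ : ℝ) : 0 ≤ hm n k Q2 θ :=
  mul_nonneg (am_nonneg _ _) (gm_nonneg _ _ _)

theorem hm_le_one (n k Q2 : ℕ) (θ : ℝ) : hm n k Q2 θ ≤ 1 :=
  mul_le_one₀ (am_le_one _ _) (gm_nonneg _ _ _) (gm_le_one _ _ _)

theorem hm_add_int (n k Q2 : ℕ) (θ : ℝ) (m : ℤ) : hm n k Q2 (θ + m) = hm n k Q2 θ := by
  unfold hm
  rw [gm_add_int, ← am_add_int n (Q2 * θ) (Q2 * m)]
  congr 2
  push_cast
  ring

/-- the attenuation of the filters -/
noncomputable def eps (n ν : ℕ) : ℝ := (1 - 1 / (4 * (ν : ℝ) ^ 2)) ^ n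

theorem eps_eq (n : ℕ) {ν : ℕ} (hν : 1 ≤ ν) :
    eps n ν = (1 - 16 * (1 / (8 * (ν : ℝ))) ^ 2) ^ n := by
  have : (0 : ℝ) < ν := by exact_mod_cast hν
  unfold eps
  congr 2
  field_simp
  norm_num

theorem eps_nonneg (n : ℕ) {ν : ℕ} (hν : 1 ≤ ν) : 0 ≤ eps n ν := by
  have h : (1 : ℝ) ≤ ν := by exact_mod_cast hν
  unfold eps
  refine pow_nonneg ?_ n
  have : 1 / (4 * (ν : ℝ) ^ 2) ≤ 1 := by
    rw [div_le_one (by positivity)]; nlinarith
  linarith

theorem eps_le (e : ℕ) {n ν : ℕ} (hν : 1 ≤ ν) (hn : 4 * ν ^ 2 * e ≤ n) :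
    eps n ν ≤ 1 / 2 ^ e := by
  have h : (1 : ℝ) ≤ ν := by exact_mod_cast hν
  set x : ℝ := 1 / (4 * (ν : ℝ) ^ 2) with hx
  have hx0 : 0 < x := by positivity
  have hx1 : x ≤ 1 := by
    rw [hx, div_le_one (by positivity)]; nlinarith
  have h1 : (1 - x) ^ (4 * ν ^ 2) ≤ 1 / 2 := by
    have h2 : 1 + ((4 * ν ^ 2 : ℕ) : ℝ) * x ≤ (1 + x) ^ (4 * ν ^ 2) :=
      one_add_mul_le_pow (by linarith) _
    have h3 : ((4 * ν ^ 2 : ℕ) : ℝ) * x = 1 := by
      rw [hx]; push_cast; field_simp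
    have h4 : (1 - x) ^ (4 * ν ^ 2) * (1 + x) ^ (4 * ν ^ 2) ≤ 1 := by
      rw [← mul_pow]
      exact pow_le_one₀ (by nlinarith) (by nlinarith)
    have h5 : 0 ≤ (1 - x) ^ (4 * ν ^ 2) := pow_nonneg (by linarith) _
    nlinarith
  unfold eps
  rw [← hx]
  calc (1 - x) ^ n ≤ (1 - x) ^ (4 * ν ^ 2 * e) :=
        pow_le_pow_of_le_one (by linarith) (by linarith) hn
    _ = ((1 - x) ^ (4 * ν ^ 2)) ^ e := by rw [pow_mul]
    _ ≤ (1 / 2) ^ e := pow_le_pow_left₀ (pow_nonneg (by linarith) _) h1 e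
    _ = 1 / 2 ^ e := by rw [one_div_pow]

section band

variable {n k Q2 ν : ℕ} (hν : 2 ≤ ν) (hQ0 : 0 < Q2) (hQ : 2 * Q2 * ν ≤ 2 ^ k * (ν - 1))
include hν hQ0 hQ

theorem two_le_k : 2 ≤ k := by
  by_contra h
  have h1 : 2 ^ k ≤ 2 := by
    have : k = 0 ∨ k = 1 := by omega
    rcases this with rfl | rfl <;> norm_num
  have h2 : 2 ^ k * (ν - 1) ≤ 2 * (ν - 1) := Nat.mul_le_mul_right _ h1
  have h3 : 2 * 1 * ν ≤ 2 * Q2 * ν := by gcongr; omega
  omega

/-- either `G` is small at `θ` or `θ` is close to an integer -/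
theorem gm_dichotomy (θ : ℝ) : gm n k θ ≤ eps n ν ∨
    ∃ m : ℤ, 2 ^ k * |θ - m| ≤ 1 / 2 + 2 * (1 / (8 * (ν : ℝ))) := by
  have hk := two_le_k hν hQ0 hQ
  have hν' : (2 : ℝ) ≤ ν := by exact_mod_cast hν
  obtain ⟨k, rfl⟩ : ∃ j, k = j + 1 := ⟨k - 1, by omega⟩
  have hη : 1 / (8 * (ν : ℝ)) ≤ 1 / 12 :=
    one_div_le_one_div_of_le (by norm_num) (by linarith)
  by_cases h : Far ((1 / 4 + 1 / (8 * (ν : ℝ))) / 2 ^ k) θ
  · left
    rw [eps_eq n (by omega)]
    exact gm_le_of_far n (by positivity) hη k θ h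
  · right
    unfold Far at h
    push Not at h
    obtain ⟨m, hm⟩ := h
    refine ⟨m, ?_⟩
    rw [lt_div_iff₀ (by positivity)] at hm
    rw [pow_succ]
    nlinarith

theorem Q2_mul_le {δ : ℝ} (h : 2 ^ k * |δ| ≤ 1 / 2 + 2 * (1 / (8 * (ν : ℝ)))) :
    |Q2 * δ| ≤ 1 / 4 - 1 / (8 * (ν : ℝ)) := by
  have hν' : (2 : ℝ) ≤ ν := by exact_mod_cast hν
  have hQ' : 2 * (Q2 : ℝ) * ν ≤ 2 ^ k * (ν - 1) := by
    have h1 : ((ν - 1 : ℕ) : ℝ) = ν - 1 := by
      rw [Nat.cast_sub (by omega)]; simp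
    rw [← h1]
    exact_mod_cast hQ
  have h0 := abs_nonneg δ
  rw [abs_mul, Nat.abs_cast]
  have h1 : 2 * (Q2 : ℝ) * ν * |δ| ≤ (ν - 1) * (1 / 2 + 2 * (1 / (8 * (ν : ℝ)))) := by
    calc 2 * (Q2 : ℝ) * ν * |δ| ≤ 2 ^ k * (ν - 1) * |δ| := mul_le_mul_of_nonneg_right hQ' h0
      _ = (ν - 1) * (2 ^ k * |δ|) := by ring
      _ ≤ _ := mul_le_mul_of_nonneg_left h (by linarith)
  have h2 : (ν - 1) * (1 / 2 + 2 * (1 / (8 * (ν : ℝ)))) ≤
      2 * ν * (1 / 4 - 1 / (8 * (ν : ℝ))) := by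
    have e1 : (ν : ℝ) * (1 / (8 * (ν : ℝ))) = 1 / 8 := by field_simp
    have e2 : 0 ≤ 1 / (8 * (ν : ℝ)) := by positivity
    nlinarith
  have h3 : 2 * ν * ((Q2 : ℝ) * |δ|) ≤ 2 * ν * (1 / 4 - 1 / (8 * (ν : ℝ))) := by linarith
  exact le_of_mul_le_mul_left h3 (by linarith)

/-- (A1), real form -/
theorem gm_mul_one_sub_hm (θ : ℝ) : gm n k θ * (1 - hm n k Q2 θ) ≤ k * eps n ν := by
  have hk := two_le_k hν hQ0 hQ
  have hk' : (2 : ℝ) ≤ k := by exact_mod_cast hk
  have hν' : (2 : ℝ) ≤ ν := by exact_mod_cast hν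
  have he := eps_nonneg n (ν := ν) (by omega)
  have hη : 1 / (8 * (ν : ℝ)) ≤ 1 / 12 :=
    one_div_le_one_div_of_le (by norm_num) (by linarith)
  have hη0 : 0 ≤ 1 / (8 * (ν : ℝ)) := by positivity
  have g0 := gm_nonneg n k θ
  have g1 := gm_le_one n k θ
  have h0 := hm_nonneg n k Q2 θ
  have h1 := hm_le_one n k Q2 θ
  rcases gm_dichotomy (n := n) hν hQ0 hQ θ with h | ⟨m, hm'⟩
  · nlinarith
  · have e : hm n k Q2 θ = hm n k Q2 (θ - m) := by
      rw [← hm_add_int n k Q2 (θ - m) m, sub_add_cancel]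
    set δ := θ - m
    have h2 := one_sub_am_le n hη0 (by linarith) (Q2_mul_le hν hQ0 hQ hm')
    obtain ⟨k, rfl⟩ : ∃ j, k = j + 1 := ⟨k - 1, by omega⟩
    have h3 := one_sub_gm_le n hη0 (by linarith) k (θ := δ) (by
      rw [pow_succ] at hm'
      nlinarith)
    rw [← eps_eq n (by omega)] at h2 h3
    have h4 : 1 - hm n (k + 1) Q2 δ ≤ (k + 1) * eps n ν := by
      unfold hm
      rw [Nat.add_sub_cancel]
      have h5 := am_le_one n (Q2 * δ)
      have h6 := gm_le_one n k δ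
      nlinarith
    rw [e] at h0 h1 ⊢
    push_cast
    nlinarith

/-- (A2), real form -/
theorem gm_mul_hm_shift (θ : ℝ) (u : ℤ) (hu : ¬ ((2 * Q2 : ℕ) : ℤ) ∣ u) :
    gm n k θ * hm n k Q2 (θ + u / (2 * Q2)) ≤ eps n ν := by
  have hk := two_le_k hν hQ0 hQ
  have hν' : (2 : ℝ) ≤ ν := by exact_mod_cast hν
  have hQ0' : (0 : ℝ) < Q2 := by exact_mod_cast hQ0
  have he := eps_nonneg n (ν := ν) (by omega)
  have hη : 1 / (8 * (ν : ℝ)) ≤ 1 / 12 :=
    one_div_le_one_div_of_le (by norm_num) (by linarith)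
  have hη0 : 0 ≤ 1 / (8 * (ν : ℝ)) := by positivity
  have g0 := gm_nonneg n k θ
  have g1 := gm_le_one n k θ
  have h0 := hm_nonneg n k Q2 (θ + u / (2 * Q2))
  have h1 := hm_le_one n k Q2 (θ + u / (2 * Q2))
  rcases gm_dichotomy (n := n) hν hQ0 hQ θ with h | ⟨m, hm'⟩
  · nlinarith
  · have e : hm n k Q2 (θ + u / (2 * Q2)) = hm n k Q2 ((θ - m) + u / (2 * Q2)) := by
      rw [← hm_add_int n k Q2 ((θ - m) + u / (2 * Q2)) m]
      congr 1; ring
    set δ := θ - m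
    suffices h2 : hm n k Q2 (δ + u / (2 * Q2)) ≤ eps n ν by
      rw [e] at h0 ⊢
      nlinarith
    unfold hm
    have a0 := am_nonneg n (Q2 * (δ + u / (2 * Q2)))
    have a1 := am_le_one n (Q2 * (δ + u / (2 * Q2)))
    have b0 := gm_nonneg n (k - 1) (δ + u / (2 * Q2))
    have b1 := gm_le_one n (k - 1) (δ + u / (2 * Q2))
    rcases Int.even_or_odd' u with ⟨v, hv | hv⟩
    · -- even shift: the product filter is small
      obtain ⟨k, rfl⟩ : ∃ j, k = j + 2 := ⟨k - 2, by omega⟩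
      have h3 : Far ((1 / 4 + 1 / (8 * (ν : ℝ))) / 2 ^ k) (δ + u / (2 * Q2)) := by
        intro m'
        have h4 : v - m' * Q2 ≠ 0 := by
          intro h5
          apply hu
          refine ⟨m', ?_⟩
          push_cast
          linarith
        have h5 : (1 : ℝ) ≤ |(v : ℝ) - m' * Q2| := by
          have := Int.one_le_abs h4
          exact_mod_cast this
        have h6 : δ + u / (2 * Q2) - m' = ((v : ℝ) - m' * Q2) / Q2 + δ := by
          rw [hv]; push_cast; field_simp; ring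
        have h7 : 1 / (Q2 : ℝ) ≤ |((v : ℝ) - m' * Q2) / Q2| := by
          rw [abs_div, Nat.abs_cast]
          exact div_le_div_of_nonneg_right h5 hQ0'.le
        have h8 : |((v : ℝ) - m' * Q2) / Q2| - |δ| ≤ |((v : ℝ) - m' * Q2) / Q2 + δ| := by
          have := abs_sub_abs_le_abs_sub (((v : ℝ) - m' * Q2) / Q2) (-δ)
          rwa [abs_neg, sub_neg_eq_add] at this
        have h9 : 2 * Q2 ≤ 2 ^ (k + 2) := by
          have h10 : 2 * Q2 * ν ≤ 2 ^ (k + 2) * ν :=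
            hQ.trans (Nat.mul_le_mul_left _ (Nat.sub_le _ _))
          exact Nat.le_of_mul_le_mul_right h10 (by omega)
        have h10 : 2 * (Q2 : ℝ) ≤ 2 ^ k * 4 := by
          have : ((2 * Q2 : ℕ) : ℝ) ≤ ((2 ^ (k + 2) : ℕ) : ℝ) := by exact_mod_cast h9
          push_cast at this
          rw [pow_add] at this
          linarith
        have hp : (0 : ℝ) < 2 ^ k := by positivity
        have h11 : 1 / 2 ≤ 2 ^ k * (1 / (Q2 : ℝ)) := by
          rw [mul_one_div, le_div_iff₀ hQ0']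
          linarith
        rw [h6, div_le_iff₀ hp]
        rw [pow_add] at hm'
        nlinarith
      have h4 := gm_le_of_far n hη0 hη k _ h3
      rw [← eps_eq n (by omega)] at h4
      have e2 : k + 2 - 1 = k + 1 := by omega
      rw [e2] at b0 b1 ⊢
      nlinarith
    · -- odd shift: the first factor is small
      have h2 := one_sub_am_le n hη0 (by linarith) (Q2_mul_le hν hQ0 hQ hm')
      rw [← eps_eq n (by omega)] at h2
      have h3 : am n (Q2 * (δ + u / (2 * Q2))) = am n (Q2 * δ + 1 / 2) := by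
        rw [← am_add_int n (Q2 * δ + 1 / 2) v]
        congr 1
        rw [hv]; push_cast; field_simp; ring
      have h4 := am_add_half n (Q2 * δ)
      rw [h3] at a0 ⊢
      nlinarith

end band

/-! ### evaluation on the unit circle -/

/-- `exp (2 π i θ)` -/
noncomputable def ez (θ : ℝ) : ℂ := Complex.exp (((2 * Real.pi * θ : ℝ) : ℂ) * Complex.I)

theorem norm_ez (θ : ℝ) : ‖ez θ‖ = 1 := Complex.norm_exp_ofReal_mul_I _

theorem ez_add (θ φ : ℝ) : ez (θ + φ) = ez θ * ez φ := by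
  unfold ez
  rw [← Complex.exp_add]
  congr 1
  push_cast
  ring

theorem ez_pow (θ : ℝ) (q : ℕ) : ez θ ^ q = ez (q * θ) := by
  unfold ez
  rw [← Complex.exp_nat_mul]
  congr 1
  push_cast
  ring

theorem ez_int (m : ℤ) : ez m = 1 := by
  unfold ez
  rw [← Complex.exp_int_mul_two_pi_mul_I m]
  congr 1
  push_cast
  ring

theorem exists_ez {z : ℂ} (hz : ‖z‖ = 1) : ∃ θ : ℝ, z = ez θ := by
  refine ⟨z.arg / (2 * Real.pi), ?_⟩
  have h := Complex.norm_mul_exp_arg_mul_I z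
  rw [hz] at h
  unfold ez
  have hpi := Real.pi_pos
  have e : 2 * Real.pi * (z.arg / (2 * Real.pi)) = z.arg := by field_simp
  rw [e]
  simpa using h.symm

theorem exists_ez_root {w : ℂ} {q : ℕ} (hq : 0 < q) (hw : w ^ q = 1) :
    ∃ u : ℤ, w = ez (u / q) := by
  have hw1 : ‖w‖ = 1 := Complex.norm_eq_one_of_pow_eq_one hw hq.ne'
  obtain ⟨θ, rfl⟩ := exists_ez hw1
  rw [ez_pow] at hw
  unfold ez at hw
  obtain ⟨u, hu⟩ := Complex.exp_eq_one_iff.mp hw
  refine ⟨u, ?_⟩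
  congr 1
  have hq' : (0 : ℝ) < q := by exact_mod_cast hq
  have hpi := Real.pi_pos
  have h1 : ((2 * Real.pi * (q * θ) : ℝ) : ℂ) = ((u * (2 * Real.pi) : ℝ) : ℂ) := by
    apply mul_right_cancel₀ Complex.I_ne_zero
    rw [hu]; push_cast; ring
  have h2 : 2 * Real.pi * (q * θ) = u * (2 * Real.pi) := by exact_mod_cast h1
  field_simp at h2 ⊢
  linarith

theorem aeval_ez_Mj (n : ℕ) (θ : ℝ) :
    aeval (ez θ) (Mj n) = 4 ^ (2 * n + 1) * ez θ ^ (2 * n + 1) * (am n θ : ℂ) := by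
  have hc : 2 * ez θ * (Real.cos (2 * Real.pi * θ) : ℂ) = ez θ ^ 2 + 1 := by
    have h1 := Complex.two_cos ((2 * Real.pi * θ : ℝ) : ℂ)
    have h2 : ez θ * Complex.exp (-((2 * Real.pi * θ : ℝ) : ℂ) * Complex.I) = 1 := by
      unfold ez
      rw [← Complex.exp_add]
      simp
    rw [Complex.ofReal_cos]
    change _ = ez θ + _ at h1
    linear_combination ez θ * h1 + h2
  have h3 : (am n θ : ℂ) = hsum n ((1 + (Real.cos (2 * Real.pi * θ) : ℂ)) / 2)
      ((1 - (Real.cos (2 * Real.pi * θ) : ℂ)) / 2) := by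
    unfold am
    have := map_hsum Complex.ofRealHom n ((1 + Real.cos (2 * Real.pi * θ)) / 2)
      ((1 - Real.cos (2 * Real.pi * θ)) / 2)
    simp only [Complex.ofRealHom_eq_coe] at this
    rw [this]
    congr 1 <;> push_cast <;> rfl
  rw [aeval_Mj, h3, ← mul_pow, ← hsum_smul]
  congr 1
  · linear_combination (-1 : ℂ) * hc
  · linear_combination hc

theorem aeval_ez_expand_Mj (n q : ℕ) (θ : ℝ) :
    aeval (ez θ) (expand ℤ q (Mj n)) =
      4 ^ (2 * n + 1) * ez θ ^ (q * (2 * n + 1)) * (am n (q * θ) : ℂ) := by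
  rw [expand_aeval, ez_pow, aeval_ez_Mj, ← ez_pow, ← pow_mul]

theorem aeval_ez_GI (n k : ℕ) (θ : ℝ) :
    aeval (ez θ) (GI n k) = (sG n k : ℂ) * ez θ ^ dG n k * (gm n k θ : ℂ) := by
  induction k with
  | zero => simp [GI_zero, sG_zero, dG_zero, gm]
  | succ k ih =>
    have h3 : gm n (k + 1) θ = gm n k θ * am n (2 ^ k * θ) := by
      simp [gm, Finset.prod_range_succ]
    rw [GI_succ, map_mul, ih, aeval_ez_expand_Mj, sG_succ, dG_succ, h3, pow_add (ez θ)]
    push_cast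
    ring

theorem aeval_ez_HI (n Q2 : ℕ) {k : ℕ} (hk : 1 ≤ k) (θ : ℝ) :
    aeval (ez θ) (HI n k Q2) = (sG n k : ℂ) * ez θ ^ dH n k Q2 * (hm n k Q2 θ : ℂ) := by
  obtain ⟨k, rfl⟩ : ∃ j, k = j + 1 := ⟨k - 1, by omega⟩
  unfold HI dH hm
  rw [Nat.add_sub_cancel, map_mul, aeval_ez_GI, aeval_ez_expand_Mj, sG_succ, pow_add (ez θ),
    mul_comm (2 * n + 1) Q2]
  push_cast
  ring

theorem sG_ne_zero (n k : ℕ) : (sG n k : ℂ) ≠ 0 := by
  exact_mod_cast (sG_pos n k).ne'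

theorem GI_div (n k : ℕ) (θ : ℝ) :
    aeval (ez θ) (GI n k) / (sG n k : ℂ) = ez θ ^ dG n k * (gm n k θ : ℂ) := by
  rw [aeval_ez_GI, mul_assoc, mul_div_cancel_left₀ _ (sG_ne_zero n k)]

theorem HI_div (n Q2 : ℕ) {k : ℕ} (hk : 1 ≤ k) (θ : ℝ) :
    aeval (ez θ) (HI n k Q2) / (sG n k : ℂ) = ez θ ^ dH n k Q2 * (hm n k Q2 θ : ℂ) := by
  rw [aeval_ez_HI n Q2 hk, mul_assoc, mul_div_cancel_left₀ _ (sG_ne_zero n k)]

/-- **(A0)** for the synthesis filter -/
theorem norm_GI_le (n k : ℕ) {z : ℂ} (hz : ‖z‖ = 1) :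
    ‖aeval z (GI n k) / (sG n k : ℂ)‖ ≤ 1 := by
  obtain ⟨θ, rfl⟩ := exists_ez hz
  rw [GI_div, norm_mul, norm_pow, hz, one_pow, one_mul, Complex.norm_real,
    Real.norm_of_nonneg (gm_nonneg _ _ _)]
  exact gm_le_one _ _ _

/-- **(A0)** for the analysis filter -/
theorem norm_HI_le (n Q2 : ℕ) {k : ℕ} (hk : 1 ≤ k) {z : ℂ} (hz : ‖z‖ = 1) :
    ‖aeval z (HI n k Q2) / (sG n k : ℂ)‖ ≤ 1 := by
  obtain ⟨θ, rfl⟩ := exists_ez hz
  rw [HI_div n Q2 hk, norm_mul, norm_pow, hz, one_pow, one_mul, Complex.norm_real,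
    Real.norm_of_nonneg (hm_nonneg _ _ _ _)]
  exact hm_le_one _ _ _ _

/-- **(A1)** -/
theorem norm_GI_mul_HI_sub_le (n : ℕ) {k Q2 ν : ℕ} (hν : 2 ≤ ν) (hQ0 : 0 < Q2)
    (hQ : 2 * Q2 * ν ≤ 2 ^ k * (ν - 1)) {z : ℂ} (hz : ‖z‖ = 1) :
    ‖aeval z (GI n k) / (sG n k : ℂ) *
      (aeval z (HI n k Q2) / (sG n k : ℂ) - z ^ dH n k Q2)‖ ≤ k * eps n ν := by
  have hk := two_le_k hν hQ0 hQ
  obtain ⟨θ, rfl⟩ := exists_ez hz
  rw [GI_div, HI_div n Q2 (by omega)]
  have e : ez θ ^ dG n k * (gm n k θ : ℂ) *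
      (ez θ ^ dH n k Q2 * (hm n k Q2 θ : ℂ) - ez θ ^ dH n k Q2) =
      -(ez θ ^ (dG n k + dH n k Q2) * ((gm n k θ * (1 - hm n k Q2 θ) : ℝ) : ℂ)) := by
    push_cast
    ring
  rw [e, norm_neg, norm_mul, norm_pow, hz, one_pow, one_mul, Complex.norm_real,
    Real.norm_of_nonneg (mul_nonneg (gm_nonneg _ _ _) (sub_nonneg.mpr (hm_le_one _ _ _ _)))]
  exact gm_mul_one_sub_hm hν hQ0 hQ θ

/-- **(A2)** -/
theorem norm_GI_mul_HI_shift_le (n : ℕ) {k Q2 ν : ℕ} (hν : 2 ≤ ν) (hQ0 : 0 < Q2)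
    (hQ : 2 * Q2 * ν ≤ 2 ^ k * (ν - 1)) {z w : ℂ} (hz : ‖z‖ = 1) (hw : w ^ (2 * Q2) = 1)
    (hw1 : w ≠ 1) :
    ‖aeval z (GI n k) / (sG n k : ℂ) * (aeval (w * z) (HI n k Q2) / (sG n k : ℂ))‖ ≤
      eps n ν := by
  have hk := two_le_k hν hQ0 hQ
  obtain ⟨θ, rfl⟩ := exists_ez hz
  obtain ⟨u, rfl⟩ := exists_ez_root (by omega) hw
  have hu : ¬ ((2 * Q2 : ℕ) : ℤ) ∣ u := by
    rintro ⟨v, rfl⟩
    apply hw1
    rw [← ez_int v]
    congr 1
    have : (0 : ℝ) < Q2 := by exact_mod_cast hQ0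
    push_cast
    field_simp
  rw [← ez_add, add_comm, GI_div, HI_div n Q2 (by omega)]
  simp only [norm_mul, norm_pow, norm_ez, one_pow, one_mul, Complex.norm_real]
  rw [Real.norm_of_nonneg (gm_nonneg _ _ _), Real.norm_of_nonneg (hm_nonneg _ _ _ _)]
  have h := gm_mul_hm_shift (n := n) hν hQ0 hQ θ u hu
  push_cast
  exact h

end Crest.Agent.X326.FB
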