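import Crest.Agent.X326.FB.PolyDefs

/-!
# Row 326, filter bank: all levels on lists (definitions and statements)
-/

set_option autoImplicit false

namespace Crest.Agent.X326.FB

open Crest.Agent.Lib.PT

/-- all analysis levels on lists -/
def anaAllL (ν β : ℕ) (tb : List (List ℤ)) : ℕ → ℕ → List ℤ → List ℤ
  | 0, _, x => x
  | e + 1, Z, x => anaAllL ν β tb e (tb.length * Z) (anaL Z ν β tb x)

/-- all synthesis levels on lists -/
def synAllL (ν β : ℕ) (tb : List (List ℤ)) : ℕ → ℕ → List ℤ → List ℤ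
  | 0, _, x => x
  | e + 1, Z, x => synL Z ν β tb (synAllL ν β tb e (tb.length * Z) x)

/-- list version of `prep` -/
def prepL (ν β p e Z : ℕ) (tb : List (List ℤ)) (x : List ℤ) : List ℤ :=
  (anaAllL ν β tb (e + 1) Z x).map fun v => v / 2 ^ (p * e)

/-- list version of `finish` -/
def finishL (ν β p e Z : ℕ) (tb : List (List ℤ)) (x : List ℤ) : List ℤ :=
  (synAllL ν β tb (e + 1) Z x).map fun v => (v + 2 ^ (p * (e + 3)) / 2) / 2 ^ (p * (e + 3))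

/-- conditions on the parameters of the bank -/
structure BankOk (P Q γ ν β δ Z : ℕ) : Prop where
  P_eq : P = γ * ν
  Q_eq : Q = γ * (ν - 1)
  γ_pos : 0 < γ
  two_le : 2 ≤ ν
  Z_pos : 0 < Z
  dvd : 2 ^ β ∣ P
  room : 4 * δ + P ≤ γ * 2 ^ β

/-- **correctness of `prepL`** (`FB/PolyAll.lean`) -/
def PrepLStatement : Prop :=
  ∀ (P Q γ ν β δ Z p e : ℕ) (h : ℤ → ℤ) (a : Arr), BankOk P Q γ ν β δ Z →
    (∀ m : ℤ, (δ : ℤ) < |m| → h m = 0) →
    prepL ν β p e Z (tabA P γ (δ + Q) (2 ^ β) h) (tab (P * Q ^ (e + 1) * Z) a) =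
      tab (P ^ (e + 2) * Z) (prep P Q p δ h e Z a)

/-- **correctness of `finishL`** (`FB/PolyAll.lean`) -/
def FinishLStatement : Prop :=
  ∀ (P Q γ ν β δ Z p e : ℕ) (g : ℤ → ℤ) (c : Arr), BankOk P Q γ ν β δ Z →
    (∀ m : ℤ, (2 * δ : ℤ) < |m| → g m = 0) →
    finishL ν β p e Z (tabS P γ δ (2 ^ β) g) (tab (P ^ (e + 2) * Z) c) =
      tab (P * Q ^ (e + 1) * Z) (finish P Q p δ g e Z c)

/-- cost of all levels: `w` = width of the input, `wt` = width of the taps -/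
def bankCost (μ : ℕ → ℕ → ℕ) (P ν β Z e w wt : ℕ) : ℕ :=
  (e + 1) * bandCost μ (ν * (P ^ (e + 2) * Z)) β (w + (e + 1) * (wt + β))

/-- **time of `prepL`** (`FB/PolyAll.lean`) -/
def PrepLTC (μ : ℕ → ℕ → ℕ) : Prop :=
  ∀ (ι : Type) [PTCode ι] (D : ι → Prop) (T : ι → ℕ) (P Q γ ν β δ Z p e w wt : ι → ℕ)
    (h : ι → ℤ → ℤ) (x : ι → List ℤ),
    TU D T Z → TU D T ν → TU D T β → TU D T p → TU D T e →
    TC D T (fun a => tabA (P a) (γ a) (δ a + Q a) (2 ^ β a) (h a)) → TC D T x →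
    (∀ a, D a → BankOk (P a) (Q a) (γ a) (ν a) (β a) (δ a) (Z a) ∧
      (∀ m : ℤ, (δ a : ℤ) < |m| → h a m = 0) ∧ (∀ m, |h a m| < 2 ^ wt a) ∧ p a ≤ wt a ∧
      (x a).length = P a * Q a ^ (e a + 1) * Z a ∧ Wd (w a) (x a)) →
    Bud D T (fun a => bankCost μ (P a) (ν a) (β a) (Z a) (e a) (w a) (wt a)) →
    TC D T (fun a => prepL (ν a) (β a) (p a) (e a) (Z a)
      (tabA (P a) (γ a) (δ a + Q a) (2 ^ β a) (h a)) (x a))

/-- **time of `finishL`** (`FB/PolyAll.lean`) -/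
def FinishLTC (μ : ℕ → ℕ → ℕ) : Prop :=
  ∀ (ι : Type) [PTCode ι] (D : ι → Prop) (T : ι → ℕ) (P Q γ ν β δ Z p e w wt : ι → ℕ)
    (g : ι → ℤ → ℤ) (x : ι → List ℤ),
    TU D T Z → TU D T ν → TU D T β → TU D T p → TU D T e →
    TC D T (fun a => tabS (P a) (γ a) (δ a) (2 ^ β a) (g a)) → TC D T x →
    (∀ a, D a → BankOk (P a) (Q a) (γ a) (ν a) (β a) (δ a) (Z a) ∧
      (∀ m : ℤ, (2 * δ a : ℤ) < |m| → g a m = 0) ∧ (∀ m, |g a m| < 2 ^ wt a) ∧ p a ≤ wt a ∧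
      (x a).length = P a ^ (e a + 2) * Z a ∧ Wd (w a) (x a)) →
    Bud D T (fun a => bankCost μ (P a) (ν a) (β a) (Z a) (e a) (w a) (wt a)) →
    TC D T (fun a => finishL (ν a) (β a) (p a) (e a) (Z a)
      (tabS (P a) (γ a) (δ a) (2 ^ β a) (g a)) (x a))

end Crest.Agent.X326.FB
private theorem rz_f53468f597 : type_of% @_root_.Crest.Agent.X326.FB.anaAllL.eq_def := @_root_.Crest.Agent.X326.FB.anaAllL.eq_def -- L14
private theorem rz_e44e900988 : type_of% @_root_.Crest.Agent.X326.FB.anaAllL.eq_1 := @_root_.Crest.Agent.X326.FB.anaAllL.eq_1 -- L14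
private theorem rz_0a5f71ef62 : type_of% @_root_.Crest.Agent.X326.FB.synAllL.eq_def := @_root_.Crest.Agent.X326.FB.synAllL.eq_def -- L19
private theorem rz_20b46b48a7 : type_of% @_root_.Crest.Agent.X326.FB.synAllL.eq_1 := @_root_.Crest.Agent.X326.FB.synAllL.eq_1 -- L19
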