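import Crest.Agent.X326.TC.Merge

/-!
# Row 326: tabulated lists

`tab n f = [f 0, …, f (n - 1)]`, with the action of the usual list operations.
-/

set_option autoImplicit false

namespace Crest.Agent.X326.FB

open Crest.Agent.Lib.PT

variable {α β γ : Type}

/-- the list `[f 0, …, f (n - 1)]` -/
def tab (n : ℕ) (f : ℕ → α) : List α := (List.range n).map f

@[simp] theorem length_tab (n : ℕ) (f : ℕ → α) : (tab n f).length = n := by simp [tab]

@[simp] theorem tab_zero (f : ℕ → α) : tab 0 f = [] := rfl

theorem tab_succ (n : ℕ) (f : ℕ → α) : tab (n + 1) f = f 0 :: tab n (fun i => f (i + 1)) := by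
  simp [tab, List.range_succ_eq_map, Function.comp_def]

theorem tab_succ' (n : ℕ) (f : ℕ → α) : tab (n + 1) f = tab n f ++ [f n] := by
  simp [tab, List.range_succ]

theorem tab_one (f : ℕ → α) : tab 1 f = [f 0] := rfl

theorem tab_two (f : ℕ → α) : tab 2 f = [f 0, f 1] := rfl

theorem tab_congr {n : ℕ} {f g : ℕ → α} (h : ∀ i < n, f i = g i) : tab n f = tab n g :=
  List.map_congr_left fun i hi => h i (List.mem_range.1 hi)

theorem tab_congr' {n m : ℕ} {f g : ℕ → α} (e : n = m) (h : ∀ i < n, f i = g i) :
    tab n f = tab m g := e ▸ tab_congr h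

@[simp] theorem getElem_tab {n : ℕ} (f : ℕ → α) (i : ℕ) (h : i < (tab n f).length) :
    (tab n f)[i] = f i := by simp [tab]

theorem getElem?_tab {n i : ℕ} (f : ℕ → α) (h : i < n) : (tab n f)[i]? = some (f i) := by
  simp [tab, h]

theorem getD_tab {n i : ℕ} (f : ℕ → α) (d : α) (h : i < n) : (tab n f).getD i d = f i := by
  simp [List.getD_eq_getElem?_getD, getElem?_tab f h]


theorem mem_tab {n : ℕ} {f : ℕ → α} {a : α} : a ∈ tab n f ↔ ∃ i < n, f i = a := by
  simp [tab]

theorem forall_mem_tab {n : ℕ} {f : ℕ → α} {p : α → Prop} :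
    (∀ a ∈ tab n f, p a) ↔ ∀ i < n, p (f i) := by
  simp [tab]

/-- every list is tabulated -/
theorem tab_getD (l : List α) (d : α) : tab l.length (fun i => l.getD i d) = l := by
  refine List.ext_getElem (by simp) fun i h1 h2 => ?_
  simp [List.getD_eq_getElem?_getD, List.getElem?_eq_getElem h2]

theorem eq_tab {l : List α} {n : ℕ} (h : l.length = n) (d : α) :
    l = tab n (fun i => l.getD i d) := by rw [← h, tab_getD]


@[simp] theorem map_tab (n : ℕ) (f : ℕ → α) (g : α → β) :
    (tab n f).map g = tab n (fun i => g (f i)) := by simp [tab]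

theorem zipWith_tab (n : ℕ) (f : ℕ → α) (g : ℕ → β) (op : α → β → γ) :
    List.zipWith op (tab n f) (tab n g) = tab n (fun i => op (f i) (g i)) := by
  refine List.ext_getElem (by simp) fun i h1 h2 => by simp

theorem zip_tab (n : ℕ) (f : ℕ → α) (g : ℕ → β) :
    List.zip (tab n f) (tab n g) = tab n (fun i => (f i, g i)) := zipWith_tab n f g _

theorem tab_add (a b : ℕ) (f : ℕ → α) :
    tab (a + b) f = tab a f ++ tab b (fun i => f (a + i)) := by
  simp [tab, List.range_add, Function.comp_def]

theorem append_tab (a b : ℕ) (f g : ℕ → α) :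
    tab a f ++ tab b g = tab (a + b) (fun i => if i < a then f i else g (i - a)) := by
  rw [tab_add]
  congr 1
  · exact tab_congr fun i hi => by simp [hi]
  · exact tab_congr fun i _ => by simp

theorem take_tab {k n : ℕ} (f : ℕ → α) (h : k ≤ n) : (tab n f).take k = tab k f := by
  obtain ⟨m, rfl⟩ := Nat.exists_eq_add_of_le h
  rw [tab_add, List.take_left' (by simp)]

theorem drop_tab (k n : ℕ) (f : ℕ → α) : (tab n f).drop k = tab (n - k) (fun i => f (k + i)) := by
  refine List.ext_getElem (by simp) fun i h1 h2 => by simp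

theorem replicate_eq_tab (n : ℕ) (a : α) : List.replicate n a = tab n (fun _ => a) := by
  simp [tab]

theorem rotate_tab (n k : ℕ) (f : ℕ → α) :
    (tab n f).rotate k = tab n (fun i => f ((i + k) % n)) := by
  refine List.ext_getElem (by simp) fun i h1 h2 => ?_
  simp [List.getElem_rotate]

theorem headD_tab {n : ℕ} (f : ℕ → α) (d : α) (h : 0 < n) : (tab n f).headD d = f 0 := by
  obtain ⟨m, rfl⟩ : ∃ m, n = m + 1 := ⟨n - 1, by omega⟩
  simp [tab_succ]

theorem tab_mul (n c : ℕ) (f : ℕ → α) :
    tab (n * c) f = (tab n fun i => tab c fun j => f (i * c + j)).flatten := by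
  induction n with
  | zero => simp
  | succ n ih => rw [Nat.succ_mul, tab_add, ih, tab_succ']; simp

theorem flatten_tab (n c : ℕ) (f : ℕ → ℕ → α) :
    (tab n fun i => tab c (f i)).flatten = tab (n * c) (fun k => f (k / c) (k % c)) := by
  rw [tab_mul]
  congr 1
  refine tab_congr fun i _ => tab_congr fun j hj => ?_
  have hc : 0 < c := by omega
  rw [Nat.mul_comm, Nat.mul_add_div hc, Nat.div_eq_of_lt hj, Nat.add_zero, Nat.mul_add_mod,
    Nat.mod_eq_of_lt hj]

theorem flatMap_tab (n c : ℕ) (f : ℕ → α) (g : α → List β) (F : ℕ → ℕ → β)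
    (h : ∀ i < n, g (f i) = tab c (F i)) :
    (tab n f).flatMap g = tab (n * c) (fun k => F (k / c) (k % c)) := by
  rw [List.flatMap_def, map_tab, tab_congr h, flatten_tab]

theorem chunks_tab (n : ℕ) {c : ℕ} (hc : 0 < c) (f : ℕ → α) :
    chunks c (tab (n * c) f) = tab n fun i => tab c fun j => f (i * c + j) := by
  induction n generalizing f with
  | zero => simp
  | succ n ih =>
    have hne : tab ((n + 1) * c) f ≠ [] := by
      intro h
      have := congrArg List.length h
      simp at this
      omega
    rw [chunks_of_ne hc.ne' hne, take_tab f (by nlinarith), drop_tab,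
      show (n + 1) * c - c = n * c by rw [Nat.succ_mul]; omega, ih, tab_succ]
    congr 1
    · exact tab_congr fun j _ => by simp
    · exact tab_congr fun i _ => tab_congr fun j _ => by congr 1; ring


theorem sum_tab {M : Type} [AddCommMonoid M] (n : ℕ) (f : ℕ → M) :
    (tab n f).sum = ∑ i ∈ Finset.range n, f i := by
  induction n with
  | zero => simp
  | succ n ih => rw [tab_succ', List.sum_append, ih, Finset.sum_range_succ]; simp

theorem sz_tab_le [PTCode α] {n s : ℕ} {f : ℕ → α} (h : ∀ i < n, sz (f i) ≤ s) :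
    sz (tab n f) ≤ n * (2 * s + 1) := by
  induction n with
  | zero => simp
  | succ n ih =>
    have h1 := ih fun i hi => h i (by omega)
    have h2 := h n (by omega)
    rw [tab_succ', sz_append, Nat.succ_mul]
    simp only [sz_cons, sz_nil]
    omega

end Crest.Agent.X326.FB
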