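import Crest.Agent.X326.Top.Digits
import Crest.Agent.X326.Top.Par
import Crest.Agent.X326.TC.Core
import Crest.Agent.X326.FB.Defs
import Crest.Agent.X326.Top.Grid_Mg
import Crest.Agent.X326.TC.MergeSpec
import Crest.Agent.X326.Mul.Defs
import Crest.Agent.X326.TC.Cases
import Crest.Prelude.Def_TimeBound
import Crest.Agent.X326.TC.ListLin
import Crest.Agent.X326.TC.MapAccum
import Crest.Prelude.Def_IntMul
import Crest.Agent.X326.TC.Map
import Crest.Agent.X326.TC.Un
import Crest.Agent.X326.Top.ParPT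
import Crest.Agent.X326.TC.NatLin
import Crest.Agent.X326.FB.PolyAllDefs
import Crest.Agent.X326.TC.IntLin

-- ▼ part X326/Top/Spec
section

/-!
# Row 326, top level: the interface between the pipeline and the final assembly

All statements are indexed by `L = size n` (given in unary); the parameters are those of
`Top/Par.lean`.
-/

set_option autoImplicit false

namespace Crest.Agent.X326.Top

open Crest.Agent.Lib.PT FB Par

/-- a flat list of `NN L` records of `rr L` digits below `2 ^ L` -/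
def DigL (L : ℕ) (l : List ℤ) : Prop := l.length = NN L * rr L ∧ ∀ z ∈ l, 0 ≤ z ∧ z < 2 ^ L

/-- **What the pipeline delivers** (`Top/Pipe*.lean`): for all large `L` the exact cyclic
convolution of length `NN L` of records modulo `y ^ rr L + 1`, at cost `T L`. -/
def SpecCyc (T : ℕ → ℕ) : Prop :=
  ∃ (F : Un × List ℤ × List ℤ → List ℤ) (L₀ : ℕ),
    TC (fun q => L₀ ≤ q.1.val ∧ DigL q.1.val q.2.1 ∧ DigL q.1.val q.2.2) (fun q => T q.1.val) F ∧
    ∀ (L : ℕ) (a b : Arr), L₀ ≤ L → (∀ x, 0 ≤ a x ∧ a x < 2 ^ L) → (∀ x, 0 ≤ b x ∧ b x < 2 ^ L) →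
      F (⟨L⟩, (List.range (NN L * rr L)).map a, (List.range (NN L * rr L)).map b) =
        (List.range (NN L * rr L)).map (cyc (NN L) (rr L) (nega (rr L)) a b)

/-- **Multiplication of large numbers**: for all large `L`, numbers below `2 ^ 2 ^ L` are
multiplied at cost `T L`. -/
def SpecBig (T : ℕ → ℕ) : Prop :=
  ∃ L₀ : ℕ, TC (fun q : Un × ℕ × ℕ => L₀ ≤ q.1.val ∧ q.2.1 < 2 ^ 2 ^ q.1.val ∧
    q.2.2 < 2 ^ 2 ^ q.1.val) (fun q => T q.1.val) (fun q => q.2.1 * q.2.2)

/-- proved in `Top/Alg.lean` -/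
def BigStatement : Prop := ∀ T : ℕ → ℕ, SpecCyc T → SpecBig (fun L => T L + 2 ^ L)

/-- multiplication of `n`-bit numbers within the bound of the statement -/
def SpecMul : Prop :=
  TC (fun q : Un × ℕ × ℕ => q.2.1 < 2 ^ q.1.val ∧ q.2.2 < 2 ^ q.1.val)
    (fun q => tb (2 * q.1.val)) (fun q => q.2.1 * q.2.2)

/-- proved in `Top/Main.lean` -/
def MulStatement : Prop :=
  ∀ (T : ℕ → ℕ) (a : ℝ), SV T a → a < 1 - 1 / (2 : ℝ) ^ 182 → SpecBig T → SpecMul

end Crest.Agent.X326.Top
end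

-- ▼ part X326/FB/Norms
section

/-!
# Filter bank: `ℓ¹` norms, bilinearity and locality
-/

set_option autoImplicit false
set_option linter.dupNamespace false

namespace Crest.Agent.X326.FB

open Finset

/-! ### sums over products of ranges -/

theorem sum_range_mul {M : Type*} [AddCommMonoid M] (n Z : ℕ) (f : ℕ → M) :
    ∑ x ∈ range (n * Z), f x = ∑ i ∈ range n, ∑ z ∈ range Z, f (i * Z + z) := by
  induction n with
  | zero => simp
  | succ n ih => rw [Nat.succ_mul, Finset.sum_range_add, ih, Finset.sum_range_succ]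

theorem blk_lt {n Z i z : ℕ} (hi : i < n) (hz : z < Z) : i * Z + z < n * Z := by
  have : (i + 1) * Z ≤ n * Z := Nat.mul_le_mul_right Z hi
  rw [Nat.succ_mul] at this
  omega

theorem blk_div {Z z : ℕ} (i : ℕ) (hz : z < Z) : (i * Z + z) / Z = i := by
  rw [mul_comm, Nat.mul_add_div (by omega), Nat.div_eq_of_lt hz, add_zero]

theorem blk_mod {Z z : ℕ} (i : ℕ) (hz : z < Z) : (i * Z + z) % Z = z := by
  rw [mul_comm, Nat.mul_add_mod, Nat.mod_eq_of_lt hz]

/-- for fixed `i`, the map `j ↦ (j + (n - i)) % n` permutes `range n` -/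
theorem sum_range_shift {M : Type*} [AddCommMonoid M] (n c : ℕ) (f : ℕ → M) :
    ∑ j ∈ range n, f ((j + c) % n) = ∑ j ∈ range n, f j := by
  rcases Nat.eq_zero_or_pos n with rfl | hn
  · simp
  refine Finset.sum_bij (fun j _ => (j + c) % n) (fun j _ => mem_range.2 (Nat.mod_lt _ hn))
    (fun j hj j' hj' e => ?_) (fun j hj => ?_) (fun _ _ => rfl)
  · have := (Nat.ModEq.add_right_cancel' c (show j + c ≡ j' + c [MOD n] from e))
    exact Nat.ModEq.eq_of_lt_of_lt this (mem_range.1 hj) (mem_range.1 hj')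
  · refine ⟨(j + (n - c % n)) % n, mem_range.2 (Nat.mod_lt _ hn), ?_⟩
    have h1 : c % n < n := Nat.mod_lt _ hn
    have h2 := Nat.div_add_mod c n
    rw [Nat.mod_add_mod, show j + (n - c % n) + c = j + n * (c / n + 1) by rw [mul_add]; omega,
      Nat.add_mul_mod_self_left, Nat.mod_eq_of_lt (mem_range.1 hj)]

/-! ### the `ℓ¹` norm -/

theorem l1_nonneg (n : ℕ) (a : Arr) : 0 ≤ l1 n a := Finset.sum_nonneg fun _ _ => abs_nonneg _

theorem l1_zero (n : ℕ) : l1 n 0 = 0 := by simp [l1]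

theorem l1_congr {n : ℕ} {a b : Arr} (h : ∀ x < n, a x = b x) : l1 n a = l1 n b :=
  Finset.sum_congr rfl fun x hx => by rw [h x (mem_range.1 hx)]


theorem l1_add_le (n : ℕ) (a b : Arr) : l1 n (a + b) ≤ l1 n a + l1 n b := by
  rw [l1, l1, l1, ← Finset.sum_add_distrib]
  exact Finset.sum_le_sum fun x _ => abs_add_le _ _

theorem l1_neg (n : ℕ) (a : Arr) : l1 n (-a) = l1 n a := by simp [l1]

theorem l1_sub_le (n : ℕ) (a b : Arr) : l1 n (a - b) ≤ l1 n a + l1 n b := by
  rw [sub_eq_add_neg, ← l1_neg n b]; exact l1_add_le _ _ _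


theorem l1_smul (n : ℕ) (c : ℤ) (a : Arr) : l1 n (c • a) = |c| * l1 n a := by
  simp [l1, abs_mul, Finset.mul_sum]

theorem l1_sum_le {ι : Type*} (n : ℕ) (s : Finset ι) (f : ι → Arr) :
    l1 n (∑ i ∈ s, f i) ≤ ∑ i ∈ s, l1 n (f i) := by
  classical
  induction s using Finset.induction_on with
  | empty => simp [l1_zero]
  | insert i s hi ih =>
    rw [Finset.sum_insert hi, Finset.sum_insert hi]
    exact (l1_add_le _ _ _).trans (by gcongr)

theorem abs_le_l1 {n x : ℕ} (a : Arr) (hx : x < n) : |a x| ≤ l1 n a :=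
  Finset.single_le_sum (f := fun x => |a x|) (fun _ _ => abs_nonneg _) (mem_range.2 hx)

theorem l1_le_of_abs_le {n : ℕ} {a : Arr} {B : ℤ} (h : ∀ x < n, |a x| ≤ B) : l1 n a ≤ n * B := by
  refine (Finset.sum_le_sum (g := fun _ => B) fun x hx => h x (mem_range.1 hx)).trans ?_
  simp

theorem eq_zero_of_l1_le_zero {n : ℕ} {a : Arr} (h : l1 n a ≤ 0) {x : ℕ} (hx : x < n) : a x = 0 :=
  abs_nonpos_iff.1 ((abs_le_l1 a hx).trans h)

theorem l1_mul (n Z : ℕ) (a : Arr) : l1 (n * Z) a = ∑ i ∈ range n, l1 Z (blk Z i a) := by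
  rw [l1, sum_range_mul]; rfl


theorem blk_add (Z i : ℕ) (a b : Arr) : blk Z i (a + b) = blk Z i a + blk Z i b := rfl
theorem blk_sub (Z i : ℕ) (a b : Arr) : blk Z i (a - b) = blk Z i a - blk Z i b := rfl
theorem blk_smul (Z i : ℕ) (c : ℤ) (a : Arr) : blk Z i (c • a) = c • blk Z i a := rfl

/-! ### bilinear products -/

namespace Bil

variable {Z : ℕ} {μ : Arr → Arr → Arr}

theorem zero_left (h : Bil Z μ) (b : Arr) : μ 0 b = 0 := by
  simpa using h.smul_left 0 0 b

theorem zero_right (h : Bil Z μ) (a : Arr) : μ a 0 = 0 := by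
  simpa using h.smul_right 0 a 0

theorem neg_left (h : Bil Z μ) (a b : Arr) : μ (-a) b = -μ a b := by
  simpa using h.smul_left (-1) a b

theorem neg_right (h : Bil Z μ) (a b : Arr) : μ a (-b) = -μ a b := by
  simpa using h.smul_right (-1) a b

theorem sub_left (h : Bil Z μ) (a a' b : Arr) : μ (a - a') b = μ a b - μ a' b := by
  rw [sub_eq_add_neg, h.add_left, h.neg_left, sub_eq_add_neg]

theorem sub_right (h : Bil Z μ) (a b b' : Arr) : μ a (b - b') = μ a b - μ a b' := by
  rw [sub_eq_add_neg, h.add_right, h.neg_right, sub_eq_add_neg]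

theorem sum_left (h : Bil Z μ) {ι : Type*} (s : Finset ι) (a : ι → Arr) (b : Arr) :
    μ (∑ i ∈ s, a i) b = ∑ i ∈ s, μ (a i) b := by
  classical
  induction s using Finset.induction_on with
  | empty => simp [h.zero_left]
  | insert i s hi ih => rw [Finset.sum_insert hi, Finset.sum_insert hi, h.add_left, ih]

theorem sum_right (h : Bil Z μ) {ι : Type*} (s : Finset ι) (a : Arr) (b : ι → Arr) :
    μ a (∑ i ∈ s, b i) = ∑ i ∈ s, μ a (b i) := by
  classical
  induction s using Finset.induction_on with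
  | empty => simp [h.zero_right]
  | insert i s hi ih => rw [Finset.sum_insert hi, Finset.sum_insert hi, h.add_right, ih]

theorem abs_le (h : Bil Z μ) (a b : Arr) {x : ℕ} (hx : x < Z) : |μ a b x| ≤ l1 Z a * l1 Z b :=
  (abs_le_l1 _ hx).trans (h.l1_le a b)

/-- locality: the product only reads the entries below `Z` -/
theorem congr (h : Bil Z μ) {a a' b b' : Arr} (ha : ∀ x < Z, a x = a' x)
    (hb : ∀ x < Z, b x = b' x) {x : ℕ} (hx : x < Z) : μ a b x = μ a' b' x := by
  have e1 : l1 Z (a - a') = 0 := by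
    rw [← l1_zero Z]; exact l1_congr fun x hx => by simp [ha x hx]
  have e2 : l1 Z (b - b') = 0 := by
    rw [← l1_zero Z]; exact l1_congr fun x hx => by simp [hb x hx]
  have h1 := eq_zero_of_l1_le_zero ((h.l1_le (a - a') b).trans (by rw [e1, zero_mul])) hx
  have h2 := eq_zero_of_l1_le_zero ((h.l1_le a' (b - b')).trans (by rw [e2, mul_zero])) hx
  rw [h.sub_left] at h1
  rw [h.sub_right] at h2
  simp only [Pi.sub_apply] at h1 h2
  omega

/-- perturbation of both arguments -/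
theorem l1_sub_le (h : Bil Z μ) (a a' b b' : Arr) :
    l1 Z (μ a b - μ a' b') ≤ l1 Z (a - a') * l1 Z b + l1 Z a' * l1 Z (b - b') := by
  have : μ a b - μ a' b' = μ (a - a') b + μ a' (b - b') := by
    rw [h.sub_left, h.sub_right]; abel
  rw [this]
  exact (l1_add_le _ _ _).trans (add_le_add (h.l1_le _ _) (h.l1_le _ _))

theorem of_eq {Z' : ℕ} (h : Bil Z μ) (e : Z = Z') : Bil Z' μ := e ▸ h

theorem cyc (h : Bil Z μ) (n : ℕ) : Bil (n * Z) (cyc n Z μ) where
  add_left a a' b := by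
    funext x; simp [FB.cyc, blk_add, h.add_left, Finset.sum_add_distrib]
  add_right a b b' := by
    funext x; simp [FB.cyc, blk_add, h.add_right, Finset.sum_add_distrib]
  smul_left c a b := by
    funext x
    simp only [FB.cyc, blk_smul, h.smul_left, Finset.mul_sum, Pi.smul_apply, smul_eq_mul]
  smul_right c a b := by
    funext x
    simp only [FB.cyc, blk_smul, h.smul_right, Finset.mul_sum, Pi.smul_apply, smul_eq_mul]
  l1_le a b := by
    have e : ∀ j, ∀ z ∈ range Z, |blk Z j (FB.cyc n Z μ a b) z|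
        = |(∑ i ∈ range n, μ (blk Z i a) (blk Z ((j + (n - i)) % n) b)) z| := fun j z hz => by
      simp [blk, FB.cyc, blk_div j (mem_range.1 hz), blk_mod j (mem_range.1 hz), Finset.sum_apply]
    calc l1 (n * Z) (FB.cyc n Z μ a b)
        = ∑ j ∈ range n, l1 Z (∑ i ∈ range n, μ (blk Z i a) (blk Z ((j + (n - i)) % n) b)) := by
          rw [l1_mul]
          exact Finset.sum_congr rfl fun j _ => Finset.sum_congr rfl (e j)
      _ ≤ ∑ j ∈ range n, ∑ i ∈ range n, l1 Z (blk Z i a) * l1 Z (blk Z ((j + (n - i)) % n) b) :=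
          Finset.sum_le_sum fun j _ =>
            (l1_sum_le _ _ _).trans (Finset.sum_le_sum fun i _ => h.l1_le _ _)
      _ = l1 (n * Z) a * l1 (n * Z) b := by
          rw [Finset.sum_comm, l1_mul, l1_mul, Finset.sum_mul]
          refine Finset.sum_congr rfl fun i _ => ?_
          rw [← Finset.mul_sum, sum_range_shift n (n - i) (fun j => l1 Z (blk Z j b))]

theorem tower (h : Bil Z μ) (P e : ℕ) : Bil (P ^ (e + 1) * Z) (tower P e Z μ) := by
  induction e generalizing Z μ with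
  | zero => simpa [FB.tower] using h.cyc P
  | succ e ih => exact (ih (h.cyc P)).of_eq (by ring)

end Bil

theorem bil_nega (r : ℕ) : Bil r (nega r) where
  add_left a a' b := by
    funext x
    simp only [nega, Pi.add_apply, ← Finset.sum_add_distrib]
    exact Finset.sum_congr rfl fun v _ => by split_ifs <;> ring
  add_right a b b' := by
    funext x
    simp only [nega, Pi.add_apply, ← Finset.sum_add_distrib]
    exact Finset.sum_congr rfl fun v _ => by split_ifs <;> ring
  smul_left c a b := by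
    funext x
    simp only [nega, Pi.smul_apply, smul_eq_mul, Finset.mul_sum]
    exact Finset.sum_congr rfl fun v _ => by split_ifs <;> ring
  smul_right c a b := by
    funext x
    simp only [nega, Pi.smul_apply, smul_eq_mul, Finset.mul_sum]
    exact Finset.sum_congr rfl fun v _ => by split_ifs <;> ring
  l1_le a b := by
    calc l1 r (nega r a b)
        ≤ ∑ u ∈ range r, ∑ v ∈ range r, |a v| * |b ((u + (r - v)) % r)| := by
          refine Finset.sum_le_sum fun u hu => (Finset.abs_sum_le_sum_abs _ _).trans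
            (Finset.sum_le_sum fun v hv => le_of_eq ?_)
          have hu := mem_range.1 hu
          have hv := mem_range.1 hv
          split_ifs with h
          · rw [show u + (r - v) = u - v + r by omega, Nat.add_mod_right,
              Nat.mod_eq_of_lt (by omega), abs_mul]
          · rw [Nat.mod_eq_of_lt (by omega), abs_neg, abs_mul, show u + (r - v) = u + r - v by omega]
      _ = l1 r a * l1 r b := by
          rw [Finset.sum_comm, l1, l1, Finset.sum_mul]
          refine Finset.sum_congr rfl fun v _ => ?_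
          rw [← Finset.mul_sum, sum_range_shift r (r - v) (fun j => |b j|)]

/-! ### the banded operator -/

section band

variable {P Z R ao ai : ℕ} {φ : ℕ → ℤ → ℤ}


theorem band_sub (a b : Arr) :
    band P Z R ao ai φ (a - b) = band P Z R ao ai φ a - band P Z R ao ai φ b := by
  funext x; simp [band, mul_sub, Finset.sum_sub_distrib]

theorem band_smul (c : ℤ) (a : Arr) : band P Z R ao ai φ (c • a) = c • band P Z R ao ai φ a := by
  funext x
  simp only [band, Pi.smul_apply, smul_eq_mul, Finset.mul_sum]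
  exact Finset.sum_congr rfl fun i _ => by ring

theorem band_congr (hP : 0 < P) (hZ : 0 < Z) {a b : Arr} (h : ∀ x < R * P * Z, a x = b x) :
    band P Z R ao ai φ a = band P Z R ao ai φ b := by
  funext x
  refine Finset.sum_congr rfl fun i hi => ?_
  have hR : 0 < R := by have := mem_range.1 hi; omega
  rw [h _ (blk_lt (blk_lt (Nat.mod_lt _ hR) (Nat.mod_lt _ hP)) (Nat.mod_lt _ hZ))]

theorem band_apply (a : Arr) (j : ℕ) {ρ z : ℕ} (hρ : ρ < P) (hz : z < Z) :
    band P Z R ao ai φ a ((j * P + ρ) * Z + z) = ∑ i ∈ range (2 * R),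
      φ ρ (((j * ao : ℕ) : ℤ) - ((i * ai : ℕ) : ℤ)) * a ((i % R * P + ρ) * Z + z) := by
  simp only [band, blk_div _ hz, blk_mod _ hz, blk_mod _ hρ, mul_comm P Z,
    ← Nat.div_div_eq_div_mul, blk_div _ hρ]

/-- the norm of the banded operator is at most the `ℓ¹` norm of its filters -/
theorem l1_band {R' : ℕ} {L : ℤ} (hao : 0 < ao) (hR : R' * ao ≤ R * ai)
    (hφ : ∀ ρ (S : Finset ℤ), ∑ m ∈ S, |φ ρ m| ≤ L) (a : Arr) :
    l1 (R' * P * Z) (band P Z R ao ai φ a) ≤ L * l1 (R * P * Z) a := by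
  classical
  have col : ∀ ρ i, ∑ j ∈ range R', (|φ ρ (((j * ao : ℕ) : ℤ) - ((i * ai : ℕ) : ℤ))|
      + |φ ρ (((j * ao : ℕ) : ℤ) - (((R + i) * ai : ℕ) : ℤ))|) ≤ L := fun ρ i => by
    have inj : ∀ c : ℤ, Set.InjOn (fun j : ℕ => ((j * ao : ℕ) : ℤ) - c) (range R') := by
      intro c j _ j' _ e
      simp only [sub_left_inj, Nat.cast_inj] at e
      exact Nat.eq_of_mul_eq_mul_right hao e
    have := hφ ρ ((range R').image (fun j : ℕ => ((j * ao : ℕ) : ℤ) - ((i * ai : ℕ) : ℤ)) ∪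
      (range R').image (fun j : ℕ => ((j * ao : ℕ) : ℤ) - (((R + i) * ai : ℕ) : ℤ)))
    rw [Finset.sum_union, Finset.sum_image (inj _), Finset.sum_image (inj _)] at this
    · rwa [Finset.sum_add_distrib]
    · rw [Finset.disjoint_left]
      intro m h1 h2
      obtain ⟨j, -, rfl⟩ := Finset.mem_image.1 h1
      obtain ⟨j', hj', e⟩ := Finset.mem_image.1 h2
      have := blk_lt (mem_range.1 hj') hao
      rw [add_mul] at e
      have h3 := blk_lt (z := 0) (mem_range.1 hj') hao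
      omega
  have expand : ∀ (n : ℕ) (b : Arr), l1 (n * P * Z) b
      = ∑ ρ ∈ range P, ∑ z ∈ range Z, ∑ j ∈ range n, |b ((j * P + ρ) * Z + z)| := fun n b => by
    rw [l1, sum_range_mul, sum_range_mul, Finset.sum_comm]
    exact Finset.sum_congr rfl fun ρ _ => Finset.sum_comm
  rw [expand, expand, Finset.mul_sum]
  refine Finset.sum_le_sum fun ρ hρ => ?_
  rw [Finset.mul_sum]
  refine Finset.sum_le_sum fun z hz => ?_
  calc ∑ j ∈ range R', |band P Z R ao ai φ a ((j * P + ρ) * Z + z)|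
      ≤ ∑ j ∈ range R', ∑ i ∈ range R, (|φ ρ (((j * ao : ℕ) : ℤ) - ((i * ai : ℕ) : ℤ))|
        + |φ ρ (((j * ao : ℕ) : ℤ) - (((R + i) * ai : ℕ) : ℤ))|) * |a ((i * P + ρ) * Z + z)| := by
        refine Finset.sum_le_sum fun j _ => ?_
        rw [band_apply a j (mem_range.1 hρ) (mem_range.1 hz), two_mul, Finset.sum_range_add,
          ← Finset.sum_add_distrib]
        refine (Finset.abs_sum_le_sum_abs _ _).trans (Finset.sum_le_sum fun i hi => ?_)
        rw [Nat.add_mod_left, Nat.mod_eq_of_lt (mem_range.1 hi), ← add_mul, abs_mul]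
        exact mul_le_mul_of_nonneg_right (abs_add_le _ _) (abs_nonneg _)
    _ ≤ L * ∑ i ∈ range R, |a ((i * P + ρ) * Z + z)| := by
        rw [Finset.sum_comm, Finset.mul_sum]
        refine Finset.sum_le_sum fun i _ => ?_
        rw [← Finset.sum_mul]
        exact mul_le_mul_of_nonneg_right (col ρ i) (abs_nonneg _)

end band

/-- `ℓ¹` bound of a bounded filter supported in `[-D, D]`, after any translation -/
theorem sum_abs_filter_le {f : ℤ → ℤ} {D : ℕ} {B : ℤ} (hs : ∀ m : ℤ, (D : ℤ) < |m| → f m = 0)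
    (hB : ∀ m, |f m| ≤ B) (c : ℤ) (S : Finset ℤ) : ∑ m ∈ S, |f (m + c)| ≤ (2 * D + 1) * B := by
  classical
  have h0 : 0 ≤ B := (abs_nonneg _).trans (hB 0)
  calc ∑ m ∈ S, |f (m + c)| ≤ ∑ m ∈ S ∪ Icc (-(D : ℤ) - c) (D - c), |f (m + c)| :=
        Finset.sum_le_sum_of_subset_of_nonneg Finset.subset_union_left fun _ _ _ => abs_nonneg _
    _ = ∑ m ∈ Icc (-(D : ℤ) - c) (D - c), |f (m + c)| := by
        refine (Finset.sum_subset Finset.subset_union_right fun m _ hm => ?_).symm
        rw [Finset.mem_Icc] at hm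
        rw [hs _ (lt_abs.2 (by omega)), abs_zero]
    _ ≤ ∑ _m ∈ Icc (-(D : ℤ) - c) (D - c), B := Finset.sum_le_sum fun m _ => hB _
    _ = (2 * D + 1) * B := by
        rw [Finset.sum_const, Int.card_Icc, nsmul_eq_mul]
        congr 1
        omega

section levels

variable {P Q p δ E : ℕ} {g h : ℤ → ℤ}

theorem Taps.sum_abs_h (T : Taps P Q p δ E g h) (c : ℤ) (S : Finset ℤ) :
    ∑ m ∈ S, |h (m + c)| ≤ 2 ^ p * gain P δ := by
  refine (sum_abs_filter_le T.supp_h T.abs_h c S).trans ?_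
  unfold gain
  push_cast
  have : (0 : ℤ) ≤ 2 ^ p * P * δ := by positivity
  nlinarith

theorem Taps.sum_abs_g (T : Taps P Q p δ E g h) (c : ℤ) (S : Finset ℤ) :
    ∑ m ∈ S, |g (m + c)| ≤ 2 ^ p * gain P δ := by
  refine (sum_abs_filter_le (D := 2 * δ) (fun m hm => T.supp_g m (by exact_mod_cast hm))
    T.abs_g c S).trans (le_of_eq ?_)
  unfold gain
  push_cast
  ring

theorem l1_ana (T : Taps P Q p δ E g h) (hQ : 0 < Q) {M M' : ℕ} (hM : M' * Q ≤ M * P) (Z : ℕ)
    (a : Arr) : l1 (M' * P * Z) (ana P Q M Z δ h a) ≤ 2 ^ p * gain P δ * l1 (M * P * Z) a :=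
  l1_band hQ hM (fun ρ S => by simpa [sub_add, sub_eq_add_neg, add_assoc] using T.sum_abs_h (-ρ + δ) S) a

theorem l1_syn (T : Taps P Q p δ E g h) (hP : 0 < P) {M M' : ℕ} (hM : M * P ≤ M' * Q) (Z : ℕ)
    (c : Arr) : l1 (M * P * Z) (syn P Q M' Z δ g c) ≤ 2 ^ p * gain P δ * l1 (M' * P * Z) c :=
  l1_band hP hM (fun ρ S => by
    simpa [sub_eq_add_neg, add_assoc] using T.sum_abs_g (ρ + (M' * Q : ℕ) - 2 * δ) S) c

theorem l1_anaAll (T : Taps P Q p δ E g h) (hQ : 0 < Q) (e Z : ℕ) (a : Arr) :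
    l1 (P ^ (e + 1) * Z) (anaAll P Q δ h e Z a)
      ≤ (2 ^ p * gain P δ) ^ e * l1 (P * Q ^ e * Z) a := by
  induction e generalizing Z a with
  | zero => simp [anaAll]
  | succ e ih =>
    have h1 := ih (P * Z) (ana P Q (Q ^ (e + 1)) Z δ h a)
    have h2 := l1_ana T hQ (M := Q ^ (e + 1)) (M' := P * Q ^ e) (le_of_eq (by ring)) Z a
    rw [show P ^ (e + 1) * (P * Z) = P ^ (e + 1 + 1) * Z by ring, ← mul_assoc] at h1
    rw [mul_comm (Q ^ (e + 1)) P] at h2
    refine h1.trans ?_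
    rw [pow_succ (2 ^ p * (gain P δ : ℤ)), mul_assoc _ (2 ^ p * (gain P δ : ℤ))]
    exact mul_le_mul_of_nonneg_left h2 (by positivity)

theorem l1_synAll (T : Taps P Q p δ E g h) (hP : 0 < P) (e Z : ℕ) (c : Arr) :
    l1 (P * Q ^ e * Z) (synAll P Q δ g e Z c)
      ≤ (2 ^ p * gain P δ) ^ e * l1 (P ^ (e + 1) * Z) c := by
  induction e generalizing Z with
  | zero => simp [synAll]
  | succ e ih =>
    have h1 := ih (P * Z)
    have h2 := l1_syn T hP (M := Q ^ (e + 1)) (M' := P * Q ^ e) (le_of_eq (by ring)) Z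
      (synAll P Q δ g e (P * Z) c)
    rw [show P ^ (e + 1) * (P * Z) = P ^ (e + 1 + 1) * Z by ring, ← mul_assoc] at h1
    rw [mul_comm (Q ^ (e + 1)) P] at h2
    refine h2.trans ?_
    rw [pow_succ' (2 ^ p * (gain P δ : ℤ)), mul_assoc (2 ^ p * (gain P δ : ℤ))]
    exact mul_le_mul_of_nonneg_left h1 (by positivity)

theorem syn_sub (M Z : ℕ) (a b : Arr) :
    syn P Q M Z δ g (a - b) = syn P Q M Z δ g a - syn P Q M Z δ g b := band_sub a b
theorem syn_smul (M Z : ℕ) (c : ℤ) (a : Arr) :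
    syn P Q M Z δ g (c • a) = c • syn P Q M Z δ g a := band_smul c a


theorem syn_congr (hP : 0 < P) {M Z : ℕ} (hZ : 0 < Z) {a b : Arr}
    (hab : ∀ x < M * P * Z, a x = b x) : syn P Q M Z δ g a = syn P Q M Z δ g b :=
  band_congr hP hZ hab





theorem synAll_sub (e Z : ℕ) (a b : Arr) :
    synAll P Q δ g e Z (a - b) = synAll P Q δ g e Z a - synAll P Q δ g e Z b := by
  induction e generalizing Z with
  | zero => rfl
  | succ e ih => simp only [synAll, syn_sub, ih]

theorem synAll_smul (e Z : ℕ) (c : ℤ) (a : Arr) :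
    synAll P Q δ g e Z (c • a) = c • synAll P Q δ g e Z a := by
  induction e generalizing Z with
  | zero => rfl
  | succ e ih => simp only [synAll, syn_smul, ih]


theorem synAll_congr (hP : 0 < P) {e Z : ℕ} (hZ : 0 < Z) {a b : Arr}
    (hab : ∀ x < P ^ (e + 1) * Z, a x = b x) :
    ∀ x < P * Q ^ e * Z, synAll P Q δ g e Z a x = synAll P Q δ g e Z b x := by
  induction e generalizing Z with
  | zero => simpa [synAll] using hab
  | succ e ih =>
    intro x _
    simp only [synAll]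
    have := ih (Z := P * Z) (Nat.mul_pos hP hZ)
      (by rwa [show P ^ (e + 1) * (P * Z) = P ^ (e + 1 + 1) * Z by ring])
    rw [syn_congr hP hZ (M := P * Q ^ e) (by rwa [mul_assoc (P * Q ^ e)])]



end levels

/-! ### truncation -/

theorem abs_sub_shr_le (s : ℕ) (a : Arr) (x : ℕ) : |a x - 2 ^ s * shr s a x| ≤ 2 ^ s := by
  have h1 := Int.mul_ediv_add_emod (a x) (2 ^ s)
  have h2 := Int.emod_nonneg (a x) (b := 2 ^ s) (by positivity)
  have h3 := Int.emod_lt_of_pos (a x) (b := 2 ^ s) (by positivity)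
  rw [shr, abs_le]
  constructor <;> linarith

theorem l1_sub_shr_le (n s : ℕ) (a : Arr) : l1 n (a - (2 ^ s : ℤ) • shr s a) ≤ n * 2 ^ s :=
  l1_le_of_abs_le fun x _ => by simpa using abs_sub_shr_le s a x

theorem l1_shr_le {n s : ℕ} {a : Arr} {B : ℤ} (h : l1 n a ≤ 2 ^ s * B) : l1 n (shr s a) ≤ B + n := by
  have h1 : l1 n ((2 ^ s : ℤ) • shr s a) ≤ l1 n a + n * 2 ^ s := by
    have := l1_sub_le n a (a - (2 ^ s : ℤ) • shr s a)
    rw [sub_sub_cancel] at this
    exact this.trans (add_le_add le_rfl (l1_sub_shr_le n s a))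
  rw [l1_smul, abs_of_pos (by positivity)] at h1
  refine le_of_mul_le_mul_left (a := (2 ^ s : ℤ)) ?_ (by positivity)
  linarith

theorem l1_prep {P Q p δ E : ℕ} {g h : ℤ → ℤ} (T : Taps P Q p δ E g h) (hQ : 0 < Q) (e Z : ℕ)
    (a : Arr) : l1 (P ^ (e + 2) * Z) (prep P Q p δ h e Z a)
      ≤ 2 ^ p * gain P δ ^ (e + 1) * l1 (P * Q ^ (e + 1) * Z) a + (P ^ (e + 2) * Z : ℕ) := by
  refine l1_shr_le ((l1_anaAll T hQ (e + 1) Z a).trans (le_of_eq ?_))
  rw [mul_pow, ← pow_mul]
  ring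

/-- rounding recovers an integer from an approximation of its multiple -/
theorem rnd_eq {s : ℕ} {a : Arr} {x : ℕ} {y : ℤ} (h : 2 * |a x - 2 ^ s * y| < 2 ^ s) :
    rnd s a x = y := by
  have hpos : (0 : ℤ) < 2 ^ s := by positivity
  rw [rnd, Int.ediv_eq_iff_of_pos hpos]
  have := abs_lt.1 (show |a x - 2 ^ s * y| < 2 ^ s - 2 ^ s / 2 by omega)
  have := abs_le.1 (show |a x - 2 ^ s * y| ≤ 2 ^ s / 2 by omega)
  constructor <;> nlinarith

end Crest.Agent.X326.FB
end

-- ▼ part X326/FB/Basic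
section

/-!
# Row 326, filter bank: elementary lemmas on `l1`, `blk`, `Bil`, `nega`, `cyc`, `tower`
-/

set_option autoImplicit false

namespace Crest.Agent.X326.FB

open Finset

/-- two arrays agree on the first `n` entries -/
def Agree (n : ℕ) (a b : Arr) : Prop := ∀ x < n, a x = b x

theorem Agree.refl (n : ℕ) (a : Arr) : Agree n a a := fun _ _ => rfl

theorem Agree.symm {n : ℕ} {a b : Arr} (h : Agree n a b) : Agree n b a :=
  fun x hx => (h x hx).symm

theorem Agree.trans {n : ℕ} {a b c : Arr} (h : Agree n a b) (h' : Agree n b c) : Agree n a c :=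
  fun x hx => (h x hx).trans (h' x hx)

theorem Agree.mono {n m : ℕ} {a b : Arr} (h : Agree n a b) (hm : m ≤ n) : Agree m a b :=
  fun x hx => h x (hx.trans_le hm)

/-! ### `blk` -/

theorem blk_blk (P Z j ρ : ℕ) (a : Arr) : blk Z ρ (blk (P * Z) j a) = blk Z (j * P + ρ) a := by
  funext z
  simp only [blk]
  congr 1
  ring

theorem idx_lt {n Z i z : ℕ} (hi : i < n) (hz : z < Z) : i * Z + z < n * Z := by
  calc i * Z + z < i * Z + Z := by omega
    _ = (i + 1) * Z := by ring
    _ ≤ n * Z := Nat.mul_le_mul_right _ hi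

theorem idx_div {Z z : ℕ} (i : ℕ) (hz : z < Z) : (i * Z + z) / Z = i := by
  rw [Nat.add_comm, Nat.add_mul_div_right _ _ (by omega), Nat.div_eq_of_lt hz, Nat.zero_add]

theorem idx_mod {Z z : ℕ} (i : ℕ) (hz : z < Z) : (i * Z + z) % Z = z := by
  rw [Nat.add_comm, Nat.add_mul_mod_self_right, Nat.mod_eq_of_lt hz]

theorem Agree.blk {n Z i : ℕ} {a b : Arr} (h : Agree (n * Z) a b) (hi : i < n) :
    Agree Z (blk Z i a) (blk Z i b) := fun _ hz => h _ (idx_lt hi hz)


/-! ### sums over `ZMod` -/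

theorem sum_zmod {β : Type*} [AddCommMonoid β] (n : ℕ) [NeZero n] (f : ℕ → β) :
    ∑ x : ZMod n, f x.val = ∑ i ∈ range n, f i := by
  refine sum_nbij' (fun x => x.val) (fun i => (i : ZMod n)) ?_ ?_ ?_ ?_ ?_
  · intro x _
    exact mem_range.2 (ZMod.val_lt x)
  · intro i _
    exact mem_univ _
  · intro x _
    simp
  · intro i hi
    exact ZMod.val_cast_of_lt (mem_range.1 hi)
  · intro x _
    rfl

theorem val_sub_eq {n : ℕ} [NeZero n] (x y : ZMod n) :
    (x - y).val = (x.val + (n - y.val)) % n := by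
  have hy := ZMod.val_lt y
  have : x - y = ((x.val + (n - y.val) : ℕ) : ZMod n) := by
    push_cast [Nat.cast_sub hy.le]
    simp [sub_eq_add_neg]
  rw [this, ZMod.val_natCast]

theorem l1_zmod (n : ℕ) [NeZero n] (Z : ℕ) (a : Arr) :
    l1 (n * Z) a = ∑ x : ZMod n, l1 Z (blk Z x.val a) := by
  rw [l1_mul, ← sum_zmod n fun i => l1 Z (blk Z i a)]

/-! ### `cyc` -/

theorem cyc_blk {n : ℕ} [NeZero n] {Z : ℕ} (μ : Arr → Arr → Arr) (a b : Arr) (x : ZMod n) :
    Agree Z (blk Z x.val (cyc n Z μ a b))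
      (∑ y : ZMod n, μ (blk Z y.val a) (blk Z (x - y).val b)) := by
  intro z hz
  simp only [blk, cyc, idx_div _ hz, idx_mod _ hz, Finset.sum_apply]
  rw [← sum_zmod n fun i => μ (blk Z i a) (blk Z ((x.val + (n - i)) % n) b) z]
  refine sum_congr rfl fun y _ => ?_
  rw [val_sub_eq]

end Crest.Agent.X326.FB
end

-- ▼ part X326/FB/Kernel
section

/-!
# Row 326, filter bank: the one-level identity for abstract finite abelian groups
-/

set_option autoImplicit false

namespace Crest.Agent.X326.FB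

open Finset

variable {X J R : Type*} [AddCommGroup X] [Fintype X] [DecidableEq X] [AddCommGroup J] [Fintype J]
  [AddCommGroup R] [Fintype R] [DecidableEq R]

omit [Fintype X] [DecidableEq X] in
theorem kernel_bound (ι : J →+ X) (G H : X → ℤ) (d : X) (s E α : ℤ)
    (hI : ∀ x y, |∑ j, G (x - ι j) * H (y - ι j) - s * G (x - y + d)| ≤ E)
    (hB : ∀ y, ∑ j, |H (y - ι j)| ≤ α) (l l₁ l₂ : X) :
    |∑ j₁, ∑ j₂, G (l - ι j₁ - ι j₂) * (H (l₁ - ι j₁) * H (l₂ - ι j₂)) -
      s * s * G (l - l₁ - l₂ + d + d)| ≤ α * E + |s| * E := by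
  have hE : 0 ≤ E := (abs_nonneg _).trans (hI 0 0)
  have e : ∑ j₁, ∑ j₂, G (l - ι j₁ - ι j₂) * (H (l₁ - ι j₁) * H (l₂ - ι j₂)) -
      s * s * G (l - l₁ - l₂ + d + d) =
      ∑ j₁, H (l₁ - ι j₁) * (∑ j₂, G (l - ι j₁ - ι j₂) * H (l₂ - ι j₂) -
        s * G (l - ι j₁ - l₂ + d)) +
      s * (∑ j₁, G (l - l₂ + d - ι j₁) * H (l₁ - ι j₁) - s * G (l - l₂ + d - l₁ + d)) := by
    rw [show l - l₂ + d - l₁ + d = l - l₁ - l₂ + d + d by abel, mul_sub s, mul_sum,
      ← add_sub_assoc, ← sum_add_distrib, mul_assoc]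
    congr 1
    refine sum_congr rfl fun j₁ _ => ?_
    rw [show l - l₂ + d - ι j₁ = l - ι j₁ - l₂ + d by abel, mul_sub, mul_sum]
    have : ∑ j₂, G (l - ι j₁ - ι j₂) * (H (l₁ - ι j₁) * H (l₂ - ι j₂)) =
        ∑ j₂, H (l₁ - ι j₁) * (G (l - ι j₁ - ι j₂) * H (l₂ - ι j₂)) :=
      sum_congr rfl fun j₂ _ => by ring
    rw [this]
    ring
  rw [e]
  refine (abs_add_le _ _).trans (add_le_add ?_ ?_)
  · refine (abs_sum_le_sum_abs _ _).trans ?_
    calc ∑ j₁, |H (l₁ - ι j₁) * (∑ j₂, G (l - ι j₁ - ι j₂) * H (l₂ - ι j₂) -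
          s * G (l - ι j₁ - l₂ + d))| ≤ ∑ j₁, |H (l₁ - ι j₁)| * E := by
          refine sum_le_sum fun j₁ _ => ?_
          rw [abs_mul]
          exact mul_le_mul_of_nonneg_left (hI _ _) (abs_nonneg _)
      _ = (∑ j₁, |H (l₁ - ι j₁)|) * E := by rw [sum_mul]
      _ ≤ α * E := mul_le_mul_of_nonneg_right (hB _) hE
  · rw [abs_mul]
    exact mul_le_mul_of_nonneg_left (hI _ _) (abs_nonneg _)

/-- abstract analysis -/
def anaG (ι : J →+ X) (π : X →+ R) (H : X → ℤ) (a : X → Arr) (j : J) (ρ : R) : Arr :=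
  ∑ l, (if π l = ρ then H (l - ι j) else 0) • a l

/-- abstract synthesis -/
def synG (ι : J →+ X) (π : X →+ R) (G : X → ℤ) (c : J → R → Arr) (l : X) : Arr :=
  ∑ j, G (l - ι j) • c j (π l)

omit [DecidableEq X] in
theorem synG_conv {Z : ℕ} {μ : Arr → Arr → Arr} (hμ : Bil Z μ) (ι : J →+ X) (π : X →+ R)
    (G H : X → ℤ) (a b : X → Arr) (l : X) :
    synG ι π G (fun j ρ => ∑ j₁, ∑ ρ₁, μ (anaG ι π H a j₁ ρ₁) (anaG ι π H b (j - j₁) (ρ - ρ₁))) l =
      ∑ l₁, ∑ l₂, (if π l₂ = π l - π l₁ then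
        ∑ j₁, ∑ j₂, G (l - ι j₁ - ι j₂) * (H (l₁ - ι j₁) * H (l₂ - ι j₂)) else 0) •
          μ (a l₁) (b l₂) := by
  have h1 : ∀ j₁ j₂ : J, ∑ ρ₁, μ (anaG ι π H a j₁ ρ₁) (anaG ι π H b j₂ (π l - ρ₁)) =
      ∑ l₁, ∑ l₂, (if π l₂ = π l - π l₁ then H (l₁ - ι j₁) * H (l₂ - ι j₂) else 0) •
        μ (a l₁) (b l₂) := by
    intro j₁ j₂
    simp only [anaG, hμ.sum_left, hμ.sum_right, hμ.smul_left, hμ.smul_right, smul_smul]
    rw [sum_comm]
    refine sum_congr rfl fun l₁ _ => ?_
    rw [sum_comm]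
    refine sum_congr rfl fun l₂ _ => ?_
    rw [← sum_smul]
    congr 1
    rw [sum_eq_single (π l₁)]
    · simp
    · intro ρ _ hρ
      rw [if_neg (Ne.symm hρ), zero_mul]
    · simp
  unfold synG
  have h2 : ∑ j, G (l - ι j) • ∑ j₁, ∑ ρ₁,
        μ (anaG ι π H a j₁ ρ₁) (anaG ι π H b (j - j₁) (π l - ρ₁)) =
      ∑ j₁, ∑ j₂, G (l - ι j₁ - ι j₂) • ∑ ρ₁,
        μ (anaG ι π H a j₁ ρ₁) (anaG ι π H b j₂ (π l - ρ₁)) := by
    simp only [smul_sum (s := (univ : Finset J))]
    rw [sum_comm]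
    refine sum_congr rfl fun j₁ _ => ?_
    rw [← Equiv.sum_comp (Equiv.addLeft j₁)]
    refine sum_congr rfl fun j₂ _ => ?_
    simp only [Equiv.coe_addLeft, map_add, add_sub_cancel_left, sub_sub]
  rw [h2]
  simp only [h1, smul_sum, smul_smul]
  rw [sum_congr rfl fun j₁ _ => sum_comm, sum_comm]
  refine sum_congr rfl fun l₁ _ => ?_
  rw [sum_congr rfl fun j₁ _ => sum_comm, sum_comm]
  refine sum_congr rfl fun l₂ _ => ?_
  simp only [← sum_smul]
  congr 1
  split_ifs <;> simp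

/-- the one-level identity -/
theorem bank_abstract {Z : ℕ} {μ : Arr → Arr → Arr} (hμ : Bil Z μ) (ι : J →+ X) (π : X →+ R)
    (G H : X → ℤ) (d : X) (s E α : ℤ)
    (hI : ∀ x y, |∑ j, G (x - ι j) * H (y - ι j) - s * G (x - y + d)| ≤ E)
    (hB : ∀ y, ∑ j, |H (y - ι j)| ≤ α)
    (hN : ∀ x, π x = 0 → G (x + d + d) = if x = 0 then s else 0) (a b : X → Arr) :
    ∑ l, l1 Z (synG ι π G
        (fun j ρ => ∑ j₁, ∑ ρ₁, μ (anaG ι π H a j₁ ρ₁) (anaG ι π H b (j - j₁) (ρ - ρ₁))) l -
          (s * s * s) • ∑ l₁, μ (a l₁) (b (l - l₁))) ≤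
      Fintype.card X * (α * E + |s| * E) * ((∑ l, l1 Z (a l)) * ∑ l, l1 Z (b l)) := by
  have hE : 0 ≤ E := (abs_nonneg _).trans (hI 0 0)
  have hα : 0 ≤ α := (sum_nonneg fun _ _ => abs_nonneg _).trans (hB 0)
  have he : 0 ≤ α * E + |s| * E := by positivity
  calc _ ≤ ∑ _l : X, (α * E + |s| * E) * ((∑ l, l1 Z (a l)) * ∑ l, l1 Z (b l)) := by
        refine sum_le_sum fun l _ => ?_
        rw [synG_conv hμ]
        have h1 : (s * s * s) • ∑ l₁, μ (a l₁) (b (l - l₁)) =
            ∑ l₁, ∑ l₂, (if l₂ = l - l₁ then s * s * s else 0) • μ (a l₁) (b l₂) := by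
          rw [smul_sum]
          refine sum_congr rfl fun l₁ _ => ?_
          rw [sum_eq_single (l - l₁)]
          · simp
          · intro y _ hy
            rw [if_neg hy, zero_smul]
          · simp
        rw [h1, ← sum_sub_distrib, sum_mul_sum, mul_sum]
        refine (l1_sum_le _ _ _).trans (sum_le_sum fun l₁ _ => ?_)
        rw [← sum_sub_distrib, mul_sum]
        refine (l1_sum_le _ _ _).trans (sum_le_sum fun l₂ _ => ?_)
        rw [← sub_smul, l1_smul]
        refine mul_le_mul ?_ (hμ.l1_le _ _) (l1_nonneg _ _) he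
        by_cases hc : π l₂ = π l - π l₁
        · rw [if_pos hc]
          have h2 := kernel_bound ι G H d s E α hI hB l l₁ l₂
          rw [hN (l - l₁ - l₂) (by rw [map_sub, map_sub, hc, sub_self])] at h2
          have h3 : (l - l₁ - l₂ = 0) ↔ (l₂ = l - l₁) := by rw [sub_eq_zero, eq_comm]
          simpa only [h3, mul_ite, mul_zero] using h2
        · rw [if_neg hc, if_neg (by rintro rfl; exact hc (map_sub _ _ _))]
          simpa using he
    _ = _ := by simp [mul_assoc]

end Crest.Agent.X326.FB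
end

-- ▼ part X326/FB/Bank
section

/-!
# Row 326, filter bank: the one-level identity for the flat operators `ana`, `syn`
-/

set_option autoImplicit false

namespace Crest.Agent.X326.FB

open Finset

/-! ### the operator `band` -/

theorem band_apply' {P Z ρ z : ℕ} (R ao ai j : ℕ) (φ : ℕ → ℤ → ℤ) (a : Arr) (hρ : ρ < P)
    (hz : z < Z) :
    band P Z R ao ai φ a ((j * P + ρ) * Z + z) =
      ∑ i ∈ range R, (φ ρ ((j : ℤ) * ao - i * ai) + φ ρ ((j : ℤ) * ao - i * ai - R * ai)) *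
        a ((i * P + ρ) * Z + z) := by
  rw [band_apply _ _ hρ hz, two_mul, sum_range_add, ← sum_add_distrib]
  simp only [Nat.cast_mul]
  refine sum_congr rfl fun i hi => ?_
  have hi' := mem_range.1 hi
  have e : (j : ℤ) * ao - ((R + i : ℕ) : ℤ) * ai = j * ao - i * ai - R * ai := by
    push_cast
    ring
  rw [Nat.add_mod_left, Nat.mod_eq_of_lt hi', e, add_mul (φ ρ _)]

/-! ### the groups -/

section Groups

variable {N M' Q P : ℕ}

/-- the map `j ↦ j Q` -/
noncomputable def iota (hN : N = M' * Q) : ZMod M' →+ ZMod N :=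
  ZMod.lift M' ⟨zmultiplesHom (ZMod N) (Q : ZMod N), by
    rw [zmultiplesHom_apply, natCast_zsmul, nsmul_eq_mul, ← Nat.cast_mul, ← hN,
      ZMod.natCast_self]⟩

theorem iota_intCast (hN : N = M' * Q) (c : ℤ) :
    iota hN (c : ZMod M') = ((c * Q : ℤ) : ZMod N) := by
  rw [iota, ZMod.lift_coe]
  simp

theorem iota_val [NeZero M'] (hN : N = M' * Q) (j : ZMod M') :
    iota hN j = ((j.val * Q : ℤ) : ZMod N) := by
  rw [← iota_intCast hN]
  simp

/-- reduction modulo `P` -/
def piP (hP : P ∣ N) : ZMod N →+ ZMod P := (ZMod.castHom hP (ZMod P)).toAddMonoidHom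

theorem piP_val [NeZero N] (hP : P ∣ N) (l : ZMod N) : piP hP l = (l.val : ZMod P) := by
  simp [piP]

theorem intCast_val_of_nonneg [NeZero N] {t : ℤ} (h0 : 0 ≤ t) (h1 : t < N) :
    (((t : ZMod N).val : ℕ) : ℤ) = t := by
  rw [ZMod.val_intCast, Int.emod_eq_of_lt h0 h1]

theorem intCast_val_of_neg [NeZero N] {t : ℤ} (h0 : -(N : ℤ) ≤ t) (h1 : t < 0) :
    (((t : ZMod N).val : ℕ) : ℤ) = t + N := by
  rw [ZMod.val_intCast, ← Int.add_emod_right, Int.emod_eq_of_lt (by omega) (by omega)]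

/-- periodisation of a function supported in `[0, N)` -/
theorem fold_val [NeZero N] {f : ℤ → ℤ} (hf : ∀ t, t < 0 ∨ (N : ℤ) ≤ t → f t = 0) {t : ℤ}
    (h0 : -(N : ℤ) ≤ t) (h1 : t < N) : f t + f (t + N) = f (t : ZMod N).val := by
  rcases lt_or_ge t 0 with h | h
  · rw [intCast_val_of_neg h0 h, hf t (Or.inl h), zero_add]
  · rw [intCast_val_of_nonneg h h1, hf (t + N) (Or.inr (by omega)), add_zero]

theorem sum_iota [NeZero N] [NeZero M'] (hN : N = M' * Q) (y : ZMod N) (f : ℕ → ℤ) :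
    ∑ j : ZMod M', f (y - iota hN j).val =
      ∑ t ∈ (range N).filter (fun t : ℕ => (t : ℤ) ≡ y.val [ZMOD Q]), f t := by
  have hQ : 0 < Q := Nat.pos_of_ne_zero fun h => NeZero.ne N (by rw [hN, h, Nat.mul_zero])
  have hQN : (Q : ℤ) ∣ N := ⟨M', by rw [hN]; push_cast; ring⟩
  refine sum_bij (fun j _ => (y - iota hN j).val) ?_ ?_ ?_ ?_
  · intro j _
    refine mem_filter.2 ⟨mem_range.2 (ZMod.val_lt _), ?_⟩
    have h1 : y - iota hN j = (((y.val : ℤ) - j.val * Q : ℤ) : ZMod N) := by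
      rw [iota_val]
      simp
    rw [h1, ZMod.val_intCast]
    refine ((Int.mod_modEq _ _).of_dvd hQN).trans ?_
    exact Int.modEq_iff_dvd.2 ⟨j.val, by ring⟩
  · intro j₁ _ j₂ _ h
    have h1 : iota hN j₁ = iota hN j₂ := sub_right_injective (ZMod.val_injective N h)
    rw [iota_val, iota_val, ZMod.intCast_eq_intCast_iff_dvd_sub, hN, ← sub_mul] at h1
    push_cast at h1
    have h2 := Int.dvd_of_mul_dvd_mul_right (by exact_mod_cast hQ.ne') h1
    have h3 := (ZMod.intCast_eq_intCast_iff_dvd_sub (j₁.val : ℤ) j₂.val M').2 h2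
    simpa using h3
  · intro t ht
    obtain ⟨ht1, ht2⟩ := mem_filter.1 ht
    obtain ⟨c, hc⟩ := Int.modEq_iff_dvd.1 ht2
    refine ⟨(c : ZMod M'), mem_univ _, ?_⟩
    have h1 : y - iota hN (c : ZMod M') = (t : ZMod N) := by
      rw [iota_intCast, mul_comm c, ← hc]
      simp
    rw [h1, ZMod.val_cast_of_lt (mem_range.1 ht1)]
  · intro j _
    rfl

end Groups

/-! ### the taps on `ZMod N` -/

section Taps

variable {N M M' Q P p δ E : ℕ} {g h : ℤ → ℤ}

/-- the causal synthesis taps on `ZMod N` -/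
def Gz (N δ : ℕ) (g : ℤ → ℤ) (x : ZMod N) : ℤ := g ((x.val : ℤ) - 2 * δ)

/-- the causal analysis taps on `ZMod N` -/
def Hz (N δ : ℕ) (h : ℤ → ℤ) (x : ZMod N) : ℤ := h ((δ : ℤ) - x.val)

theorem Taps.g_zero (T : Taps P Q p δ E g h) {t : ℤ} (ht : t < 0 ∨ (4 * δ : ℤ) < t) :
    g (t - 2 * δ) = 0 := by
  refine T.supp_g _ ?_
  rcases ht with ht | ht
  · rw [abs_of_neg (by omega)]; omega
  · rw [abs_of_pos (by omega)]; omega

theorem Taps.h_zero (T : Taps P Q p δ E g h) {t : ℤ} (ht : t < 0 ∨ (2 * δ : ℤ) < t) :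
    h (δ - t) = 0 := by
  refine T.supp_h _ ?_
  rcases ht with ht | ht
  · rw [abs_of_pos (by omega)]; omega
  · rw [abs_of_neg (by omega)]; omega

theorem Taps.Gz_cast [NeZero N] (T : Taps P Q p δ E g h) (hδ : 6 * δ < N) {D : ℤ}
    (h0 : -(2 * δ : ℤ) ≤ D) (h1 : D < N) : Gz N δ g (D : ZMod N) = g (D - 2 * δ) := by
  unfold Gz
  rcases lt_or_ge D 0 with h | h
  · rw [intCast_val_of_neg (by omega) h, T.g_zero (Or.inr (by omega)), T.g_zero (Or.inl h)]
  · rw [intCast_val_of_nonneg h h1]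

theorem sum_abs_le_of_supp [NeZero N] {f : ℕ → ℤ} {K : ℕ} {B : ℤ} (hB : ∀ t, |f t| ≤ B)
    (hf : ∀ t, K ≤ t → f t = 0) : ∑ x : ZMod N, |f x.val| ≤ K * B := by
  have hB0 : 0 ≤ B := (abs_nonneg _).trans (hB 0)
  rw [sum_zmod N fun t => |f t|]
  calc ∑ t ∈ range N, |f t| ≤ ∑ t ∈ range N ∪ range K, |f t| :=
        sum_le_sum_of_subset_of_nonneg subset_union_left fun _ _ _ => abs_nonneg _
    _ = ∑ t ∈ range K, |f t| := by
        refine (sum_subset subset_union_right fun t _ ht => ?_).symm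
        rw [hf t (by simpa using ht), abs_zero]
    _ ≤ ∑ _t ∈ range K, B := sum_le_sum fun t _ => hB t
    _ = K * B := by simp


theorem Taps.sum_Hz [NeZero N] (T : Taps P Q p δ E g h) :
    ∑ x, |Hz N δ h x| ≤ 2 ^ p * gain P δ := by
  refine (sum_abs_le_of_supp (N := N) (f := fun t => h ((δ : ℤ) - t)) (K := 4 * δ + 1)
    (fun t => T.abs_h _) fun t ht => T.h_zero (Or.inr (by omega))).trans (le_of_eq ?_)
  simp only [gain]
  push_cast
  ring

theorem Taps.sum_Hz_iota [NeZero N] [NeZero M'] (T : Taps P Q p δ E g h) (hN : N = M' * Q)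
    (y : ZMod N) : ∑ j, |Hz N δ h (y - iota hN j)| ≤ 2 ^ p * gain P δ := by
  refine le_trans ?_ (T.sum_Hz (N := N))
  unfold Hz
  rw [sum_iota hN y fun t => |h ((δ : ℤ) - t)|, sum_zmod N fun t => |h ((δ : ℤ) - t)|]
  exact sum_le_sum_of_subset_of_nonneg (filter_subset _ _) fun _ _ _ => abs_nonneg _

theorem Taps.interp_zmod [NeZero N] [NeZero M'] (T : Taps P Q p δ E g h) (hN : N = M' * Q)
    (hδ : 6 * δ < N) (x y : ZMod N) :
    |∑ j, Gz N δ g (x - iota hN j) * Hz N δ h (y - iota hN j) -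
      2 ^ p * Gz N δ g (x - y + (δ : ZMod N))| ≤ E := by
  set D : ℤ := ((x - y + 2 * δ : ZMod N).val : ℤ) - 2 * δ with hD
  have hD0 : -(2 * δ : ℤ) ≤ D := by omega
  have hD1 : D + 2 * δ < N := by
    have := ZMod.val_lt (x - y + 2 * δ : ZMod N)
    omega
  have hDc : (D : ZMod N) = x - y := by
    rw [hD]
    simp
  have h1 : ∀ j, Gz N δ g (x - iota hN j) * Hz N δ h (y - iota hN j) =
      g (D + (y - iota hN j).val - 2 * δ) * h ((δ : ℤ) - (y - iota hN j).val) := by
    intro j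
    by_cases ht : (2 * δ : ℤ) < (y - iota hN j).val
    · unfold Hz
      rw [T.h_zero (Or.inr ht), mul_zero, mul_zero]
    · rw [← T.Gz_cast hδ (by omega) (by omega)]
      unfold Hz
      congr 2
      push_cast
      rw [hDc]
      simp
  have h2 : Gz N δ g (x - y + (δ : ZMod N)) = g (D - δ) := by
    rw [show D - δ = D + δ - 2 * δ by ring, ← T.Gz_cast hδ (by omega) (by omega)]
    congr 1
    push_cast
    rw [hDc]
  simp only [h1]
  rw [h2, sum_iota hN y fun t => g (D + t - 2 * δ) * h ((δ : ℤ) - t)]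
  have h3 := T.interp (D - δ) ((δ : ℤ) - y.val)
  convert h3 using 3
  symm
  refine sum_bij_ne_zero (fun m _ _ => ((δ : ℤ) - m).toNat) ?_ ?_ ?_ ?_
  · intro m hm _
    obtain ⟨hm1, hm2⟩ := mem_filter.1 hm
    rw [mem_Icc] at hm1
    refine mem_filter.2 ⟨mem_range.2 (by omega), ?_⟩
    rw [Int.toNat_of_nonneg (by omega)]
    have := (Int.ModEq.refl (δ : ℤ)).sub hm2
    simpa using this
  · intro m₁ hm₁ _ m₂ hm₂ _ hm
    have h₁ := mem_Icc.1 (mem_filter.1 hm₁).1
    have h₂ := mem_Icc.1 (mem_filter.1 hm₂).1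
    omega
  · intro t ht hne
    obtain ⟨_, ht2⟩ := mem_filter.1 ht
    have ht3 : ¬ (2 * δ : ℤ) < t := fun hlt => hne (by rw [T.h_zero (Or.inr hlt), mul_zero])
    refine ⟨(δ : ℤ) - t, mem_filter.2 ⟨mem_Icc.2 ⟨by omega, by omega⟩,
      (Int.ModEq.refl (δ : ℤ)).sub ht2⟩, ?_, by simp⟩
    rwa [show D - δ - (δ - t) = D + t - 2 * δ by ring]
  · intro m hm _
    have h₁ := mem_Icc.1 (mem_filter.1 hm).1
    rw [Int.toNat_of_nonneg (by omega)]
    congr 2 <;> ring

theorem Taps.nyq_zmod [NeZero N] (T : Taps P Q p δ E g h) (hP : P ∣ N) (hδ : 6 * δ < N)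
    (x : ZMod N) (hx : piP hP x = 0) :
    Gz N δ g (x + (δ : ZMod N) + (δ : ZMod N)) = if x = 0 then 2 ^ p else 0 := by
  rw [piP_val, ZMod.natCast_eq_zero_iff] at hx
  obtain ⟨n, hn⟩ := hx
  obtain ⟨M, hM⟩ := hP
  have hxN := ZMod.val_lt x
  have hP0 : 0 < P := Nat.pos_of_ne_zero fun h => NeZero.ne N (by rw [hM, h, Nat.zero_mul])
  by_cases hlt : (x.val : ℤ) + 2 * δ < N
  · have h1 : x + (δ : ZMod N) + (δ : ZMod N) = (((x.val : ℤ) + 2 * δ : ℤ) : ZMod N) := by
      push_cast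
      simp only [ZMod.natCast_val, ZMod.cast_id', id_eq]
      ring
    rw [h1, T.Gz_cast hδ (by omega) hlt, add_sub_cancel_right, hn, Nat.cast_mul, mul_comm, T.nyq]
    have : ((n : ℤ) = 0) ↔ x = 0 := by
      rw [← ZMod.val_eq_zero, hn]
      constructor
      · intro h0
        have : n = 0 := by exact_mod_cast h0
        simp [this]
      · intro h0
        rcases Nat.mul_eq_zero.1 h0 with h0 | h0
        · omega
        · simp [h0]
    simp only [this]
  · have h1 : x + (δ : ZMod N) + (δ : ZMod N) = (((x.val : ℤ) + 2 * δ - N : ℤ) : ZMod N) := by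
      push_cast
      simp only [ZMod.natCast_val, ZMod.cast_id', id_eq, ZMod.natCast_self]
      ring
    have hnM : n < M := by
      rw [hn, hM] at hxN
      exact Nat.lt_of_mul_lt_mul_left hxN
    have h2 : (x.val : ℤ) + 2 * δ - N - 2 * δ = ((n : ℤ) - M) * P := by
      rw [hn, hM]
      push_cast
      ring
    rw [h1, T.Gz_cast hδ (by omega) (by omega), h2, T.nyq, if_neg (by omega), if_neg]
    rintro rfl
    simp at hlt
    omega

end Taps

/-! ### `ana`, `syn` and `cyc` in terms of the groups -/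

section Level

variable {N M M' Q P p δ E Z : ℕ} {g h : ℤ → ℤ}

theorem ana_blk [NeZero N] [NeZero M'] [NeZero P] (T : Taps P Q p δ E g h) (hM : N = M * P)
    (hN : N = M' * Q) (hP : P ∣ N) (hδ : 6 * δ < N) (a : Arr) (j : ZMod M') (ρ : ZMod P) :
    Agree Z (blk Z (j.val * P + ρ.val) (ana P Q M Z δ h a))
      (anaG (iota hN) (piP hP) (Hz N δ h) (fun l => blk Z l.val a) j ρ) := by
  intro z hz
  have hρ := ZMod.val_lt ρ
  have hj : (j.val : ℤ) * Q < N := by
    have hQ : 0 < Q := Nat.pos_of_ne_zero fun h => NeZero.ne N (by rw [hN, h, Nat.mul_zero])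
    have : j.val * Q < N := by
      rw [hN]
      exact Nat.mul_lt_mul_of_pos_right (ZMod.val_lt j) hQ
    exact_mod_cast this
  have hj0 : 0 ≤ (j.val : ℤ) * Q := by positivity
  simp only [blk, ana, anaG, Finset.sum_apply, Pi.smul_apply, smul_eq_mul, piP_val]
  rw [band_apply' _ _ _ _ _ _ hρ hz]
  have h1 := sum_zmod N fun l : ℕ => (if (l : ZMod P) = ρ then
    Hz N δ h ((l : ZMod N) - iota hN j) else 0) * a (l * Z + z)
  simp only [ZMod.natCast_val, ZMod.cast_id', id_eq] at h1 ⊢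
  rw [h1]
  rw [show range N = range (M * P) by rw [hM], sum_range_mul]
  refine sum_congr rfl fun i hi => ?_
  have hi' : i * P + ρ.val < N := hM ▸ idx_lt (mem_range.1 hi) hρ
  rw [sum_eq_single ρ.val]
  · rw [if_pos (by simp)]
    congr 1
    have h2 := fold_val (N := N) (f := fun t => h ((δ : ℤ) - t))
      (fun t ht => T.h_zero (by omega)) (t := ((i * P + ρ.val : ℕ) : ℤ) - j.val * Q)
      (by omega) (by omega)
    have h3 : ((((i * P + ρ.val : ℕ) : ℤ) - j.val * Q : ℤ) : ZMod N) =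
        ((i * P + ρ.val : ℕ) : ZMod N) - iota hN j := by
      rw [iota_val]
      simp
    rw [h3] at h2
    unfold Hz
    rw [← h2]
    have hMP : (N : ℤ) = M * P := by exact_mod_cast hM
    simp only [ZMod.natCast_val]
    congr 2 <;> · push_cast [hMP]; simp only [ZMod.natCast_val]; ring
  · intro ρ' hρ' hne
    rw [if_neg, zero_mul]
    intro h0
    apply hne
    have : (ρ' : ZMod P) = ρ := by simpa using h0
    rw [← this, ZMod.val_cast_of_lt (mem_range.1 hρ')]
  · intro h0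
    exact absurd (mem_range.2 hρ) h0

theorem syn_blk [NeZero N] [NeZero M'] [NeZero P] (T : Taps P Q p δ E g h)
    (hN : N = M' * Q) (hP : P ∣ N) (hδ : 6 * δ < N) (c : Arr) (l : ZMod N) :
    Agree Z (blk Z l.val (syn P Q M' Z δ g c))
      (synG (iota hN) (piP hP) (Gz N δ g) (fun j ρ => blk Z (j.val * P + ρ.val) c) l) := by
  intro z hz
  have hP0 : 0 < P := Nat.pos_of_ne_zero (NeZero.ne P)
  have hQ : 0 < Q := Nat.pos_of_ne_zero fun h => NeZero.ne N (by rw [hN, h, Nat.mul_zero])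
  have hl := ZMod.val_lt l
  simp only [blk, syn, synG, Finset.sum_apply, Pi.smul_apply, smul_eq_mul, piP_val,
    ZMod.val_natCast]
  conv_lhs => rw [← Nat.div_add_mod' l.val P]
  rw [band_apply' _ _ _ _ _ _ (Nat.mod_lt _ hP0) hz, ← sum_zmod M']
  refine sum_congr rfl fun j _ => ?_
  congr 1
  have hj : (j.val : ℤ) * Q < N := by
    have : j.val * Q < N := by
      rw [hN]
      exact Nat.mul_lt_mul_of_pos_right (ZMod.val_lt j) hQ
    exact_mod_cast this
  have hj0 : 0 ≤ (j.val : ℤ) * Q := by positivity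
  have h2 := fold_val (N := N) (f := fun t => g (t - 2 * δ))
    (fun t ht => T.g_zero (by omega)) (t := (l.val : ℤ) - j.val * Q) (by omega) (by omega)
  have h3 : (((l.val : ℤ) - j.val * Q : ℤ) : ZMod N) = l - iota hN j := by
    rw [iota_val]
    simp
  rw [h3] at h2
  unfold Gz
  rw [← h2, add_comm]
  have hMQ : (N : ℤ) = M' * Q := by exact_mod_cast hN
  have hl2 : (l.val : ℤ) = (l.val / P : ℕ) * P + (l.val % P : ℕ) := by
    exact_mod_cast (Nat.div_add_mod' l.val P).symm
  congr 2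
  · rw [hl2, Nat.cast_mul]
    ring
  · rw [hl2, hMQ, Nat.cast_mul]
    ring

theorem cyc2_blk [NeZero M'] [NeZero P] {μ : Arr → Arr → Arr} (A B : Arr) (j : ZMod M')
    (ρ : ZMod P) :
    Agree Z (blk Z (j.val * P + ρ.val) (cyc M' (P * Z) (cyc P Z μ) A B))
      (∑ j₁ : ZMod M', ∑ ρ₁ : ZMod P, μ (blk Z (j₁.val * P + ρ₁.val) A)
        (blk Z ((j - j₁).val * P + (ρ - ρ₁).val) B)) := by
  rw [← blk_blk]
  refine ((cyc_blk (cyc P Z μ) A B j).blk (ZMod.val_lt ρ)).trans fun z hz => ?_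
  simp only [blk, Finset.sum_apply]
  refine sum_congr rfl fun j₁ _ => ?_
  have := cyc_blk μ (blk (P * Z) j₁.val A) (blk (P * Z) (j - j₁).val B) ρ z hz
  simp only [blk_blk, Finset.sum_apply] at this
  exact this


theorem synG_congr {X J R : Type*} [AddCommGroup X] [AddCommGroup J] [Fintype J]
    [AddCommGroup R] (ι : J →+ X) (π : X →+ R) (G : X → ℤ) {c c' : J → R → Arr}
    (hc : ∀ j ρ, Agree Z (c j ρ) (c' j ρ)) (l : X) : Agree Z (synG ι π G c l) (synG ι π G c' l) := by
  intro z hz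
  simp only [synG, Finset.sum_apply, Pi.smul_apply]
  exact sum_congr rfl fun j _ => by rw [hc j _ z hz]

/-- **the one-level identity** -/
theorem bank_level {μ : Arr → Arr → Arr} (hμ : Bil Z μ) (T : Taps P Q p δ E g h)
    (hM : N = M * P) (hN : N = M' * Q) (hδ : 6 * δ < N) (a b : Arr) :
    l1 (N * Z) (syn P Q M' Z δ g (cyc M' (P * Z) (cyc P Z μ) (ana P Q M Z δ h a)
        (ana P Q M Z δ h b)) - ((2 : ℤ) ^ (3 * p)) • cyc N Z μ a b) ≤
      N * ((2 ^ p * gain P δ + 2 ^ p) * E) * (l1 (N * Z) a * l1 (N * Z) b) := by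
  have : NeZero N := ⟨by omega⟩
  have : NeZero M' := ⟨fun h0 => NeZero.ne N (by rw [hN, h0, Nat.zero_mul])⟩
  have : NeZero P := ⟨fun h0 => NeZero.ne N (by rw [hM, h0, Nat.mul_zero])⟩
  have hP : P ∣ N := ⟨M, by rw [hM, Nat.mul_comm]⟩
  have key := bank_abstract hμ (iota hN) (piP hP) (Gz N δ g) (Hz N δ h) (δ : ZMod N) (2 ^ p) E
    (2 ^ p * gain P δ) (T.interp_zmod hN hδ) (T.sum_Hz_iota hN) (T.nyq_zmod hP hδ)
    (fun l => blk Z l.val a) (fun l => blk Z l.val b)
  rw [l1_zmod, l1_zmod N Z a, l1_zmod N Z b]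
  rw [ZMod.card, abs_of_pos (by positivity), ← add_mul] at key
  refine le_trans (le_of_eq (sum_congr rfl fun l _ => l1_congr fun z hz => ?_)) key
  rw [blk_sub, blk_smul]
  simp only [Pi.sub_apply, Pi.smul_apply]
  rw [cyc_blk μ a b l z hz, syn_blk T hN hP hδ _ l z hz,
    show (2 : ℤ) ^ (3 * p) = 2 ^ p * 2 ^ p * 2 ^ p by ring]
  congr 1
  refine synG_congr _ _ _ (fun j ρ => (cyc2_blk _ _ j ρ).trans fun z hz => ?_) l z hz
  simp only [Finset.sum_apply]
  refine sum_congr rfl fun j₁ _ => sum_congr rfl fun ρ₁ _ => ?_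
  exact hμ.congr (ana_blk T hM hN hP hδ a _ _) (ana_blk T hM hN hP hδ b _ _) hz

end Level

end Crest.Agent.X326.FB
end

-- ▼ part X326/FB/Multi
section

/-!
# Row 326, filter bank: all levels, truncation and rounding (`MainStatement`)
-/

set_option autoImplicit false

namespace Crest.Agent.X326.FB

open Finset

variable {P Q p δ E : ℕ} {g h : ℤ → ℤ}

/-! ### norms -/

theorem level_lt (hδ : 6 * δ < P * Q) (e : ℕ) : 6 * δ < P * Q ^ (e + 1) :=
  hδ.trans_le (Nat.mul_le_mul_left _ (Nat.le_self_pow (Nat.succ_ne_zero e) Q))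

/-- norm of one analysis level, in the shape used by `anaAll` -/
theorem l1_ana_level (T : Taps P Q p δ E g h) (hQ : 0 < Q) (e Z : ℕ)
    (a : Arr) : l1 (P * Q ^ e * (P * Z)) (ana P Q (Q ^ (e + 1)) Z δ h a) ≤
      2 ^ p * gain P δ * l1 (P * Q ^ (e + 1) * Z) a := by
  have h2 := l1_ana T hQ (M := Q ^ (e + 1)) (M' := P * Q ^ e) (le_of_eq (by ring)) Z a
  rwa [mul_comm (Q ^ (e + 1)) P, mul_assoc (P * Q ^ e)] at h2

/-- norm of one synthesis level, in the shape used by `synAll` -/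
theorem l1_syn_level (T : Taps P Q p δ E g h) (hP : 0 < P) (e Z : ℕ)
    (c : Arr) : l1 (P * Q ^ (e + 1) * Z) (syn P Q (P * Q ^ e) Z δ g c) ≤
      2 ^ p * gain P δ * l1 (P * Q ^ e * (P * Z)) c := by
  have h2 := l1_syn T hP (M := Q ^ (e + 1)) (M' := P * Q ^ e) (le_of_eq (by ring)) Z c
  rwa [mul_comm (Q ^ (e + 1)) P, mul_assoc (P * Q ^ e)] at h2

/-! ### the error of all levels -/

theorem one_le_gain (hP : 0 < P) (δ : ℕ) : 1 ≤ gain P δ :=
  Nat.mul_pos (Nat.succ_pos _) hP

theorem bank_multi (T : Taps P Q p δ E g h) (hP : 0 < P) (hQ : 0 < Q) (hδ : 6 * δ < P * Q)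
    {c₀ K : ℕ} (hE : E ≤ 2 ^ p * c₀) (e : ℕ) :
    ∀ {Z : ℕ} {μ : Arr → Arr → Arr} (a b : Arr), Bil Z μ → P * Q ^ e ≤ K →
      2 ^ p * l1 (P * Q ^ e * Z) (synAll P Q δ g e Z (tower P e Z μ (anaAll P Q δ h e Z a)
        (anaAll P Q δ h e Z b)) - ((2 : ℤ) ^ (3 * p * e)) • cyc (P * Q ^ e) Z μ a b) ≤
      e * (2 ^ p * gain P δ) ^ (3 * e) * (2 * K * c₀) *
        (l1 (P * Q ^ e * Z) a * l1 (P * Q ^ e * Z) b) := by
  induction e with
  | zero =>
    intro Z μ a b _ _
    simp [synAll, anaAll, tower, l1_zero]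
  | succ e ih =>
    intro Z μ a b hμ hK
    have hK' : P * Q ^ e ≤ K :=
      le_trans (Nat.mul_le_mul_left _ (Nat.pow_le_pow_right hQ (Nat.le_succ e))) hK
    set A := ana P Q (Q ^ (e + 1)) Z δ h a with hA
    set B := ana P Q (Q ^ (e + 1)) Z δ h b with hB
    have h1 := ih A B (hμ.cyc P) hK'
    have h2 := bank_level (M := Q ^ (e + 1)) (M' := P * Q ^ e) (N := P * Q ^ (e + 1)) hμ T
      (Nat.mul_comm _ _) (by ring) (level_lt hδ e) a b
    have hA' := l1_ana_level T hQ e Z a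
    have hB' := l1_ana_level T hQ e Z b
    rw [← hA] at h2 hA'
    rw [← hB] at h2 hB'
    simp only [synAll, anaAll, tower]
    rw [← hA, ← hB]
    set Y := synAll P Q δ g e (P * Z) (tower P e (P * Z) (cyc P Z μ)
      (anaAll P Q δ h e (P * Z) A) (anaAll P Q δ h e (P * Z) B)) with hY
    set C := cyc (P * Q ^ e) (P * Z) (cyc P Z μ) A B with hC
    have e1 : syn P Q (P * Q ^ e) Z δ g Y -
        ((2 : ℤ) ^ (3 * p * (e + 1))) • cyc (P * Q ^ (e + 1)) Z μ a b =
        syn P Q (P * Q ^ e) Z δ g (Y - ((2 : ℤ) ^ (3 * p * e)) • C) +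
          ((2 : ℤ) ^ (3 * p * e)) • (syn P Q (P * Q ^ e) Z δ g C -
            ((2 : ℤ) ^ (3 * p)) • cyc (P * Q ^ (e + 1)) Z μ a b) := by
      simp only [syn, band_sub, band_smul, smul_sub, smul_smul, ← pow_add]
      rw [show 3 * p * e + 3 * p = 3 * p * (e + 1) by ring]
      abel
    rw [e1]
    have h3 := l1_syn_level T hP e Z (Y - ((2 : ℤ) ^ (3 * p * e)) • C)
    set s : ℤ := 2 ^ p with hs
    set G : ℤ := (gain P δ : ℤ) with hG
    have hs0 : 0 < s := by positivity
    have hG1 : 1 ≤ G := by rw [hG]; exact_mod_cast one_le_gain hP δ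
    have hse : (2 : ℤ) ^ (3 * p * e) = s ^ (3 * e) := by rw [hs, ← pow_mul]; congr 1; ring
    have hEz : (E : ℤ) ≤ s * c₀ := by rw [hs]; exact_mod_cast hE
    have hKz : ((P * Q ^ (e + 1) : ℕ) : ℤ) ≤ K := by exact_mod_cast hK
    set la := l1 (P * Q ^ (e + 1) * Z) a
    set lb := l1 (P * Q ^ (e + 1) * Z) b
    have hla : 0 ≤ la := l1_nonneg _ _
    have hlb : 0 ≤ lb := l1_nonneg _ _
    have hAB : l1 (P * Q ^ e * (P * Z)) A * l1 (P * Q ^ e * (P * Z)) B ≤
        (s * G * la) * (s * G * lb) := mul_le_mul hA' hB' (l1_nonneg _ _) (by positivity)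
    have h4 : s * l1 (P * Q ^ (e + 1) * Z)
        (syn P Q (P * Q ^ e) Z δ g (Y - ((2 : ℤ) ^ (3 * p * e)) • C)) ≤
        e * (s * G) ^ (3 * (e + 1)) * (2 * K * c₀) * (la * lb) := by
      calc _ ≤ s * (s * G * l1 (P * Q ^ e * (P * Z)) (Y - ((2 : ℤ) ^ (3 * p * e)) • C)) :=
            mul_le_mul_of_nonneg_left h3 hs0.le
        _ = s * G * (s * l1 (P * Q ^ e * (P * Z)) (Y - ((2 : ℤ) ^ (3 * p * e)) • C)) := by ring
        _ ≤ s * G * (e * (s * G) ^ (3 * e) * (2 * K * c₀) * ((s * G * la) * (s * G * lb))) := by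
            refine mul_le_mul_of_nonneg_left (h1.trans ?_) (by positivity)
            exact mul_le_mul_of_nonneg_left hAB (by positivity)
        _ = _ := by ring
    have h5 : s * l1 (P * Q ^ (e + 1) * Z) (((2 : ℤ) ^ (3 * p * e)) •
        (syn P Q (P * Q ^ e) Z δ g C - ((2 : ℤ) ^ (3 * p)) • cyc (P * Q ^ (e + 1)) Z μ a b)) ≤
        (s * G) ^ (3 * (e + 1)) * (2 * K * c₀) * (la * lb) := by
      rw [l1_smul, hse, abs_of_pos (by positivity)]
      have h6 : ((P * Q ^ (e + 1) : ℕ) : ℤ) * ((s * G + s) * E) ≤ K * ((2 * s * G) * (s * c₀)) := by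
        refine mul_le_mul hKz (mul_le_mul (by nlinarith) hEz (by positivity) (by positivity))
          (by positivity) (by positivity)
      have h7 : G ≤ G ^ (3 * (e + 1)) := le_self_pow₀ hG1 (by omega)
      calc _ ≤ s * (s ^ (3 * e) * (K * ((2 * s * G) * (s * c₀)) * (la * lb))) := by
            refine mul_le_mul_of_nonneg_left (mul_le_mul_of_nonneg_left (h2.trans ?_)
              (by positivity)) hs0.le
            exact mul_le_mul_of_nonneg_right h6 (by positivity)
        _ = s ^ (3 * (e + 1)) * G * (2 * K * c₀) * (la * lb) := by ring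
        _ ≤ s ^ (3 * (e + 1)) * G ^ (3 * (e + 1)) * (2 * K * c₀) * (la * lb) := by gcongr
        _ = _ := by rw [mul_pow]
    calc _ ≤ _ := mul_le_mul_of_nonneg_left (l1_add_le _ _ _) hs0.le
      _ ≤ _ := by
        rw [mul_add]
        refine (add_le_add h4 h5).trans (le_of_eq ?_)
        push_cast
        ring

/-! ### truncation and rounding -/

theorem l1_trunc {n : ℕ} {ν : Arr → Arr → Arr} (hν : Bil n ν) (s : ℕ) (A B : Arr) {L : ℤ}
    (hA : l1 n A ≤ L) (hB : l1 n B ≤ L) :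
    l1 n (ν A B - ((2 : ℤ) ^ (2 * s)) • ν (shr s A) (shr s B)) ≤
      n * 2 ^ s * (2 * L + n * 2 ^ s) := by
  have hw : (0 : ℤ) < 2 ^ s := by positivity
  have key : ∀ X : Arr, l1 n (X - ((2 : ℤ) ^ s) • shr s X) ≤ n * 2 ^ s := l1_sub_shr_le n s
  have e1 : ν A B - ((2 : ℤ) ^ (2 * s)) • ν (shr s A) (shr s B) =
      ν (A - ((2 : ℤ) ^ s) • shr s A) B +
        ν (A - (A - ((2 : ℤ) ^ s) • shr s A)) (B - ((2 : ℤ) ^ s) • shr s B) := by
    rw [sub_sub_cancel]
    simp only [hν.sub_left, hν.sub_right, hν.smul_left, hν.smul_right, smul_smul,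
      ← pow_add, two_mul]
    abel
  rw [e1]
  have hL : 0 ≤ L := (l1_nonneg _ _).trans hA
  have h1 : l1 n (ν (A - ((2 : ℤ) ^ s) • shr s A) B) ≤ n * 2 ^ s * L :=
    (hν.l1_le _ _).trans (mul_le_mul (key A) hB (l1_nonneg _ _) (by positivity))
  have h2 : l1 n (ν (A - (A - ((2 : ℤ) ^ s) • shr s A)) (B - ((2 : ℤ) ^ s) • shr s B)) ≤
      (L + n * 2 ^ s) * (n * 2 ^ s) :=
    (hν.l1_le _ _).trans (mul_le_mul ((l1_sub_le _ _ _).trans (add_le_add hA (key A))) (key B)
      (l1_nonneg _ _) (by positivity))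
  refine (l1_add_le _ _ _).trans ((add_le_add h1 h2).trans (le_of_eq ?_))
  ring

theorem final_numeric {s G n A c₀ S C U : ℤ} {e : ℕ} (hs0 : 0 < s) (hG1 : 1 ≤ G) (hn1 : 1 ≤ n)
    (hA0 : 0 ≤ A) (hc0 : 0 ≤ c₀)
    (hp : 16 * (e + 1) * (c₀ + 1) * G ^ (3 * e + 3) * n ^ 2 * (A + 1) ^ 2 ≤ s)
    (h7 : s * |U - s ^ (2 * e) * s ^ (e + 3) * C| ≤
      ((e + 1 : ℕ) : ℤ) * (s * G) ^ (3 * (e + 1)) * (2 * n * c₀) * (A * A))
    (h6 : |U - s ^ (2 * e) * S| ≤
      (s * G) ^ (e + 1) * (n * s ^ e * (2 * ((s * G) ^ (e + 1) * A) + n * s ^ e))) :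
    2 * |S - s ^ (e + 3) * C| < s ^ (e + 3) := by
  have hs1 : 1 ≤ s := hs0
  have hA1 : A ≤ (A + 1) ^ 2 := by nlinarith
  have hA2 : A * A ≤ (A + 1) ^ 2 := by nlinarith
  have hA3 : 1 ≤ (A + 1) ^ 2 := by nlinarith
  have hn2 : n ≤ n ^ 2 := by nlinarith
  have hec : (1 : ℤ) ≤ (e + 1) * (c₀ + 1) :=
    one_le_mul_of_one_le_of_one_le (by omega) (by omega)
  have h8 : s ^ (2 * e) * |S - s ^ (e + 3) * C| ≤
      |U - s ^ (2 * e) * s ^ (e + 3) * C| + |U - s ^ (2 * e) * S| := by
    rw [← abs_of_pos (pow_pos hs0 (2 * e)), ← abs_mul, abs_of_pos (pow_pos hs0 (2 * e)),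
      show s ^ (2 * e) * (S - s ^ (e + 3) * C) =
        (U - s ^ (2 * e) * s ^ (e + 3) * C) - (U - s ^ (2 * e) * S) by ring]
    exact abs_sub _ _
  obtain ⟨W, hW⟩ : ∃ W, W = (e + 1) * (c₀ + 1) * G ^ (3 * e + 3) * n ^ 2 * (A + 1) ^ 2 := ⟨_, rfl⟩
  have b1 : ((e + 1 : ℕ) : ℤ) * (s * G) ^ (3 * (e + 1)) * (2 * n * c₀) * (A * A) ≤
      2 * (s ^ (2 * e) * s ^ (e + 3)) * W := by
    calc _ = 2 * (s ^ (2 * e) * s ^ (e + 3)) *
          ((e + 1) * c₀ * G ^ (3 * e + 3) * n * (A * A)) := by push_cast; ring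
      _ ≤ _ := by
          rw [hW]
          gcongr
          omega
  have b2 : s * ((s * G) ^ (e + 1) * (n * s ^ e * (2 * ((s * G) ^ (e + 1) * A)))) ≤
      2 * (s ^ (2 * e) * s ^ (e + 3)) * W := by
    calc _ = 2 * (s ^ (2 * e) * s ^ (e + 3)) * (1 * G ^ (2 * e + 2) * n * A) := by ring
      _ ≤ _ := by
          rw [hW]
          gcongr <;> omega
  have b3 : s * ((s * G) ^ (e + 1) * (n * s ^ e * (n * s ^ e))) ≤
      (s ^ (2 * e) * s ^ (e + 3)) * W := by
    calc _ = (s ^ (2 * e) * s ^ (e + 2)) * (1 * G ^ (e + 1) * n ^ 2 * 1) := by ring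
      _ ≤ _ := by
          rw [hW]
          gcongr <;> omega
  have h9 : s * (s ^ (2 * e) * |S - s ^ (e + 3) * C|) ≤ 5 * (s ^ (2 * e) * s ^ (e + 3)) * W := by
    have := mul_le_mul_of_nonneg_left h8 hs0.le
    have h10 := mul_le_mul_of_nonneg_left h6 hs0.le
    rw [mul_add] at this
    have e5 : s * ((s * G) ^ (e + 1) * (n * s ^ e * (2 * ((s * G) ^ (e + 1) * A) + n * s ^ e))) =
        s * ((s * G) ^ (e + 1) * (n * s ^ e * (2 * ((s * G) ^ (e + 1) * A)))) +
          s * ((s * G) ^ (e + 1) * (n * s ^ e * (n * s ^ e))) := by ring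
    linarith
  have hW16 : 16 * W ≤ s := by rw [hW]; linarith
  have hpos : 0 < s * s ^ (2 * e) := by positivity
  refine lt_of_mul_lt_mul_left ?_ hpos.le
  have h11 : 0 < s ^ (2 * e) * s ^ (e + 3) := by positivity
  calc s * s ^ (2 * e) * (2 * |S - s ^ (e + 3) * C|)
      = 2 * (s * (s ^ (2 * e) * |S - s ^ (e + 3) * C|)) := by ring
    _ ≤ 2 * (5 * (s ^ (2 * e) * s ^ (e + 3)) * W) := by linarith
    _ = (s ^ (2 * e) * s ^ (e + 3)) * (10 * W) := by ring
    _ < (s ^ (2 * e) * s ^ (e + 3)) * s := mul_lt_mul_of_pos_left (by linarith) h11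
    _ = _ := by ring

/-- **the filter bank computes the cyclic convolution exactly** -/
theorem main : MainStatement := by
  intro P Q p δ E c₀ e Z A g h μ a b c T hQ hQP hZ hδ hE hμ ha hb hp hc x hx
  have hP : 0 < P := hQ.trans_le hQP
  have hν := hμ.tower P (e + 1)
  set n := P ^ (e + 2) * Z with hn
  have hn1 : 1 ≤ n := Nat.mul_pos (Nat.pow_pos hP) hZ
  have hK : P * Q ^ (e + 1) ≤ n := by
    calc P * Q ^ (e + 1) ≤ P * P ^ (e + 1) := Nat.mul_le_mul_left _ (Nat.pow_le_pow_left hQP _)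
      _ = P ^ (e + 2) * 1 := by ring
      _ ≤ n := Nat.mul_le_mul_left _ hZ
  have h1 := bank_multi T hP hQ hδ hE (e + 1) a b hμ hK
  set s : ℤ := 2 ^ p with hs
  set G : ℤ := (gain P δ : ℤ) with hG
  have hs0 : 0 < s := by positivity
  have hG1 : 1 ≤ G := by rw [hG]; exact_mod_cast one_le_gain hP δ
  have hA : l1 n (anaAll P Q δ h (e + 1) Z a) ≤ (s * G) ^ (e + 1) * A :=
    (l1_anaAll T hQ (e + 1) Z a).trans (mul_le_mul_of_nonneg_left ha (by positivity))
  have hB : l1 n (anaAll P Q δ h (e + 1) Z b) ≤ (s * G) ^ (e + 1) * A :=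
    (l1_anaAll T hQ (e + 1) Z b).trans (mul_le_mul_of_nonneg_left hb (by positivity))
  have h2 := l1_trunc hν (p * e) _ _ hA hB
  set ν := tower P (e + 1) Z μ with hνd
  set A' := anaAll P Q δ h (e + 1) Z a
  set B' := anaAll P Q δ h (e + 1) Z b
  have h3 := (l1_synAll T hP (e + 1) Z _).trans (mul_le_mul_of_nonneg_left h2 (by positivity))
  rw [synAll_sub, synAll_smul] at h3
  have h4 : synAll P Q δ g (e + 1) Z c x =
      synAll P Q δ g (e + 1) Z (ν (shr (p * e) A') (shr (p * e) B')) x :=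
    synAll_congr hP hZ hc x hx
  have h5 := (mul_le_mul_of_nonneg_left (abs_le_l1 _ hx) hs0.le).trans h1
  have h6 := (abs_le_l1 _ hx).trans h3
  simp only [Pi.sub_apply, Pi.smul_apply, smul_eq_mul] at h5 h6
  rw [← h4] at h6
  have hp' : (16 * (e + 1) * (c₀ + 1) * G ^ (3 * e + 3) * (n : ℤ) ^ 2 * (A + 1) ^ 2 : ℤ) ≤ s := by
    rw [hs, hG]
    exact_mod_cast hp
  have hn1' : (1 : ℤ) ≤ n := by exact_mod_cast hn1
  refine rnd_eq ?_
  have e1 : (2 : ℤ) ^ (p * (e + 3)) = s ^ (e + 3) := by rw [hs, ← pow_mul]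
  have e2 : (2 : ℤ) ^ (3 * p * (e + 1)) = s ^ (2 * e) * s ^ (e + 3) := by
    rw [hs, ← pow_mul, ← pow_mul, ← pow_add]; congr 1; ring
  have e3 : (2 : ℤ) ^ (2 * (p * e)) = s ^ (2 * e) := by rw [hs, ← pow_mul]; congr 1; ring
  have e4 : (2 : ℤ) ^ (p * e) = s ^ e := by rw [hs, ← pow_mul]
  rw [e1]
  rw [e2] at h5
  rw [e3, e4] at h6
  have hab : l1 (P * Q ^ (e + 1) * Z) a * l1 (P * Q ^ (e + 1) * Z) b ≤ (A : ℤ) * A :=
    mul_le_mul ha hb (l1_nonneg _ _) (by positivity)
  have h7 := h5.trans (mul_le_mul_of_nonneg_left hab (by positivity))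
  exact final_numeric hs0 hG1 hn1' (by positivity) (by positivity) hp' h7 h6

/-- entries of the grid convolution of the prepared inputs are small -/
theorem abs_tower_prep {Z A : ℕ} {μ : Arr → Arr → Arr} (hμ : Bil Z μ) (T : Taps P Q p δ E g h)
    (hQ : 0 < Q) (e : ℕ) {a b : Arr} (ha : l1 (P * Q ^ (e + 1) * Z) a ≤ A)
    (hb : l1 (P * Q ^ (e + 1) * Z) b ≤ A) :
    l1 (P ^ (e + 2) * Z) (tower P (e + 1) Z μ (prep P Q p δ h e Z a) (prep P Q p δ h e Z b)) ≤
      ((2 ^ p * gain P δ ^ (e + 1) * A + P ^ (e + 2) * Z : ℕ) : ℤ) ^ 2 := by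
  have key : ∀ a : Arr, l1 (P * Q ^ (e + 1) * Z) a ≤ A →
      l1 (P ^ (e + 2) * Z) (prep P Q p δ h e Z a) ≤
        ((2 ^ p * gain P δ ^ (e + 1) * A + P ^ (e + 2) * Z : ℕ) : ℤ) := fun a ha => by
    refine (l1_prep T hQ e Z a).trans ?_
    push_cast
    gcongr
  rw [sq]
  exact ((hμ.tower P (e + 1)).l1_le _ _).trans
    (mul_le_mul (key a ha) (key b hb) (l1_nonneg _ _) (by positivity))

end Crest.Agent.X326.FB
end

-- ▼ part X326/Top/Pipe2
section

/-!
# Row 326, top level: the pipeline (analysis, exact grid convolution, synthesis)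
-/

set_option autoImplicit false

namespace Crest.Agent.X326.Top.P2

open Filter Crest.Agent.Lib.PT FB Par

/-- all side conditions at a large `L` -/
structure Good (ok : M4.Par → Prop) (L : ℕ) : Prop where
  ok : ok (par L)
  bank : BankOk (tt L) (QQ L) (gam L) (nu L) (beta L) (dl L) (rr L)
  taps : Taps (tt L) (QQ L) (pp L) (dl L) (2 ^ pp L * cc L) (gT L) (hT L)
  Q_pos : 0 < QQ L
  six : 6 * dl L < tt L * QQ L
  prec : 16 * (ee L + 1) * (cc L + 1) * gain (tt L) (dl L) ^ (3 * ee L + 3) *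
      (tt L ^ (ee L + 2) * rr L) ^ 2 * (AA L + 1) ^ 2 ≤ 2 ^ pp L
  modu : 2 * (2 ^ pp L * gain (tt L) (dl L) ^ (ee L + 1) * AA L + tt L ^ (ee L + 2) * rr L) ^ 2 + 2
      ≤ 2 ^ PP L - 1

theorem ev_good {ok : M4.Par → Prop} (hok : ∀ᶠ L in atTop, ok (par L)) (ht : TapsStatement) :
    ∀ᶠ L in atTop, Good ok L := by
  filter_upwards [hok, ev_bankOk, ev_taps ht, ev_QQ_pos, ev_six_dl_lt, ev_precision, ev_modulus]
    with L h1 h2 h3 h4 h5 h6 h7
  exact ⟨h1, h2, h3, h4, h5, h6, h7⟩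

/-- analysis on lists at the parameters `L` -/
noncomputable def pre (L : ℕ) (x : List ℤ) : List ℤ :=
  prepL (nu L) (beta L) (pp L) (ee L) (rr L)
    (tabA (tt L) (gam L) (dl L + QQ L) (2 ^ beta L) (hT L)) x

/-- synthesis on lists at the parameters `L` -/
noncomputable def fin (L : ℕ) (x : List ℤ) : List ℤ :=
  finishL (nu L) (beta L) (pp L) (ee L) (rr L) (tabS (tt L) (gam L) (dl L) (2 ^ beta L) (gT L)) x

/-- the prepared array -/
noncomputable def preA (L : ℕ) (a : Arr) : Arr :=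
  prep (tt L) (QQ L) (pp L) (dl L) (hT L) (ee L) (rr L) a

theorem grid_eq (L : ℕ) : (par L).N * (par L).r = tt L ^ (ee L + 2) * rr L := by
  rw [par_N, par_r, dd_eq]

variable {ok : M4.Par → Prop} {L : ℕ}

theorem l1_le_AA {a : Arr} (ha : ∀ x < NN L * rr L, 0 ≤ a x ∧ a x < 2 ^ L) :
    l1 (tt L * QQ L ^ (ee L + 1) * rr L) a ≤ AA L := by
  refine (l1_le_of_abs_le (B := 2 ^ L) fun x hx => ?_).trans (le_of_eq ?_)
  · rw [abs_of_nonneg (ha x hx).1]; exact (ha x hx).2.le
  · unfold AA NN; push_cast; ring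

theorem Good.pre_eq (h : Good ok L) (hs : PrepLStatement) (a : Arr) :
    pre L (tab (NN L * rr L) a) = tab ((par L).N * (par L).r) (preA L a) := by
  rw [grid_eq]
  exact hs _ _ _ _ _ _ _ _ _ _ a h.bank h.taps.supp_h

/-- the bound on the prepared array, as an integer -/
theorem Good.sq_lt (h : Good ok L) :
    2 * ((2 ^ pp L * gain (tt L) (dl L) ^ (ee L + 1) * AA L + tt L ^ (ee L + 2) * rr L : ℕ) : ℤ) ^ 2
      + 2 ≤ ((par L).M : ℤ) := by
  have := h.modu
  rw [par_M]
  exact_mod_cast this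

theorem Good.abs_preA (h : Good ok L) {a : Arr}
    (ha : ∀ x < NN L * rr L, 0 ≤ a x ∧ a x < 2 ^ L) :
    ∀ x < (par L).N * (par L).r, |preA L a x| < ((par L).M : ℤ) := by
  intro x hx
  rw [grid_eq] at hx
  have h1 := (abs_le_l1 _ hx).trans (l1_prep h.taps h.Q_pos (ee L) (rr L) a)
  have h2 := l1_le_AA ha
  have h3 := h.sq_lt
  have h4 : (0 : ℤ) ≤ 2 ^ pp L * (gain (tt L) (dl L) : ℤ) ^ (ee L + 1) := by positivity
  have h5 := mul_le_mul_of_nonneg_left h2 h4
  have h6 : |preA L a x| ≤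
      ((2 ^ pp L * gain (tt L) (dl L) ^ (ee L + 1) * AA L + tt L ^ (ee L + 2) * rr L : ℕ) : ℤ) := by
    refine h1.trans ?_
    push_cast at h5 ⊢
    linarith
  generalize ((2 ^ pp L * gain (tt L) (dl L) ^ (ee L + 1) * AA L + tt L ^ (ee L + 2) * rr L : ℕ) : ℤ)
    = B at h3 h6
  nlinarith [sq_nonneg (B - 1), sq_nonneg B]

theorem Good.abs_tower (h : Good ok L) {a b : Arr}
    (ha : ∀ x < NN L * rr L, 0 ≤ a x ∧ a x < 2 ^ L)
    (hb : ∀ x < NN L * rr L, 0 ≤ b x ∧ b x < 2 ^ L) :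
    ∀ x < (par L).N * (par L).r, 2 * |tower (par L).t ((par L).d - 1) (par L).r (nega (par L).r)
      (preA L a) (preA L b) x| < ((par L).M : ℤ) := by
  intro x hx
  rw [grid_eq] at hx
  have h1 := (abs_le_l1 _ hx).trans
    (abs_tower_prep (bil_nega (rr L)) h.taps h.Q_pos (ee L) (l1_le_AA ha) (l1_le_AA hb))
  have h3 := h.sq_lt
  have e : tower (par L).t ((par L).d - 1) (par L).r (nega (par L).r) (preA L a) (preA L b) x =
      tower (tt L) (ee L + 1) (rr L) (nega (rr L))
        (prep (tt L) (QQ L) (pp L) (dl L) (hT L) (ee L) (rr L) a)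
        (prep (tt L) (QQ L) (pp L) (dl L) (hT L) (ee L) (rr L) b) x := rfl
  rw [e]
  linarith

theorem digL_eq {l : List ℤ} (h : DigL L l) :
    l = tab (NN L * rr L) (fun i => l.getD i 0) ∧
      ∀ x < NN L * rr L, 0 ≤ l.getD x 0 ∧ l.getD x 0 < 2 ^ L := by
  refine ⟨eq_tab h.1 0, fun x hx => h.2 _ ?_⟩
  rw [← h.1] at hx
  rw [List.getD_eq_getElem _ _ hx]
  exact List.getElem_mem hx

theorem Good.grL (h : Good ok L) (hs : PrepLStatement) {l : List ℤ} (hl : DigL L l) :
    GrL (par L) (pre L l) := by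
  obtain ⟨e, hb⟩ := digL_eq hl
  rw [e, h.pre_eq hs]
  refine ⟨length_tab _ _, fun z hz => ?_⟩
  obtain ⟨i, hi, rfl⟩ := mem_tab.1 hz
  exact h.abs_preA hb i hi

theorem Good.abs_hT (h : Good ok L) (m : ℤ) : |hT L m| < 2 ^ wt L :=
  (h.taps.abs_h m).trans_lt (two_pow_pp_mul_tt_lt L)

theorem Good.abs_gT (h : Good ok L) (m : ℤ) : |gT L m| < 2 ^ wt L :=
  (h.taps.abs_g m).trans_lt (two_pow_pp_mul_tt_lt L)

/-- **The pipeline.** -/
theorem specCyc {TG : M4.Par → ℕ} {μ : ℕ → ℕ → ℕ} {a : ℝ} (hG : SpecGrid ok TG)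
    (hok : ∀ᶠ L in atTop, ok (par L)) (hTG : SV (fun L => TG (par L)) a) (ha : a < aT)
    (hμ : MuOk μ) (ht : TapsStatement) (hps : PrepLStatement) (hfs : FinishLStatement)
    (hpt : PrepLTC μ) (hft : FinishLTC μ) : SpecCyc Tb := by
  obtain ⟨G, hGt, hGs⟩ := hG
  obtain ⟨L₀, hL₀⟩ := eventually_atTop.1 (ev_good hok ht)
  have key : ∀ (L : ℕ) (a b : Arr), L₀ ≤ L → (∀ x < NN L * rr L, 0 ≤ a x ∧ a x < 2 ^ L) →
      (∀ x < NN L * rr L, 0 ≤ b x ∧ b x < 2 ^ L) →
      G (par L, pre L (tab (NN L * rr L) a), pre L (tab (NN L * rr L) b)) =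
        tab ((par L).N * (par L).r) (tower (par L).t ((par L).d - 1) (par L).r (nega (par L).r)
          (preA L a) (preA L b)) := by
    intro L a b hL ha hb
    have h := hL₀ L hL
    rw [h.pre_eq hps, h.pre_eq hps]
    exact hGs _ _ _ h.ok (h.abs_preA ha) (h.abs_preA hb) (h.abs_tower ha hb)
  refine ⟨fun q => fin q.1.val (G (par q.1.val, pre q.1.val q.2.1, pre q.1.val q.2.2)), L₀, ?_, ?_⟩
  · set D : Un × List ℤ × List ℤ → Prop :=
      fun q => L₀ ≤ q.1.val ∧ DigL q.1.val q.2.1 ∧ DigL q.1.val q.2.2 with hD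
    have hL : TU D (fun q => Tb q.1.val) (fun q => q.1.val) := TU.val TC.id.fst
    have hpre : ∀ x : Un × List ℤ × List ℤ → List ℤ, TC D (fun q => Tb q.1.val) x →
        (∀ q, D q → DigL q.1.val (x q)) →
        TC D (fun q => Tb q.1.val) (fun q => pre q.1.val (x q)) := by
      intro x hx hd
      refine hpt _ D _ (fun q => tt q.1.val) (fun q => QQ q.1.val) _ _ _ _ _ _ _
        (fun q => q.1.val) (fun q => wt q.1.val) _ x (tu_rr hL) (tu_nu hL) (tu_beta hL) (tu_pp hL)
        (tu_ee hL) (tc_tabA' hL) hx (fun q hq => ?_) ((sv_bankCost hμ SO.id).bud three_div_lt_aT)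
      have h := hL₀ _ hq.1
      refine ⟨h.bank, h.taps.supp_h, h.abs_hT, pp_le_wt _, (hd q hq).1, fun v hv => ?_⟩
      have := (hd q hq).2 v hv
      rw [abs_of_nonneg this.1]; exact this.2
    have h1 := hpre _ TC.id.snd.fst fun q hq => hq.2.1
    have h2 := hpre _ TC.id.snd.snd fun q hq => hq.2.2
    have h3 : TC D (fun q => Tb q.1.val)
        (fun q => G (par q.1.val, pre q.1.val q.2.1, pre q.1.val q.2.2)) :=
      hGt.comp (TC.prodMk (tc_par hL) (TC.prodMk h1 h2))
        (fun q hq => ⟨(hL₀ _ hq.1).ok, (hL₀ _ hq.1).grL hps hq.2.1, (hL₀ _ hq.1).grL hps hq.2.2⟩)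
        (hTG.bud ha)
    refine hft _ D _ (fun q => tt q.1.val) (fun q => QQ q.1.val) _ _ _ _ _ _ _
      (fun q => PP q.1.val) (fun q => wt q.1.val) _ _ (tu_rr hL) (tu_nu hL) (tu_beta hL) (tu_pp hL)
      (tu_ee hL) (tc_tabS hL) h3 (fun q hq => ?_) ((sv_bankCost hμ so_PP).bud three_div_lt_aT)
    have h := hL₀ _ hq.1
    obtain ⟨e1, b1⟩ := digL_eq hq.2.1
    obtain ⟨e2, b2⟩ := digL_eq hq.2.2
    have e := key _ _ _ hq.1 b1 b2
    rw [← e1, ← e2] at e
    refine ⟨h.bank, h.taps.supp_g, h.abs_gT, pp_le_wt _, ?_, ?_⟩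
    · rw [e, length_tab, grid_eq]
    · rw [e]
      intro v hv
      obtain ⟨i, hi, rfl⟩ := mem_tab.1 hv
      have h4 := h.abs_tower b1 b2 i hi
      have h5 : (((par q.1.val).M : ℕ) : ℤ) ≤ 2 ^ PP q.1.val := by
        rw [par_M]; exact_mod_cast Nat.sub_le _ _
      have h6 := abs_nonneg (tower (par q.1.val).t ((par q.1.val).d - 1) (par q.1.val).r
        (nega (par q.1.val).r) (preA q.1.val fun i => q.2.1.getD i 0)
        (preA q.1.val fun i => q.2.2.getD i 0) i)
      linarith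
  · intro L a b hL ha hb
    have h := hL₀ L hL
    have e := key L a b hL (fun x _ => ha x) (fun x _ => hb x)
    change fin L (G (par L, pre L (tab (NN L * rr L) a), pre L (tab (NN L * rr L) b))) =
      tab (NN L * rr L) _
    rw [e, grid_eq]
    unfold fin
    rw [hfs _ _ _ _ _ _ _ _ _ _ _ h.bank h.taps.supp_g]
    refine tab_congr fun x hx => ?_
    exact FB.main _ _ _ _ _ (cc L) _ _ (AA L) _ _ _ a b _ h.taps h.Q_pos (QQ_le_tt L) (rr_pos L)
      h.six le_rfl (bil_nega _) (l1_le_AA fun x _ => ha x) (l1_le_AA fun x _ => hb x) h.prec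
      (fun _ _ => rfl) x hx

end Crest.Agent.X326.Top.P2
end

-- ▼ part X326/Top/AlgPure
section

/-!
# Row 326, top level: list versions of the digit array and of the final evaluation
-/

set_option autoImplicit false

namespace Crest.Agent.X326.Top

open Finset FB X326.Mul

/-- the first `K` digits in base `2 ^ b` -/
def digitsL (b K x : ℕ) : List ℕ := (List.range K).map (digit b x)

/-- the digit array as a flat list: `N` records, `h` digits and `h` zeros each -/
def digL (b h N x : ℕ) : List ℤ :=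
  (((chunks h (digitsL b (N * h) x)).map (fun c => c ++ List.replicate h 0)).flatten).map
    (fun c : ℕ => (c : ℤ))

/-- the low halves of all records -/
def loL (h : ℕ) (c : List ℕ) : List ℕ := ((chunks (2 * h) c).map (fun u => u.take h)).flatten

/-- the high halves of all records -/
def hiL (h : ℕ) (c : List ℕ) : List ℕ := ((chunks (2 * h) c).map (fun u => u.drop h)).flatten

/-- the final evaluation -/
def evalL (b h : ℕ) (c : List ℤ) : ℕ :=
  ev (2 ^ b) (loL h (c.map Int.toNat)) + 2 ^ (b * h) * ev (2 ^ b) (hiL h (c.map Int.toNat))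

theorem map_range_append_replicate {α : Type} (h : ℕ) (f : ℕ → α) (d : α) :
    (List.range h).map f ++ List.replicate h d =
      (List.range (2 * h)).map (fun u => if u < h then f u else d) := by
  apply List.ext_getElem
  · simp; omega
  · intro i h1 h2
    by_cases hi : i < h
    · rw [List.getElem_append_left (by simpa using hi)]
      simp [hi]
    · rw [List.getElem_append_right (by simpa using hi)]
      simp [hi]

theorem digL_eq {h : ℕ} (hh : 0 < h) (b N x : ℕ) :
    digL b h N x = (List.range (N * (2 * h))).map (dig b h x) := by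
  unfold digL digitsL
  rw [chunks_map_range hh, List.map_map]
  have : (fun c => c ++ List.replicate h 0) ∘
      (fun i => (List.range h).map (fun j => digit b x (i * h + j))) =
      fun i => (List.range (2 * h)).map (fun u => if u < h then digit b x (i * h + u) else 0) := by
    funext i
    exact map_range_append_replicate h _ 0
  rw [this, flatten_map_range, List.map_map]
  refine List.map_congr_left fun z _ => ?_
  simp only [Function.comp_apply, dig, pos]
  split_ifs <;> simp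

theorem loL_eq {h : ℕ} (hh : 0 < h) (N : ℕ) (f : ℕ → ℕ) :
    loL h ((List.range (N * (2 * h))).map f) =
      (List.range (N * h)).map (fun i => f (i / h * (2 * h) + i % h)) := by
  unfold loL
  rw [chunks_map_range (by omega), List.map_map,
    ← flatten_map_range N h (fun j u => f (j * (2 * h) + u))]
  congr 1
  refine List.map_congr_left fun j _ => ?_
  have := drop_take_map_range (fun u => f (j * (2 * h) + u)) (N := 2 * h) (s := 0) (n := h)
    (by omega)
  simpa using this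

theorem hiL_eq {h : ℕ} (hh : 0 < h) (N : ℕ) (f : ℕ → ℕ) :
    hiL h ((List.range (N * (2 * h))).map f) =
      (List.range (N * h)).map (fun i => f (i / h * (2 * h) + (h + i % h))) := by
  unfold hiL
  rw [chunks_map_range (by omega), List.map_map,
    ← flatten_map_range N h (fun j u => f (j * (2 * h) + (h + u)))]
  congr 1
  refine List.map_congr_left fun j _ => ?_
  have := drop_take_map_range (fun u => f (j * (2 * h) + u)) (N := 2 * h) (s := h) (n := h)
    (by omega)
  rw [List.take_of_length_le (by simp; omega)] at this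
  simpa using this

theorem ev_map_range {A : Type} [CommSemiring A] (z : A) (K : ℕ) (f : ℕ → ℕ) :
    ev z ((List.range K).map f) = ∑ i ∈ range K, (f i : A) * z ^ i := by
  induction K with
  | zero => simp
  | succ K ih =>
    rw [List.range_succ, List.map_append, ev_append, ih, sum_range_succ]
    simp [mul_comm]

theorem div_mod_aux {h j u : ℕ} (hu : u < h) : (j * h + u) / h = j ∧ (j * h + u) % h = u := by
  have h0 : 0 < h := by omega
  rw [mul_comm j, Nat.mul_add_div h0, Nat.mul_add_mod, Nat.div_eq_of_lt hu, Nat.mod_eq_of_lt hu]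
  simp

theorem evalL_eq {h : ℕ} (hh : 0 < h) (b N : ℕ) {c : Arr} (hc : ∀ z, 0 ≤ c z) :
    (evalL b h ((List.range (N * (2 * h))).map c) : ℤ) = evalA b h N c := by
  unfold evalL
  rw [List.map_map, loL_eq hh, hiL_eq hh, ev_map_range, ev_map_range, evalA_eq, sum_range_mul,
    sum_range_mul, mul_sum, ← sum_add_distrib]
  push_cast
  refine sum_congr rfl fun j _ => ?_
  unfold recVal
  rw [two_mul h, sum_range_add, add_mul, sum_mul, sum_mul, mul_sum]
  congr 1
  · refine sum_congr rfl fun u hu => ?_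
    obtain ⟨e1, e2⟩ := div_mod_aux (j := j) (mem_range.1 hu)
    rw [e1, e2, Function.comp_apply, Int.toNat_of_nonneg (hc _)]
    ring
  · refine sum_congr rfl fun u hu => ?_
    obtain ⟨e1, e2⟩ := div_mod_aux (j := j) (mem_range.1 hu)
    rw [e1, e2, Function.comp_apply, Int.toNat_of_nonneg (hc _)]
    ring

/-- **digits, convolution, evaluation: the product** -/
theorem evalL_cyc {b h N J x y : ℕ} (hh : 0 < h) (hJ : 2 * J ≤ N) (hx : x < 2 ^ (b * (J * h)))
    (hy : y < 2 ^ (b * (J * h))) :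
    evalL b h ((List.range (N * (2 * h))).map
      (cyc N (2 * h) (nega (2 * h)) (dig b h x) (dig b h y))) = x * y := by
  have := evalL_eq hh b N (cyc_dig_nonneg hh b N x y)
  rw [evalA_cyc hJ hx hy] at this
  exact_mod_cast this

theorem mem_of_mem_loL {h : ℕ} {c : List ℕ} {a : ℕ} (ha : a ∈ loL h c) : a ∈ c := by
  obtain ⟨u, hu, hau⟩ := List.mem_flatten.1 ha
  obtain ⟨v, hv, rfl⟩ := List.mem_map.1 hu
  exact mem_of_mem_chunks hv (List.mem_of_mem_take hau)

theorem mem_of_mem_hiL {h : ℕ} {c : List ℕ} {a : ℕ} (ha : a ∈ hiL h c) : a ∈ c := by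
  obtain ⟨u, hu, hau⟩ := List.mem_flatten.1 ha
  obtain ⟨v, hv, rfl⟩ := List.mem_map.1 hu
  exact mem_of_mem_chunks hv (List.mem_of_mem_drop hau)

end Crest.Agent.X326.Top
end

-- ▼ part X326/TC/Final
section

/-!
# From `TC` to `Crest.DTime.TimeBoundComputable`
-/

set_option autoImplicit false
set_option linter.dupNamespace false

namespace Crest.Agent.X326

open Crest.Agent.Lib.PT Crest.Agent.Lib.PT.Front Turing Function

theorem flatMap_reverse_code {A : Type} [PTCode A] (l : List A) :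
    l.reverse.flatMap (fun a => (pair (enc a) []).reverse) = (enc l).reverse := by
  induction l with
  | nil => rfl
  | cons a l ih =>
    rw [List.reverse_cons, List.flatMap_append, ih, enc_cons]
    simp [pair]

/-- A function on coded lists over a finite alphabet that is computed within the budget
`t (length)` is computed by a machine with that input alphabet in time `c * t N + c`, provided `t`
is at least linear up to constants. The output is a raw bit string. -/
theorem timeBound_of_tc {α β A : Type} [PTCode A] [Finite A] {ea : α → List A}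
    {eb : β → List Bool} {f : α → β} {g : List A → Bits} {P : List A → Prop} {t : ℕ → ℕ}
    (hg : TC P (fun l => t l.length) g) (hP : ∀ a, P (ea a))
    (h : ∀ a, (g (ea a)).val = eb (f a)) (ht : ∃ D : ℕ, ∀ n, n ≤ D * t n + D) :
    ∃ c : ℕ, Crest.DTime.TimeBoundComputable ea eb f (fun N => c * t N + c) := by
  classical
  let _ : Fintype A := Fintype.ofFinite A
  obtain ⟨B, hB⟩ := OfTM.exists_sz_le A
  obtain ⟨D, hD⟩ := ht
  obtain ⟨c, C, hc⟩ := hg
  obtain ⟨r, R, hr⟩ := LinRaw.reverse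
  let M : FinTM2 := Cmd.toTM (.seq r c)
  let hh : A → List (M.Γ M.k₀) := fun a => (pair (enc a) []).reverse
  let K : ℕ := (R + C) * (2 * B + 1) + 2
  have key : ∀ a, ∃ n, 2 * (ea a).length + 1 + n ≤
        (C + K * D + R + C + 2) * t (ea a).length + (C + K * D + R + C + 2) ∧
      it M.m n (some (initList M ((ea a).reverse.flatMap hh))) =
        some (haltList M (eb (f a))) := by
    intro a
    have h1 := hr (enc (ea a)).reverse
    rw [List.reverse_reverse] at h1
    obtain ⟨n, hn, hrun⟩ := h1.seq (hc (ea a) (hP a))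
    refine ⟨n + 1, ?_, ?_⟩
    · have b1 : sz (ea a) ≤ (ea a).length * (2 * B + 1) := sz_list_le (fun b _ => hB b)
      have b2 := hD (ea a).length
      have e1 : (enc (ea a)).reverse.length = sz (ea a) := by simp [sz]
      rw [e1] at hn
      beta_reduce at hn
      generalize sz (ea a) = s at *
      generalize (ea a).length = N at *
      generalize t N = u at *
      have b3 : (R + C) * s ≤ (R + C) * (N * (2 * B + 1)) := Nat.mul_le_mul_left _ b1
      have b4 : K * N ≤ K * (D * u + D) := Nat.mul_le_mul_left _ b2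
      have e2 : K * N = (R + C) * (N * (2 * B + 1)) + 2 * N := by simp only [K]; ring
      have e3 : R * (s + 1) + C * (u + s + 1) = (R + C) * s + C * u + R + C := by ring
      have e4 : (C + K * D + R + C + 2) * u + (C + K * D + R + C + 2) =
          C * u + K * (D * u + D) + R + C + 2 + ((R + C + 2) * u + C) := by ring
      omega
    · have e : (ea a).reverse.flatMap hh = (enc (ea a)).reverse := flatMap_reverse_code _
      rw [e, ← h a]
      exact outputs_of_exec hrun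
  refine ⟨C + K * D + R + C + 2, ⟨{
            tm := front M A hh
            inputAlphabet := Equiv.refl _
            outputAlphabet := Equiv.refl _
            time := fun N => (C + K * D + R + C + 2) * t N + (C + K * D + R + C + 2)
            outputsFun := fun a => ?_ }, fun _ => le_rfl⟩⟩
  have e1 : ∀ y : List A, List.map (Equiv.refl A).invFun y = y := fun y => List.map_id y
  have e2 : ∀ y : List Bool, List.map (Equiv.refl Bool).invFun y = y := fun y => List.map_id y
  have h2 := front_outputs hh (ea a) (eb (f a)) (key a).choose_spec.2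
  have h3 : ∀ (y : List A) (z : List Bool), y = ea a → z = eb (f a) →
      it (prg hh) (2 * (ea a).length + 1 + (key a).choose) (some (initList (front M A hh) y)) =
      some (haltList (front M A hh) z) := by
    rintro y z rfl rfl
    exact h2
  exact
    { steps := 2 * (ea a).length + 1 + (key a).choose
      evals_in_steps := h3 _ _ (e1 _) (e2 _)
      steps_le_m := (key a).choose_spec.1 }

end Crest.Agent.X326
end

-- ▼ part X326/TC/FinalMul
section

/-!
# From a `TC` statement for the product of two natural numbers to the multiplication task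
-/

set_option autoImplicit false
set_option linter.dupNamespace false

namespace Crest.Agent.X326.FM

open Crest.Agent.Lib.PT Crest.LogicCS.IntMul Crest.DTime

variable {α β : Type} [PTCode α] [PTCode β] {P : α → Prop} {T : α → ℕ}

/-! ### passes with a finite transducer -/

/-- a finite-state transducer over a finite alphabet is linear time -/
theorem lin_accum_finite {σ A B : Type} [PTCode σ] [PTCode A] [PTCode B] [Finite σ] [Finite A]
    (f : σ × A → σ × List B) (s : σ) : Lin (fun l : List A => accumL f s l) := by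
  obtain ⟨M, hM⟩ := OfTM.exists_sz_le σ
  refine TC.accumL_inv (Lin.of_finite f) (TC.const s) TC.id (fun _ _ _ => True) (fun _ _ => M)
    (fun _ _ => trivial) (fun _ _ t _ _ _ => ⟨trivial, by simpa using hM t, trivial⟩) ?_
  refine Bud.of_le 0 M 0 (fun l _ => ?_)
  have := length_le_sz l
  simp only [List.map_const', List.sum_replicate, smul_eq_mul, zero_mul, zero_add, add_zero]
  rw [mul_comm]
  exact Nat.mul_le_mul_left _ this

theorem lin_filterMap_finite {A B : Type} [PTCode A] [PTCode B] [Finite A] (f : A → Option B) :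
    Lin (fun l : List A => l.filterMap f) := by
  refine (lin_accum_finite (fun q : Unit × A => ((), (f q.2).toList)) ()).snd.of_eq (fun l => ?_)
  induction l with
  | nil => rfl
  | cons a l ih =>
    rw [accumL_cons, List.filterMap_cons]
    cases f a <;> simp [ih]

theorem lin_dropZeros : Lin (fun l : List Bool => l.dropWhile (fun b => !b)) := by
  refine (lin_accum_finite
    (fun q : Bool × Bool => (q.1 || q.2, if q.1 || q.2 then [q.2] else [])) false).snd.of_eq
    (fun l => ?_)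
  have h1 : ∀ l : List Bool, (accumL
      (fun q : Bool × Bool => (q.1 || q.2, if q.1 || q.2 then [q.2] else [])) true l).2 = l := by
    intro l
    induction l with
    | nil => rfl
    | cons a l ih => simpa using ih
  induction l with
  | nil => rfl
  | cons a l ih =>
    cases a
    · simpa using ih
    · simpa using h1 l

/-- the concatenated codes of a list -/
theorem lin_codes : Lin (fun l : List β => Bits.mk (l.flatMap enc)) := by
  refine TC.of_run ListRun.flattenP (Bud.of_le 0 14 2 (fun _ _ => le_rfl)) (fun L _ => ?_)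
  rw [init_eq_st4]
  have e : L.reverse.flatMap (fun a => [] ++ (enc a).reverse.flatMap (fun c => [c])) =
      (L.flatMap enc).reverse := by
    induction L with
    | nil => simp
    | cons a L ih => simp at ih ⊢; rw [ih]
  have hl : (L.flatMap enc).length ≤ sz L := by
    clear e
    induction L with
    | nil => simp
    | cons a L ih =>
      simp only [List.flatMap_cons, List.length_append, sz_cons, ListRun.length_enc]
      omega
  refine ((ListRun.run_allCells_loop _ _ L []).seq (run_mv (by decide) _)).of_eq ?_ ?_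
  · rw [e]; simp [init_eq_st4]
  · rw [e]; simp only [st4_one, List.append_nil, List.length_reverse, List.length_cons,
      List.length_nil]
    omega

/-- a list of Booleans as a raw string -/
theorem lin_bitsMk : Lin (fun l : List Bool => Bits.mk l) :=
  lin_codes.of_eq (fun l => by
    congr 1
    induction l with
    | nil => rfl
    | cons a l ih => simp [ih])

/-- a raw string as a list of Booleans -/
theorem lin_bitsVal : Lin (fun x : Bits => x.val) :=
  (LinRaw.flatMap (fun b => [true, b, false])).lin (fun x => by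
    rcases x with ⟨l⟩
    induction l with
    | nil => rfl
    | cons a l ih => simpa [pair] using ih)

/-! ### numbers and bit strings -/

theorem bitsVal_append_singleton (x : List Bool) (b : Bool) :
    bitsVal (x ++ [b]) = Nat.bit b (bitsVal x) := by
  unfold bitsVal
  rw [List.foldl_append, Nat.bit_val]
  cases b <;> simp

theorem bitsVal_lt (x : List Bool) : bitsVal x < 2 ^ x.length := by
  induction x using List.reverseRecOn with
  | nil => simp [bitsVal]
  | append_singleton x b ih =>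
    rw [bitsVal_append_singleton, Nat.bit_val, List.length_append, List.length_singleton, pow_succ]
    cases b <;> simp <;> omega

theorem bits_bitsVal (x : List Bool) :
    (bitsVal x).bits = (x.dropWhile (fun b => !b)).reverse := by
  induction x using List.reverseRecOn with
  | nil => simp [bitsVal]
  | append_singleton x b ih =>
    rw [bitsVal_append_singleton, List.dropWhile_append]
    by_cases h : x.dropWhile (fun b => !b) = []
    · have h0 : bitsVal x = 0 := by
        rw [h] at ih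
        have := Nat.size_eq_bits_len (bitsVal x)
        rw [ih] at this
        exact Nat.size_eq_zero.1 this.symm
      rw [h0, h]
      cases b <;> simp
    · have h0 : bitsVal x ≠ 0 := by
        intro h0
        rw [h0] at ih
        exact h (by simpa using ih)
      rw [Nat.bits_append_bit _ _ (fun e => absurd e h0), ih]
      simp [h]

theorem lin_val : Lin bitsVal :=
  (TC.comp_lin lin_bitsMk lin_dropZeros.reverse).recode (fun x _ => by
    rw [enc_nat, bits_bitsVal]; rfl)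

theorem toBits_eq (k z : ℕ) : Crest.LogicCS.IntMul.toBits k z = (List.takeD k z.bits false).reverse := by
  unfold Crest.LogicCS.IntMul.toBits
  congr 1
  apply List.ext_getElem
  · simp
  · intro i h1 h2
    have hi : i < k := by simpa using h1
    rw [List.getElem_map, List.getElem_range, Nat.testBit_eq_inth, ← List.getD_default_eq_getI]
    generalize z.bits = l at *
    clear h1
    induction l generalizing i k with
    | nil => simp
    | cons a l ih =>
      obtain ⟨k, rfl⟩ : ∃ j, k = j + 1 := ⟨k - 1, by omega⟩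
      cases i with
      | zero => simp [List.takeD]
      | succ i =>
        have := ih k i (by omega) (by rw [List.takeD_length]; omega)
        simpa [List.takeD] using this

theorem tc_toBits {k z : α → ℕ} (hk : TU P T k) (hz : TC P T z) :
    TC P T (fun x => Crest.LogicCS.IntMul.toBits (k x) (z x)) := by
  have h1 : TC P T (fun x => (z x).bits) := TC.comp_lin (f := fun x => Lib.PT.toBits (z x)) lin_bitsVal hz.toBits
  exact (TC.takeD hk h1 (TC.const false) (hk.bud.mono (fun x _ => by simp))).reverse.of_eq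
    (fun x => (toBits_eq _ _).symm)

/-- **The multiplication task from a `TC` statement.** The input is the common length `n` in
unary and the two factors, both below `2 ^ n`. -/
theorem timeBound_of_tc_mul {t : ℕ → ℕ} (ht : ∃ D : ℕ, ∀ n, n ≤ D * t (2 * n) + D)
    (h : TC (fun q : Un × ℕ × ℕ => q.2.1 < 2 ^ q.1.val ∧ q.2.2 < 2 ^ q.1.val)
      (fun q => t (2 * q.1.val)) (fun q => q.2.1 * q.2.2)) :
    ∃ c : ℕ, TimeBoundComputable EqLenPair.enc (Computability.encodingList Bool).encode mulOutput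
      (fun N => c * t N + c) := by
  classical
  let D : List (Bool ⊕ Bool) → Prop := fun l =>
    (unL l).length = (unR l).length ∧ l.length = 2 * (unL l).length
  let t' : ℕ → ℕ := fun N => if N % 2 = 0 then t N else N
  have hL : TC D (fun l => t' l.length) unL := (lin_filterMap_finite _).tc
  have hR : TC D (fun l => t' l.length) unR := (lin_filterMap_finite _).tc
  have hn : TU D (fun l => t' l.length) (fun l => (unL l).length) := TU.length hL
  have hq : TC D (fun l => t' l.length)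
      (fun l => (Un.mk (unL l).length, bitsVal (unL l), bitsVal (unR l))) :=
    TC.prodMk hn ((TC.comp_lin lin_val hL).prodMk (TC.comp_lin lin_val hR))
  have hm := h.comp hq (fun l hl => ⟨bitsVal_lt _, by rw [hl.1]; exact bitsVal_lt _⟩)
    (Bud.self.mono (fun l hl => by simp [t', hl.2]))
  have hout := TC.comp_lin lin_bitsMk (tc_toBits (hn.const_mul 2) hm)
  obtain ⟨E, hE⟩ := ht
  obtain ⟨c, M, hM⟩ := timeBound_of_tc (ea := EqLenPair.enc)
    (eb := (Computability.encodingList Bool).encode) (f := mulOutput) hout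
    (fun a => by
      have e : (EqLenPair.enc a).length = a.1.1.length + a.1.2.length := by
        simp [EqLenPair.enc, pairEnc_eq]
      have := a.2
      simp only [D, EqLenPair.enc, unL_pairEnc, unR_pairEnc] at e ⊢
      omega)
    (fun a => by simp only [EqLenPair.enc, unL_pairEnc, unR_pairEnc]; rfl)
    ⟨2 * E + 1, fun n => by
      by_cases hn : n % 2 = 0
      · have := hE (n / 2)
        have e : 2 * (n / 2) = n := by omega
        rw [e] at this
        simp only [t', hn, if_true]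
        have e2 : (2 * E + 1) * t n = 2 * (E * t n) + t n := by ring
        omega
      · simp only [t', hn, if_false]
        have e2 : (2 * E + 1) * n = 2 * (E * n) + n := by ring
        omega⟩
  refine ⟨c, ⟨{ M.toTM2ComputableAux with
    time := fun N => c * t N + c
    outputsFun := fun a => ?_ }, fun _ => le_rfl⟩⟩
  obtain ⟨h1, h2⟩ := M.outputsFun a
  refine ⟨h1, h2.trans ((hM _).trans ?_)⟩
  have e : (EqLenPair.enc a).length % 2 = 0 := by
    have e : (EqLenPair.enc a).length = a.1.1.length + a.1.2.length := by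
      simp [EqLenPair.enc, pairEnc_eq]
    have := a.2
    omega
  simp [t', e]

end Crest.Agent.X326.FM
end

-- ▼ part X326/Top/Bits
section

/-!
# Row 326, top level: cutting a number into digits and evaluating a digit list, in linear time
-/

set_option autoImplicit false

namespace Crest.Agent.X326.Top

open Crest.Agent.Lib.PT Crest.LogicCS.IntMul X326.Mul

/-- value of a bit list, least significant bit first -/
def lsb (l : List Bool) : ℕ := l.foldr (fun b n => Nat.bit b n) 0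

@[simp] theorem lsb_nil : lsb [] = 0 := rfl

@[simp] theorem lsb_cons (b : Bool) (l : List Bool) : lsb (b :: l) = Nat.bit b (lsb l) := rfl

theorem lsb_eq (l : List Bool) : lsb l = bitsVal l.reverse := by
  induction l with
  | nil => rfl
  | cons b l ih => rw [List.reverse_cons, FM.bitsVal_append_singleton, lsb_cons, ih]

theorem lsb_bits (n : ℕ) : lsb n.bits = n := by
  induction n using Nat.binaryRec' with
  | zero => simp
  | bit b n h ih => rw [Nat.bits_append_bit n b h, lsb_cons, ih]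

theorem lsb_append (u v : List Bool) : lsb (u ++ v) = lsb u + 2 ^ u.length * lsb v := by
  induction u with
  | nil => simp
  | cons b u ih =>
    simp only [List.cons_append, lsb_cons, ih, Nat.bit_val, List.length_cons]
    ring


@[simp] theorem lsb_replicate_false (n : ℕ) : lsb (List.replicate n false) = 0 := by
  induction n with
  | zero => rfl
  | succ n ih => simp [List.replicate_succ, ih]

theorem lsb_drop (s : ℕ) (l : List Bool) : lsb (l.drop s) = lsb l / 2 ^ s := by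
  induction s generalizing l with
  | zero => simp
  | succ s ih =>
    cases l with
    | nil => simp
    | cons b l =>
      rw [List.drop_succ_cons, ih, lsb_cons, pow_succ', ← Nat.div_div_eq_div_mul, Nat.bit_div_two]

theorem lsb_takeD (k : ℕ) (l : List Bool) : lsb (List.takeD k l false) = lsb l % 2 ^ k := by
  induction k generalizing l with
  | zero => simp [Nat.mod_one]
  | succ k ih =>
    cases l with
    | nil =>
      have := ih []
      simp only [List.takeD_nil, lsb_replicate_false] at this ⊢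
      simp
    | cons b l =>
      rw [List.takeD_succ, List.head?_cons, Option.getD_some, List.tail_cons, lsb_cons, ih,
        lsb_cons, pow_succ', Nat.mod_mul, Nat.bit_div_two, Nat.bit_val, Nat.bit_val]
      cases b <;> simp [Nat.add_mod, add_comm]

theorem lsb_take {k : ℕ} {l : List Bool} (h : k ≤ l.length) : lsb (l.take k) = lsb l % 2 ^ k := by
  rw [← lsb_takeD, List.takeD_eq_take _ h]

theorem lsb_flatten {b : ℕ} {L : List (List Bool)} (h : ∀ u ∈ L, u.length = b) :
    lsb L.flatten = ev (2 ^ b) (L.map lsb) := by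
  induction L with
  | nil => rfl
  | cons u L ih =>
    rw [List.flatten_cons, lsb_append, List.map_cons, ev_cons, h u (by simp),
      ih (fun v hv => h v (by simp [hv])), Nat.cast_id]

theorem digit_mod {b K i : ℕ} (x : ℕ) (hi : i < K) : digit b (x % 2 ^ (K * b)) i = digit b x i := by
  unfold digit
  obtain ⟨j, rfl⟩ := Nat.exists_eq_add_of_lt hi
  rw [show (i + j + 1) * b = b * i + (b + j * b) by ring, pow_add, Nat.mod_mul_right_div_self,
    pow_add, Nat.mod_mul_right_mod]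

theorem digitsL_eq {b : ℕ} (hb : 0 < b) (K x : ℕ) :
    digitsL b K x = (chunks b (List.takeD (K * b) x.bits false)).map lsb := by
  rw [chunks_eq_range (m := K) hb (by simp), List.map_map]
  refine List.map_congr_left fun i hi => ?_
  have hi' : i < K := List.mem_range.1 hi
  have h1 : b ≤ ((List.takeD (K * b) x.bits false).drop (i * b)).length := by
    have := Nat.mul_le_mul_right b (Nat.succ_le_of_lt hi')
    rw [Nat.succ_mul] at this
    simp only [List.length_drop, List.takeD_length]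
    omega
  rw [Function.comp_apply, lsb_take h1, lsb_drop, lsb_takeD, lsb_bits, ← digit_mod x hi', digit,
    mul_comm b i]

/-- the digits number `q` of all entries, packed into one number -/
def packD (b q : ℕ) (l : List ℕ) : ℕ :=
  lsb (l.map (fun c => List.takeD b (c.bits.drop (q * b)) false)).flatten

theorem packD_eq (b q : ℕ) (l : List ℕ) :
    packD b q l = ev (2 ^ b) (l.map (fun c => digit b c q)) := by
  unfold packD
  rw [lsb_flatten (b := b) (by simp), List.map_map]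
  congr 1
  refine List.map_congr_left fun c _ => ?_
  rw [Function.comp_apply, lsb_takeD, lsb_drop, lsb_bits, digit, mul_comm b q]

theorem ev_eq_packD {b : ℕ} {l : List ℕ} (h : ∀ c ∈ l, c < 2 ^ (b * 4)) :
    ev (2 ^ b) l = packD b 0 l + 2 ^ b * (packD b 1 l + 2 ^ b * (packD b 2 l +
      2 ^ b * packD b 3 l)) := by
  simp only [packD_eq]
  induction l with
  | nil => simp
  | cons c l ih =>
    have h1 := sum_digit b c 4
    rw [Nat.mod_eq_of_lt (h c (by simp))] at h1
    simp only [Finset.sum_range_succ, Finset.range_zero, Finset.sum_empty] at h1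
    simp only [List.map_cons, ev_cons, Nat.cast_id]
    rw [ih (fun d hd => h d (by simp [hd]))]
    conv_lhs => rw [← h1]
    ring

/-! ### machine level -/

variable {α : Type} [PTCode α] {P : α → Prop} {T : α → ℕ}

theorem lin_lsb : Lin lsb :=
  (TC.comp_lin FM.lin_val (TC.reverse TC.id)).of_eq (fun l => (lsb_eq l).symm)

theorem tc_lsb {l : α → List Bool} (hl : TC P T l) : TC P T (fun a => lsb (l a)) :=
  TC.comp_lin lin_lsb hl

theorem tc_bits {x : α → ℕ} (hx : TC P T x) : TC P T (fun a => (x a).bits) :=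
  TC.comp_lin (f := fun a => Lib.PT.toBits (x a)) FM.lin_bitsVal hx.toBits

/-- multiplication by `2 ^ s` -/
theorem tc_shift {s x : α → ℕ} (hs : TU P T s) (hx : TC P T x) :
    TC P T (fun a => 2 ^ s a * x a) :=
  (tc_lsb ((TC.replicate_const false hs).append (tc_bits hx))).of_eq (fun a => by
    rw [lsb_append, lsb_bits]; simp)

theorem tc_takeD {k : α → ℕ} {l : α → List Bool} (hk : TU P T k) (hl : TC P T l) :
    TC P T (fun a => List.takeD (k a) (l a) false) :=
  TC.takeD hk hl (TC.const false) (hk.bud.mono (fun x _ => by simp))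

theorem tc_digitsL {b K x : α → ℕ} (hb : TU P T b) (hK : TU P T K) (hx : TC P T x)
    (h0 : ∀ a, P a → 0 < b a) (hB : Bud P T (fun a => K a * b a)) :
    TC P T (fun a => digitsL (b a) (K a) (x a)) :=
  (TC.map lin_lsb (TC.chunks hb (tc_takeD (hK.mul hb hB) (tc_bits hx)))).congr
    (fun a ha => (digitsL_eq (h0 a ha) _ _).symm)

theorem tc_packD (q : ℕ) {b : α → ℕ} {l : α → List ℕ} (hb : TU P T b) (hl : TC P T l)
    (hB : Bud P T (fun a => (l a).length * b a)) : TC P T (fun a => packD (b a) q (l a)) := by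
  have h1 : Lin (fun p : Un × ℕ => List.takeD p.1.val (p.2.bits.drop (q * p.1.val)) false) :=
    tc_takeD (TU.val TC.id.fst) (TC.drop ((TU.val TC.id.fst).const_mul q) (tc_bits TC.id.snd))
  exact tc_lsb (TC.mapCtx_lin (f := fun (u : Un) (c : ℕ) =>
    List.takeD u.val (c.bits.drop (q * u.val)) false) h1 hb hl
    (hB.mono fun a _ => by simp)).flatten

end Crest.Agent.X326.Top
end

-- ▼ part X326/Top/Alg
section

/-!
# Row 326, top level: multiplication of large numbers from the exact cyclic convolution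
-/

set_option autoImplicit false

namespace Crest.Agent.X326.Top

open Crest.Agent.Lib.PT X326.Mul FB Par Filter

section tc

variable {α : Type} [PTCode α] {P : α → Prop} {T : α → ℕ}

theorem lin_natCast : Lin (fun c : ℕ => (c : ℤ)) :=
  ((TC.const false).prodMk TC.id).recode (fun c _ => by
    rw [enc_int, decide_eq_false (by omega : ¬ ((c : ℤ) < 0)), Int.natAbs_natCast])

theorem lin_toNat : Lin Int.toNat := by
  have h : Lin (fun z : ℤ => (decide (z < 0), z.natAbs)) := Lin.of_enc_eq (fun _ => rfl)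
  refine (TC.cond h.fst (TC.const 0) h.snd).of_eq (fun z => ?_)
  by_cases hz : z < 0
  · simp [hz, Int.toNat_of_nonpos hz.le]
  · simp only [hz, decide_false, cond_false]
    omega

theorem tc_ev (hadd : Lin (fun p : ℕ × ℕ => p.1 + p.2)) {b : α → ℕ} {l : α → List ℕ}
    (hb : TU P T b) (hl : TC P T l) (h : ∀ a, P a → ∀ c ∈ l a, c < 2 ^ (b a * 4))
    (hB : Bud P T (fun a => (l a).length * b a)) : TC P T (fun a => ev (2 ^ b a) (l a)) := by
  have add : ∀ {f g : α → ℕ}, TC P T f → TC P T g → TC P T (fun a => f a + g a) :=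
    fun hf hg => TC.comp₂ (g := fun x y : ℕ => x + y) hadd hf hg
  exact (add (tc_packD 0 hb hl hB) (tc_shift hb (add (tc_packD 1 hb hl hB) (tc_shift hb
    (add (tc_packD 2 hb hl hB) (tc_shift hb (tc_packD 3 hb hl hB))))))).congr
    (fun a ha => (ev_eq_packD (h a ha)).symm)

theorem tc_digL {b h N x : α → ℕ} (hb : TU P T b) (hh : TU P T h) (hN : TU P T N) (hx : TC P T x)
    (h0 : ∀ a, P a → 0 < b a ∧ 0 < h a) (hB : Bud P T (fun a => N a * h a * b a)) :
    TC P T (fun a => digL (b a) (h a) (N a) (x a)) := by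
  have hNh : Bud P T (fun a => N a * h a) :=
    hB.mono fun a ha => Nat.le_mul_of_pos_right _ (h0 a ha).1
  have h1 := TC.chunks hh (tc_digitsL hb (hN.mul hh hNh) hx (fun a ha => (h0 a ha).1) hB)
  have h2 : Lin (fun p : Un × List ℕ => p.2 ++ List.replicate p.1.val 0) :=
    TC.append TC.id.snd (TC.replicate_const 0 (TU.val TC.id.fst))
  refine TC.map lin_natCast (TC.mapCtx_lin (f := fun (u : Un) (c : List ℕ) =>
    c ++ List.replicate u.val 0) h2 hh h1 (hNh.mono fun a ha => ?_)).flatten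
  rw [length_chunks (m := N a) (h0 a ha).2 (by simp [digitsL])]
  simp

theorem tc_evalL (hadd : Lin (fun p : ℕ × ℕ => p.1 + p.2)) {b h : α → ℕ} {c : α → List ℤ}
    (hb : TU P T b) (hh : TU P T h) (hc : TC P T c) (N : α → ℕ)
    (h0 : ∀ a, P a → 0 < h a ∧ 0 < N a ∧ (c a).length = N a * (2 * h a) ∧
      ∀ z ∈ c a, z < 2 ^ (b a * 4))
    (hB : Bud P T (fun a => N a * h a * (b a + 1))) :
    TC P T (fun a => evalL (b a) (h a) (c a)) := by
  have hc' : TC P T (fun a => (c a).map Int.toNat) := TC.map lin_toNat hc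
  have hch := TC.chunks (hh.const_mul 2) hc'
  have hC : Bud P T (fun a => (chunks (2 * h a) ((c a).map Int.toNat)).length *
      sz (Un.mk (h a))) := hB.mono fun a ha => by
    obtain ⟨h1, -, h2, -⟩ := h0 a ha
    rw [length_chunks (m := N a) (by omega) (by simpa using h2)]
    simp only [sz_un]
    exact Nat.le_mul_of_pos_right _ (Nat.succ_pos _)
  have hlo : TC P T (fun a => loL (h a) ((c a).map Int.toNat)) :=
    (TC.mapCtx_lin (f := fun (u : Un) (v : List ℕ) => v.take u.val)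
      (TC.take (TU.val TC.id.fst) TC.id.snd) hh hch hC).flatten
  have hhi : TC P T (fun a => hiL (h a) ((c a).map Int.toNat)) :=
    (TC.mapCtx_lin (f := fun (u : Un) (v : List ℕ) => v.drop u.val)
      (TC.drop (TU.val TC.id.fst) TC.id.snd) hh hch hC).flatten
  have hlt : ∀ a, P a → ∀ d ∈ (c a).map Int.toNat, d < 2 ^ (b a * 4) := by
    intro a ha d hd
    obtain ⟨z, hz, rfl⟩ := List.mem_map.1 hd
    have h1 := (h0 a ha).2.2.2 z hz
    have h2 : 0 < 2 ^ (b a * 4) := by positivity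
    have h3 : z < ((2 ^ (b a * 4) : ℕ) : ℤ) := by exact_mod_cast h1
    omega
  have htab : ∀ a, P a → (c a).map Int.toNat =
      (List.range (N a * (2 * h a))).map (fun i => ((c a).map Int.toNat).getD i 0) := by
    intro a ha
    rw [← (h0 a ha).2.2.1, ← List.length_map (f := Int.toNat), map_getD_range]
  have hB' : Bud P T (fun a => N a * h a * b a) :=
    hB.mono fun a _ => Nat.mul_le_mul_left _ (Nat.le_succ _)
  have e1 := tc_ev hadd hb hlo (fun a ha d hd => hlt a ha d (mem_of_mem_loL hd))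
    (hB'.mono fun a ha => by rw [htab a ha, loL_eq (h0 a ha).1]; simp)
  have e2 := tc_ev hadd hb hhi (fun a ha d hd => hlt a ha d (mem_of_mem_hiL hd))
    (hB'.mono fun a ha => by rw [htab a ha, hiL_eq (h0 a ha).1]; simp)
  have hbh : Bud P T (fun a => b a * h a) := hB'.mono fun a ha => by
    have := (h0 a ha).2.1
    calc b a * h a = 1 * h a * b a := by ring
      _ ≤ _ := Nat.mul_le_mul_right _ (Nat.mul_le_mul_right _ this)
  exact TC.comp₂ (g := fun x y : ℕ => x + y) hadd e1 (tc_shift (hb.mul hh hbh) e2)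

end tc

/-- the side conditions used by the assembly -/
structure AlgOk (L : ℕ) : Prop where
  pos : 0 < L
  rr_eq : 2 * (rr L / 2) = rr L
  cap : 2 ^ L ≤ L * (NN L / 2 * (rr L / 2))
  le : NN L * rr L ≤ 2 ^ L
  vol : NN L * rr L * L ≤ 16 * 2 ^ L

theorem ev_algOk : ∀ᶠ L in atTop, AlgOk L := by
  filter_upwards [eventually_gt_atTop 0, ev_two_dvd_rr, ev_capacity, ev_NN_mul_rr_le]
    with L h1 h2 h3 h4
  refine ⟨h1, Nat.mul_div_cancel' h2, by rwa [mul_comm (NN L / 2), ← mul_assoc], h4, ?_⟩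
  refine le_trans ?_ (two_pow_Lp_mul_le L)
  rw [← tt_pow_mul_rr]
  exact Nat.mul_le_mul_right _ (Nat.mul_le_mul_right _ (NN_le L))

theorem AlgOk.half_pos {L : ℕ} (h : AlgOk L) : 0 < rr L / 2 := by
  have := rr_pos L
  have := h.rr_eq
  omega

theorem AlgOk.NN_pos {L : ℕ} (h : AlgOk L) : 0 < NN L := by
  rcases Nat.eq_zero_or_pos (NN L) with h0 | h0
  · have h1 := h.cap
    have h2 : 0 < 2 ^ L := by positivity
    rw [h0] at h1
    simp at h1
  · exact h0

theorem big_of_add (hadd : Lin (fun p : ℕ × ℕ => p.1 + p.2)) : BigStatement := by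
  rintro T ⟨F, L₀, hF, hspec⟩
  obtain ⟨L₁, hL₁⟩ := eventually_atTop.1 ev_algOk
  refine ⟨max L₀ L₁, ?_⟩
  set D : Un × ℕ × ℕ → Prop := fun q => max L₀ L₁ ≤ q.1.val ∧ q.2.1 < 2 ^ 2 ^ q.1.val ∧
    q.2.2 < 2 ^ 2 ^ q.1.val with hD
  set C : Un × ℕ × ℕ → ℕ := fun q => T q.1.val + 2 ^ q.1.val with hC
  have ok : ∀ q, D q → AlgOk q.1.val := fun q hq => hL₁ _ (le_trans (le_max_right _ _) hq.1)
  have hpow : Bud D C (fun q => 2 ^ q.1.val) := Bud.self.mono fun q _ => Nat.le_add_left _ _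
  have hL : TU D C (fun q => q.1.val) := TU.val TC.id.fst
  have hsm : Small D C (fun q => sz q.1) := (Small.of_two_pow hpow).mono fun q _ => by simp
  have hU : PTU (fun u : Un => u.val) := PTU.val PTF.id
  have hvol : Bud D C (fun q => NN q.1.val * rr q.1.val * q.1.val) :=
    (hpow.const_mul 16).mono fun q hq => (ok q hq).vol
  have hN : TU D C (fun q => NN q.1.val) :=
    TU.ofNat (TC.ptf (g := fun u : Un => NN u.val) (ptf_NN hU) TC.id.fst hsm)
      (hpow.mono fun q hq => (Nat.le_mul_of_pos_right _ (rr_pos _)).trans (ok q hq).le)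
  have hr : TU D C (fun q => rr q.1.val) :=
    TU.ofNat (TC.ptf (g := fun u : Un => rr u.val) (ptf_rr hU) TC.id.fst hsm)
      (hpow.mono fun q hq => (Nat.le_mul_of_pos_left _ (ok q hq).NN_pos).trans (ok q hq).le)
  have hh : TU D C (fun q => rr q.1.val / 2) := hr.div (TU.const 2)
  have hB : Bud D C (fun q => NN q.1.val * (rr q.1.val / 2) * q.1.val) :=
    hvol.mono fun q _ => Nat.mul_le_mul_right _ (Nat.mul_le_mul_left _ (Nat.div_le_self _ _))
  have hdig : ∀ {x : Un × ℕ × ℕ → ℕ}, TC D C x →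
      TC D C (fun q => digL q.1.val (rr q.1.val / 2) (NN q.1.val) (x q)) :=
    fun hx => tc_digL hL hh hN hx (fun q hq => ⟨(ok q hq).pos, (ok q hq).half_pos⟩) hB
  have edig : ∀ L x, AlgOk L → digL L (rr L / 2) (NN L) x =
      (List.range (NN L * rr L)).map (dig L (rr L / 2) x) := by
    intro L x h
    rw [digL_eq h.half_pos, h.rr_eq]
  have hDig : ∀ L x, AlgOk L → DigL L (digL L (rr L / 2) (NN L) x) := by
    intro L x h
    rw [edig L x h]
    refine ⟨by simp, fun z hz => ?_⟩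
    obtain ⟨i, -, rfl⟩ := List.mem_map.1 hz
    exact ⟨dig_nonneg .., dig_lt ..⟩
  have hcv : TC D C (fun q => F (q.1, digL q.1.val (rr q.1.val / 2) (NN q.1.val) q.2.1,
      digL q.1.val (rr q.1.val / 2) (NN q.1.val) q.2.2)) :=
    TC.comp hF (TC.id.fst.prodMk ((hdig TC.id.snd.fst).prodMk (hdig TC.id.snd.snd)))
      (fun q hq => ⟨le_trans (le_max_left _ _) hq.1, hDig _ _ (ok q hq), hDig _ _ (ok q hq)⟩)
      (Bud.self.mono fun q _ => Nat.le_add_right _ _)
  have ecv : ∀ q, D q → F (q.1, digL q.1.val (rr q.1.val / 2) (NN q.1.val) q.2.1,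
      digL q.1.val (rr q.1.val / 2) (NN q.1.val) q.2.2) =
      (List.range (NN q.1.val * (2 * (rr q.1.val / 2)))).map
        (cyc (NN q.1.val) (2 * (rr q.1.val / 2)) (nega (2 * (rr q.1.val / 2)))
          (dig q.1.val (rr q.1.val / 2) q.2.1) (dig q.1.val (rr q.1.val / 2) q.2.2)) := by
    intro q hq
    rw [edig _ _ (ok q hq), edig _ _ (ok q hq), (ok q hq).rr_eq]
    exact hspec q.1.val _ _ (le_trans (le_max_left _ _) hq.1)
      (fun _ => ⟨dig_nonneg .., dig_lt ..⟩) (fun _ => ⟨dig_nonneg .., dig_lt ..⟩)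
  refine (tc_evalL hadd hL hh hcv (fun q => NN q.1.val) (fun q hq => ?_) ?_).congr
    (fun q hq => ?_)
  · have h := ok q hq
    refine ⟨h.half_pos, h.NN_pos, by rw [ecv q hq]; simp, fun z hz => ?_⟩
    rw [ecv q hq] at hz
    obtain ⟨i, -, rfl⟩ := List.mem_map.1 hz
    refine (cyc_dig_le h.half_pos _ _ _ _ _).trans_lt ?_
    rw [h.rr_eq]
    have h1 : NN q.1.val * rr q.1.val * 2 ^ (2 * q.1.val) < 2 ^ (q.1.val * 4) := by
      calc _ ≤ 2 ^ q.1.val * 2 ^ (2 * q.1.val) := Nat.mul_le_mul_right _ h.le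
        _ = 2 ^ (3 * q.1.val) := by rw [← pow_add]; congr 1; ring
        _ < _ := Nat.pow_lt_pow_right (by norm_num) (by have := h.pos; omega)
    exact_mod_cast h1
  · refine (hB.const_mul 2).mono fun q hq => ?_
    have := (ok q hq).pos
    calc _ ≤ NN q.1.val * (rr q.1.val / 2) * (2 * q.1.val) :=
          Nat.mul_le_mul_left _ (by omega)
      _ = _ := by ring
  · have h := ok q hq
    have hle : 2 ^ 2 ^ q.1.val ≤ 2 ^ (q.1.val * (NN q.1.val / 2 * (rr q.1.val / 2))) :=
      Nat.pow_le_pow_right (by norm_num) h.cap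
    rw [ecv q hq]
    exact evalL_cyc h.half_pos (Nat.mul_div_le _ 2) (hq.2.1.trans_le hle) (hq.2.2.trans_le hle)

theorem bigStatement : BigStatement := big_of_add (TC.natAdd TC.id.fst TC.id.snd)

end Crest.Agent.X326.Top
end

-- ▼ part X326/Top/Main
section

/-!
# Row 326, top level: from large numbers to all numbers, and to the statement of S0503
-/

set_option autoImplicit false

namespace Crest.Agent.X326.Top

open Crest.Agent.Lib.PT Crest.LogicCS.IntMul Crest.DTime

theorem mulStatement : MulStatement := by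
  rintro T a hT ha ⟨L₀, h⟩
  obtain ⟨c, hc⟩ := hT.bridge ha
  have hL : TU (fun q : Un × ℕ × ℕ => q.2.1 < 2 ^ q.1.val ∧ q.2.2 < 2 ^ q.1.val)
      (fun q => tb (2 * q.1.val)) (fun q => q.1.val.size) :=
    TU.size (TU.toNat (TU.val (TC.fst TC.id)))
  have hbig : TC (fun q : Un × ℕ × ℕ => (q.2.1 < 2 ^ q.1.val ∧ q.2.2 < 2 ^ q.1.val) ∧
      L₀ ≤ q.1.val.size) (fun q => tb (2 * q.1.val)) (fun q => q.2.1 * q.2.2) := by
    refine TC.comp (f := fun q : Un × ℕ × ℕ => (Un.mk q.1.val.size, q.2)) h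
      ((TC.unMk (hL.restrict fun _ h => h.1)).prodMk (TC.snd TC.id)) (fun q hq => ?_)
      (Bud.of_le c 0 c fun q _ => by simpa using hc q.1.val)
    have h1 : 2 ^ q.1.val ≤ 2 ^ 2 ^ q.1.val.size :=
      Nat.pow_le_pow_right (by norm_num) (Nat.lt_size_self _).le
    exact ⟨hq.2, hq.1.1.trans_le h1, hq.1.2.trans_le h1⟩
  have hsmall : TC (fun q : Un × ℕ × ℕ => (q.2.1 < 2 ^ q.1.val ∧ q.2.2 < 2 ^ q.1.val) ∧
      ¬ L₀ ≤ q.1.val.size) (fun q => tb (2 * q.1.val)) (fun q => q.2.1 * q.2.2) := by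
    refine TC.of_ptf_bounded (by pt_prop) (5 * 2 ^ L₀ + 2) (fun q hq => ?_)
    obtain ⟨⟨n⟩, x, y⟩ := q
    obtain ⟨⟨hx, hy⟩, hn⟩ := hq
    have h1 : n < 2 ^ L₀ := Nat.size_le.1 (not_le.1 hn).le
    have h2 : x.size ≤ n := Nat.size_le.2 hx
    have h3 : y.size ≤ n := Nat.size_le.2 hy
    simp only [sz_prod, sz_un, sz_nat]
    omega
  exact (TC.ite' (p := fun q : Un × ℕ × ℕ => L₀ ≤ q.1.val.size)
    ((TU.const L₀).decide_le hL) hbig hsmall).of_eq (fun q => ite_self _)

/-- the statement of S0503 from the multiplication statement -/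
theorem final_of_specMul (h : SpecMul) :
    ∃ c : ℕ, TimeBoundComputable EqLenPair.enc (Computability.encodingList Bool).encode mulOutput
      (fun N => c * ⌈(N : ℝ) * (Real.logb 2 N) ^ (1 - 1 / (2 : ℝ) ^ 182)⌉₊ + c) :=
  FM.timeBound_of_tc_mul (t := tb) ⟨1, fun n => by have := le_tb n; omega⟩ h

end Crest.Agent.X326.Top
end

-- ▼ part X326/FB/PolyAll

/-!
# Row 326, filter bank: all levels on lists (correctness and time)
-/

set_option autoImplicit false

namespace Crest.Agent.X326.FB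

open Crest.Agent.Lib.PT

/-! ### the parameters -/

namespace BankOk

variable {P Q γ ν β δ Z : ℕ}

theorem P_pos (h : BankOk P Q γ ν β δ Z) : 0 < P := by
  rw [h.P_eq]; exact Nat.mul_pos h.γ_pos (by have := h.two_le; omega)

theorem Q_pos (h : BankOk P Q γ ν β δ Z) : 0 < Q := by
  rw [h.Q_eq]; exact Nat.mul_pos h.γ_pos (by have := h.two_le; omega)

theorem Q_le (h : BankOk P Q γ ν β δ Z) : Q ≤ P := by
  rw [h.P_eq, h.Q_eq]; exact Nat.mul_le_mul_left _ (Nat.sub_le _ _)

theorem le_pow (h : BankOk P Q γ ν β δ Z) : ν ≤ 2 ^ β := by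
  have h1 := h.room
  rw [h.P_eq] at h1
  exact Nat.le_of_mul_le_mul_left (le_trans (Nat.le_add_left _ _) h1) h.γ_pos


theorem of_pos (h : BankOk P Q γ ν β δ Z) {Z' : ℕ} (hZ : 0 < Z') : BankOk P Q γ ν β δ Z' :=
  ⟨h.P_eq, h.Q_eq, h.γ_pos, h.two_le, hZ, h.dvd, h.room⟩

theorem mul (h : BankOk P Q γ ν β δ Z) : BankOk P Q γ ν β δ (P * Z) :=
  h.of_pos (Nat.mul_pos h.P_pos h.Z_pos)

theorem pow_mul (h : BankOk P Q γ ν β δ Z) (i : ℕ) : BankOk P Q γ ν β δ (P ^ i * Z) :=
  h.of_pos (Nat.mul_pos (pow_pos h.P_pos i) h.Z_pos)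

theorem level (h : BankOk P Q γ ν β δ Z) (e : ℕ) : Q ^ (e + 1) * ν = P * Q ^ e * (ν - 1) := by
  rw [pow_succ]
  nth_rewrite 2 [h.Q_eq]
  rw [h.P_eq]
  ring

theorem dvd_level (h : BankOk P Q γ ν β δ Z) (e : ℕ) : 2 ^ β ∣ Q ^ (e + 1) * ν := by
  rw [h.level]
  exact (h.dvd.mul_right _).mul_right _

end BankOk

@[simp] theorem length_tabA (P γ δ B : ℕ) (h : ℤ → ℤ) : (tabA P γ δ B h).length = P := by
  simp [tabA]

@[simp] theorem length_tabS (P γ δ B : ℕ) (g : ℤ → ℤ) : (tabS P γ δ B g).length = P := by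
  simp [tabS]

theorem row_tabA {P γ δ B wt : ℕ} {h : ℤ → ℤ} (hw : ∀ m, |h m| < 2 ^ wt) :
    ∀ r ∈ tabA P γ δ B h, r.length = B ∧ Wd wt r :=
  forall_mem_tab.2 fun _ _ => ⟨length_tab _ _, forall_mem_tab.2 fun _ _ => hw _⟩

theorem row_tabS {P γ δ B wt : ℕ} {g : ℤ → ℤ} (hw : ∀ m, |g m| < 2 ^ wt) :
    ∀ r ∈ tabS P γ δ B g, r.length = B ∧ Wd wt r :=
  forall_mem_tab.2 fun _ _ => ⟨length_tab _ _, forall_mem_tab.2 fun _ _ => hw _⟩

theorem Wd.of_le {w w' : ℕ} {l : List ℤ} (h : Wd w l) (hw : w ≤ w') : Wd w' l :=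
  fun v hv => (h v hv).trans_le (pow_le_pow_right₀ (by norm_num) hw)

theorem Wd.sz_list_le {w : ℕ} {l : List ℤ} (h : Wd w l) : sz l ≤ l.length * (2 * (w + 3) + 1) :=
  Lib.PT.sz_list_le fun v hv => sz_int_le_of_abs_lt (h v hv)

/-! ### correctness -/

section correct

variable {P Q γ ν β δ Z : ℕ}

theorem anaL_level (hA : AnaLStatement) (ok : BankOk P Q γ ν β δ Z) {h : ℤ → ℤ}
    (hs : ∀ m : ℤ, (δ : ℤ) < |m| → h m = 0) (e : ℕ) (a : Arr) :
    anaL Z ν β (tabA P γ (δ + Q) (2 ^ β) h) (tab (P * Q ^ (e + 1) * Z) a) =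
      tab (P * Q ^ e * (P * Z)) (ana P Q (Q ^ (e + 1)) Z δ h a) := by
  rw [mul_comm P (Q ^ (e + 1)), ← mul_assoc]
  exact hA P Q γ ν β δ _ _ Z h a ok.P_eq ok.Q_eq ok.γ_pos ok.two_le ok.Z_pos
    (pow_pos ok.Q_pos _) (ok.level e) (ok.dvd_level e) ok.room hs

theorem synL_level (hS : SynLStatement) (ok : BankOk P Q γ ν β δ Z) {g : ℤ → ℤ}
    (hs : ∀ m : ℤ, (2 * δ : ℤ) < |m| → g m = 0) (e : ℕ) (c : Arr) :
    synL Z ν β (tabS P γ δ (2 ^ β) g) (tab (P * Q ^ e * (P * Z)) c) =
      tab (P * Q ^ (e + 1) * Z) (syn P Q (P * Q ^ e) Z δ g c) := by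
  rw [mul_comm P (Q ^ (e + 1)), ← mul_assoc]
  exact hS P Q γ ν β δ _ _ Z g c ok.P_eq ok.Q_eq ok.γ_pos ok.two_le ok.Z_pos
    (pow_pos ok.Q_pos _) (ok.level e) (ok.dvd_level e) ok.room hs

theorem anaAllL_tab (hA : AnaLStatement) {h : ℤ → ℤ} (hs : ∀ m : ℤ, (δ : ℤ) < |m| → h m = 0)
    (e : ℕ) : ∀ {Z : ℕ} (_ : BankOk P Q γ ν β δ Z) (a : Arr),
      anaAllL ν β (tabA P γ (δ + Q) (2 ^ β) h) e Z (tab (P * Q ^ e * Z) a) =
        tab (P ^ (e + 1) * Z) (anaAll P Q δ h e Z a) := by
  induction e with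
  | zero => intro Z _ a; simp [anaAllL, anaAll]
  | succ e ih =>
    intro Z ok a
    rw [anaAllL, anaAll, anaL_level hA ok hs, length_tabA, ih ok.mul, pow_succ P (e + 1), mul_assoc]

theorem synAllL_tab (hS : SynLStatement) {g : ℤ → ℤ} (hs : ∀ m : ℤ, (2 * δ : ℤ) < |m| → g m = 0)
    (e : ℕ) : ∀ {Z : ℕ} (_ : BankOk P Q γ ν β δ Z) (c : Arr),
      synAllL ν β (tabS P γ δ (2 ^ β) g) e Z (tab (P ^ (e + 1) * Z) c) =
        tab (P * Q ^ e * Z) (synAll P Q δ g e Z c) := by
  induction e with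
  | zero => intro Z _ c; simp [synAllL, synAll]
  | succ e ih =>
    intro Z ok c
    rw [synAllL, synAll, length_tabS, pow_succ P (e + 1), mul_assoc, ih ok.mul, synL_level hS ok hs]

theorem prepL_of (hA : AnaLStatement) : PrepLStatement := by
  intro P Q γ ν β δ Z p e h a ok hs
  rw [prepL, anaAllL_tab hA hs (e + 1) ok, map_tab]
  rfl

theorem finishL_of (hS : SynLStatement) : FinishLStatement := by
  intro P Q γ ν β δ Z p e g c ok hs
  rw [finishL, synAllL_tab hS hs (e + 1) ok, map_tab]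
  rfl

end correct

/-! ### the loop over the levels -/

/-- state of the loop: `((ν, β, table), Z, data)` -/
abbrev LoopSt : Type := (Un × Un × List (List ℤ)) × Un × List ℤ

/-- one analysis step -/
def anaStep (s : LoopSt) : LoopSt :=
  (s.1, ⟨s.1.2.2.length * s.2.1.val⟩, anaL s.2.1.val s.1.1.val s.1.2.1.val s.1.2.2 s.2.2)

/-- one synthesis step -/
def synStep (s : LoopSt) : LoopSt :=
  (s.1, ⟨s.2.1.val / s.1.2.2.length⟩, synL s.2.1.val s.1.1.val s.1.2.1.val s.1.2.2 s.2.2)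

theorem anaStep_iterate (ν β : ℕ) (tb : List (List ℤ)) (e : ℕ) : ∀ (Z : ℕ) (x : List ℤ),
    (anaStep^[e] ((⟨ν⟩, ⟨β⟩, tb), ⟨Z⟩, x)).2.2 = anaAllL ν β tb e Z x := by
  induction e with
  | zero => intro Z x; rfl
  | succ e ih => intro Z x; rw [Function.iterate_succ_apply, anaAllL, ← ih]; rfl

theorem synStep_iterate (ν β : ℕ) {tb : List (List ℤ)} (htb : 0 < tb.length) (e : ℕ) :
    ∀ (Z : ℕ) (x : List ℤ), synStep^[e + 1] ((⟨ν⟩, ⟨β⟩, tb), ⟨tb.length ^ e * Z⟩, x) =
      ((⟨ν⟩, ⟨β⟩, tb), ⟨Z / tb.length⟩, synAllL ν β tb (e + 1) Z x) := by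
  induction e with
  | zero => intro Z x; simp [synStep, synAllL]
  | succ e ih =>
    intro Z x
    rw [Function.iterate_succ_apply', pow_succ, mul_assoc, ih, Nat.mul_div_cancel_left _ htb]
    rfl

/-- `w` is an admissible width for the state `s` -/
def Adm (d : ℕ) (s : LoopSt) (w : ℕ) : Prop :=
  LevelOk s.2.1.val s.1.1.val (s.1.1.val - d) s.1.2.1.val s.1.2.2 s.2.2 ∧
    (∀ r ∈ s.1.2.2, Wd w r) ∧ Wd w s.2.2

/-- cost of a level on the state `s` with width `w` -/
def stCost (μ : ℕ → ℕ → ℕ) (s : LoopSt) (w : ℕ) : ℕ :=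
  bandCost μ (s.1.1.val * s.2.2.length) s.1.2.1.val w

theorem exists_best (μ : ℕ → ℕ → ℕ) (d : ℕ) : ∃ W : LoopSt → ℕ, ∀ s w, Adm d s w →
    Adm d s (W s) ∧ stCost μ s (W s) ≤ stCost μ s w := by
  have key : ∀ s : LoopSt, ∃ w₀, ∀ w, Adm d s w → Adm d s w₀ ∧ stCost μ s w₀ ≤ stCost μ s w := by
    intro s
    by_cases h : ∃ w, Adm d s w
    · have hne : {w | Adm d s w}.Nonempty := h
      exact ⟨Function.argminOn (stCost μ s) _ hne, fun w hw =>
        ⟨Function.argminOn_mem (stCost μ s) _ hne, Function.argminOn_le (stCost μ s) _ hw⟩⟩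
    · exact ⟨0, fun w hw => absurd ⟨w, hw⟩ h⟩
  choose W hW using key
  exact ⟨W, hW⟩

theorem tc_anaStep {μ : ℕ → ℕ → ℕ} (hA : AnaLTC μ) : ∃ S : LoopSt → ℕ,
    TC (fun s => ∃ w, Adm 0 s w) S anaStep ∧ ∀ s w, Adm 0 s w → S s ≤ stCost μ s w := by
  obtain ⟨W, hW⟩ := exists_best μ 0
  refine ⟨fun s => stCost μ s (W s), ?_, fun s w h => (hW s w h).2⟩
  refine TC.prodMk (by fun_prop) (TC.prodMk (TU.mul (by fun_prop) (by fun_prop) ?_).tc ?_)
  · refine Bud.sz.mono (fun s ⟨w, hw⟩ => ?_)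
    obtain ⟨R, hR, hl, -⟩ := hw.1.shape
    have h1 : s.1.2.2.length * s.2.1.val ≤ s.2.2.length := by
      rw [hl, mul_assoc]; exact Nat.le_mul_of_pos_left _ hR
    have h2 := length_le_sz s.2.2
    simp only [sz_prod]
    omega
  · exact hA LoopSt _ _ _ _ _ W _ _ (by fun_prop) (by fun_prop) (by fun_prop) (by fun_prop)
      (by fun_prop) (fun s ⟨w, hw⟩ => (hW s w hw).1) Bud.self

theorem tc_synStep {μ : ℕ → ℕ → ℕ} (hS : SynLTC μ) : ∃ S : LoopSt → ℕ,
    TC (fun s => ∃ w, Adm 1 s w) S synStep ∧ ∀ s w, Adm 1 s w → S s ≤ stCost μ s w := by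
  obtain ⟨W, hW⟩ := exists_best μ 1
  refine ⟨fun s => stCost μ s (W s), ?_, fun s w h => (hW s w h).2⟩
  refine TC.prodMk (by fun_prop) (TC.prodMk (TU.div (by fun_prop) (by fun_prop)).tc ?_)
  exact hS LoopSt _ _ _ _ _ W _ _ (by fun_prop) (by fun_prop) (by fun_prop) (by fun_prop)
    (by fun_prop) (fun s ⟨w, hw⟩ => (hW s w hw).1) Bud.self

theorem bandCost_mono (μ : ℕ → ℕ → ℕ) {n n' : ℕ} (h : n ≤ n') (β w : ℕ) :
    bandCost μ n β w ≤ bandCost μ n' β w :=
  Nat.add_le_add (Nat.mul_le_mul_right _ (Nat.mul_le_mul_right _ h))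
    (Nat.mul_le_mul_right _ (Nat.div_le_div_right h))

theorem le_bandCost (μ : ℕ → ℕ → ℕ) (n β w : ℕ) : n * (w + β + 1) ≤ bandCost μ n β w :=
  (Nat.le_mul_of_pos_right _ (Nat.succ_pos β)).trans (Nat.le_add_right _ _)

/-- cost and size of an admissible state -/
theorem adm_bound (μ : ℕ → ℕ → ℕ) {d w N : ℕ} {s : LoopSt} (hd1 : d ≤ 1) (h : Adm d s w)
    (hN : s.2.2.length ≤ N) :
    stCost μ s w + sz s ≤ 61 * bandCost μ (s.1.1.val * N) s.1.2.1.val w := by
  obtain ⟨⟨⟨ν⟩, ⟨β⟩, tb⟩, ⟨Z⟩, x⟩ := s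
  obtain ⟨ok, htb, hx⟩ := h
  simp only at ok htb hx hN ⊢
  obtain ⟨R, hR, hl, hd⟩ := ok.shape
  have hν := ok.two_le
  have hZ := ok.Z_pos
  have hP := ok.tb_pos
  have c1 : stCost μ ((⟨ν⟩, ⟨β⟩, tb), ⟨Z⟩, x) w ≤ bandCost μ (ν * N) β w :=
    bandCost_mono μ (Nat.mul_le_mul_left _ hN) _ _
  have c2 := le_bandCost μ (ν * N) β w
  have hZN : Z ≤ N := le_trans (hl ▸ Nat.le_mul_of_pos_left _ (Nat.mul_pos hR hP)) hN
  have hNn : N ≤ ν * N := Nat.le_mul_of_pos_left _ (by omega)
  have hνn : ν ≤ ν * N := Nat.le_mul_of_pos_right _ (by omega)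
  have hB : tb.length * 2 ^ β ≤ ν * N := by
    have h2 : 2 ^ β ≤ R * ν :=
      (Nat.le_of_dvd (Nat.mul_pos hR (by omega)) hd).trans (Nat.mul_le_mul_left _ (Nat.sub_le _ _))
    calc tb.length * 2 ^ β ≤ tb.length * (R * ν) * Z :=
          (Nat.mul_le_mul_left _ h2).trans (Nat.le_mul_of_pos_right _ hZ)
      _ = ν * x.length := by rw [hl]; ring
      _ ≤ ν * N := Nat.mul_le_mul_left _ hN
  have s1 : sz x ≤ ν * N * (2 * (w + 3) + 1) :=
    hx.sz_list_le.trans (Nat.mul_le_mul_right _ (hN.trans hNn))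
  have s2 : sz tb ≤ tb.length * (2 * (2 ^ β * (2 * (w + 3) + 1)) + 1) :=
    Lib.PT.sz_list_le fun r hr => by rw [← ok.row_len r hr]; exact (htb r hr).sz_list_le
  have s3 : tb.length * (2 * (2 ^ β * (2 * (w + 3) + 1)) + 1) ≤ ν * N * (4 * w + 15) := by
    have h1 : 1 ≤ 2 ^ β := Nat.one_le_two_pow
    calc _ ≤ tb.length * (2 * (2 ^ β * (2 * (w + 3) + 1)) + 2 ^ β) := by gcongr
      _ = tb.length * 2 ^ β * (4 * w + 15) := by ring
      _ ≤ _ := Nat.mul_le_mul_right _ hB
  have s4 : β ≤ ν * N * β := Nat.le_mul_of_pos_left _ (by omega)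
  simp only [sz_prod, sz_un]
  generalize ν * N = n at *
  have e1 : n * (w + β + 1) = n * w + n * β + n := by ring
  have e2 : n * (2 * (w + 3) + 1) = 2 * (n * w) + 7 * n := by ring
  have e3 : n * (4 * w + 15) = 4 * (n * w) + 15 * n := by ring
  omega

/-! ### time of `prepL` and `finishL` -/

theorem len_le {P Q Z i e : ℕ} (hQ : Q ≤ P) (hi : i ≤ e + 1) :
    P * Q ^ (e + 1 - i) * (P ^ i * Z) ≤ P ^ (e + 2) * Z := by
  calc _ ≤ P * P ^ (e + 1 - i) * (P ^ i * Z) := by gcongr
    _ = P ^ (e + 1 - i + i + 1) * Z := by ring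
    _ = _ := by rw [show e + 1 - i + i + 1 = e + 2 by omega]

theorem width_le {w wt β i e : ℕ} (hi : i ≤ e + 1) : w + i * (wt + β) ≤ w + (e + 1) * (wt + β) := by
  gcongr

theorem wt_le (w wt β e : ℕ) : wt ≤ w + (e + 1) * (wt + β) := by nlinarith

/-- the number of entries times the final width is within the cost -/
theorem mul_le_bankCost (μ : ℕ → ℕ → ℕ) {P ν β Z e w wt n c : ℕ} (hν : 0 < ν)
    (hn : n ≤ P ^ (e + 2) * Z) (hc : c ≤ 3 * ((e + 1) * wt)) :
    n * c ≤ 3 * bankCost μ P ν β Z e w wt := by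
  have h1 := le_bandCost μ (ν * (P ^ (e + 2) * Z)) β (w + (e + 1) * (wt + β))
  have h2 : n ≤ ν * (P ^ (e + 2) * Z) := hn.trans (Nat.le_mul_of_pos_left _ hν)
  have h3 : (e + 1) * wt ≤ w + (e + 1) * (wt + β) + β + 1 := by nlinarith
  calc n * c ≤ ν * (P ^ (e + 2) * Z) * (3 * (w + (e + 1) * (wt + β) + β + 1)) :=
        Nat.mul_le_mul h2 (by omega)
    _ = 3 * (ν * (P ^ (e + 2) * Z) * (w + (e + 1) * (wt + β) + β + 1)) := by ring
    _ ≤ 3 * bankCost μ P ν β Z e w wt :=
        Nat.mul_le_mul_left _ (h1.trans (Nat.le_mul_of_pos_left _ (Nat.succ_pos e)))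

theorem prepLTC_of {μ : ℕ → ℕ → ℕ} (hA : AnaLStatement) (hW : WidthStatement) (hT : AnaLTC μ) :
    PrepLTC μ := by
  intro ι _ D T P Q γ ν β δ Z p e w wt h x hZ hν hβ hp he htb hx hD hB
  obtain ⟨S, hS, hS'⟩ := tc_anaStep hT
  have hit := TC.iterate_inv (P := D) (T := T) hS (n := fun a => e a + 1) he.succ
    (s := fun a => (((⟨ν a⟩, ⟨β a⟩, tabA (P a) (γ a) (δ a + Q a) (2 ^ β a) (h a)), ⟨Z a⟩, x a) : LoopSt))
    ((hν.tc.prodMk (hβ.tc.prodMk htb)).prodMk (hZ.tc.prodMk hx))
    (fun a i s => s.1 = (⟨ν a⟩, ⟨β a⟩, tabA (P a) (γ a) (δ a + Q a) (2 ^ β a) (h a)) ∧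
      s.2.1.val = P a ^ i * Z a ∧ s.2.2.length = P a * Q a ^ (e a + 1 - i) * (P a ^ i * Z a) ∧
      Wd (w a + i * (wt a + β a)) s.2.2)
    (fun a => 61 * bandCost μ (ν a * (P a ^ (e a + 2) * Z a)) (β a)
      (w a + (e a + 1) * (wt a + β a)))
    (fun a ha => ⟨rfl, by simp, by simpa using (hD a ha).2.2.2.2.1,
      by simpa using (hD a ha).2.2.2.2.2⟩)
    (fun a ha i hi s ⟨h1, h2, h3, h4⟩ => by
      obtain ⟨ok, hs, hw, -, -, -⟩ := hD a ha
      obtain ⟨c, ⟨Z'⟩, y⟩ := s
      simp only at h1 h2 h3 h4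
      subst h1 h2
      obtain ⟨j, hj⟩ : ∃ j, e a + 1 - i = j + 1 := ⟨e a - i, by omega⟩
      have lev : LevelOk (P a ^ i * Z a) (ν a) (ν a) (β a)
          (tabA (P a) (γ a) (δ a + Q a) (2 ^ β a) (h a)) y :=
        ⟨(ok.pow_mul i).Z_pos, ok.two_le, ok.le_pow, by simpa using ok.P_pos,
          fun r hr => (row_tabA hw r hr).1, Q a ^ (j + 1), pow_pos ok.Q_pos _,
          by rw [h3, hj, length_tabA]; ring, ok.dvd_level j⟩
      have adm : Adm 0 ((⟨ν a⟩, ⟨β a⟩, tabA (P a) (γ a) (δ a + Q a) (2 ^ β a) (h a)),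
          ⟨P a ^ i * Z a⟩, y) (w a + (e a + 1) * (wt a + β a)) :=
        ⟨lev, fun r hr => (row_tabA hw r hr).2.of_le (wt_le _ _ _ _), h4.of_le (width_le hi.le)⟩
      refine ⟨⟨_, adm⟩, ?_, rfl, ?_, ?_, ?_⟩
      · exact (Nat.add_le_add_right (hS' _ _ adm) _).trans
          (adm_bound μ (Nat.zero_le 1) adm (h3 ▸ len_le ok.Q_le hi.le))
      · simp only [anaStep, length_tabA]; ring
      · simp only [anaStep]
        rw [hj] at h3
        rw [eq_tab h3 0, anaL_level hA (ok.pow_mul i) hs, length_tab,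
          show e a + 1 - (i + 1) = j by omega]
        ring
      · refine ((hW _ _ _ _ _ _ _ (fun r hr => (row_tabA hw r hr).2) h4).1 lev).of_le (le_of_eq ?_)
        ring)
    ((hB.const_mul 61).mono (fun a _ => le_of_eq (by unfold bankCost; ring)))
  have hall : TC D T (fun a => anaAllL (ν a) (β a) (tabA (P a) (γ a) (δ a + Q a) (2 ^ β a) (h a))
      (e a + 1) (Z a) (x a)) := hit.snd.snd.of_eq (fun a => anaStep_iterate _ _ _ _ _ _)
  have hlen : ∀ a, D a → (anaAllL (ν a) (β a) (tabA (P a) (γ a) (δ a + Q a) (2 ^ β a) (h a))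
      (e a + 1) (Z a) (x a)).length = P a ^ (e a + 2) * Z a := fun a ha => by
    obtain ⟨ok, hs, -, -, hl, -⟩ := hD a ha
    rw [eq_tab hl 0, anaAllL_tab hA hs _ ok, length_tab]
  have hb : ∀ n : ι → ℕ, (∀ a, D a → n a ≤ P a ^ (e a + 2) * Z a) →
      Bud D T (fun a => n a * (p a * e a)) := fun n hn =>
    (hB.const_mul 3).mono (fun a ha => mul_le_bankCost μ
      (by have := (hD a ha).1.two_le; omega) (hn a ha)
      (by have := (hD a ha).2.2.2.1; nlinarith))
  have hpe : TU D T (fun a => p a * e a) := hp.mul he ((hb (fun _ => 1) (fun a ha =>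
    ((hD a ha).1.pow_mul _).Z_pos)).mono (fun a _ => by simp))
  exact TC.mapCtx_lin (f := fun (k : Un) (v : ℤ) => v / 2 ^ k.val) (by fun_prop) hpe.tc hall
    ((hb _ (fun a ha => (hlen a ha).le)).mono (fun a _ => by simp))

theorem finishLTC_of {μ : ℕ → ℕ → ℕ} (hA : SynLStatement) (hW : WidthStatement) (hT : SynLTC μ) :
    FinishLTC μ := by
  intro ι _ D T P Q γ ν β δ Z p e w wt g x hZ hν hβ hp he htb hx hD hB
  obtain ⟨S, hS, hS'⟩ := tc_synStep hT
  have hb : ∀ n : ι → ℕ, (∀ a, D a → n a ≤ P a ^ (e a + 2) * Z a) →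
      Bud D T (fun a => n a * (p a * (e a + 3))) := fun n hn =>
    (hB.const_mul 3).mono (fun a ha => mul_le_bankCost μ
      (by have := (hD a ha).1.two_le; omega) (hn a ha)
      (by have := (hD a ha).2.2.2.1; nlinarith))
  have hP : TU D T P := (TU.length htb).of_eq (fun a => length_tabS _ _ _ _ _)
  have hZe : Bud D T (fun a => P a ^ e a * Z a) := hx.bud_length.mono (fun a ha => by
    rw [(hD a ha).2.2.2.2.1]
    exact Nat.mul_le_mul_right _ (Nat.pow_le_pow_right (hD a ha).1.P_pos (by omega)))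
  have hZ0 : TU D T (fun a => P a ^ e a * Z a) :=
    (hP.pow he (hZe.mono (fun a ha => Nat.le_mul_of_pos_right _ (hD a ha).1.Z_pos))).mul hZ hZe
  have hit := TC.iterate_inv (P := D) (T := T) hS (n := fun a => e a + 1) he.succ
    (s := fun a => (((⟨ν a⟩, ⟨β a⟩, tabS (P a) (γ a) (δ a) (2 ^ β a) (g a)),
      ⟨P a ^ e a * Z a⟩, x a) : LoopSt))
    ((hν.tc.prodMk (hβ.tc.prodMk htb)).prodMk (hZ0.tc.prodMk hx))
    (fun a i s => s.1 = (⟨ν a⟩, ⟨β a⟩, tabS (P a) (γ a) (δ a) (2 ^ β a) (g a)) ∧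
      (i ≤ e a → s.2.1.val = P a ^ (e a - i) * Z a) ∧
      s.2.2.length = P a * Q a ^ i * (P a ^ (e a + 1 - i) * Z a) ∧
      Wd (w a + i * (wt a + β a)) s.2.2)
    (fun a => 61 * bandCost μ (ν a * (P a ^ (e a + 2) * Z a)) (β a)
      (w a + (e a + 1) * (wt a + β a)))
    (fun a ha => ⟨rfl, by simp, by rw [(hD a ha).2.2.2.2.1]; simp only [Nat.sub_zero]; ring,
      by simpa using (hD a ha).2.2.2.2.2⟩)
    (fun a ha i hi s ⟨h1, h2, h3, h4⟩ => by
      obtain ⟨ok, hs, hw, -, -, -⟩ := hD a ha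
      obtain ⟨c, ⟨Z'⟩, y⟩ := s
      have h2' := h2 (by omega)
      simp only at h1 h2' h3 h4
      subst h1 h2'
      obtain ⟨j, hj⟩ : ∃ j, e a - i = j := ⟨_, rfl⟩
      have h3' : y.length = P a * Q a ^ i * (P a * (P a ^ j * Z a)) := by
        rw [h3, show e a + 1 - i = j + 1 by omega]; ring
      rw [hj]
      have lev : LevelOk (P a ^ j * Z a) (ν a) (ν a - 1) (β a)
          (tabS (P a) (γ a) (δ a) (2 ^ β a) (g a)) y :=
        ⟨(ok.pow_mul j).Z_pos, ok.two_le, ok.le_pow, by simpa using ok.P_pos,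
          fun r hr => (row_tabS hw r hr).1, P a * Q a ^ i,
          Nat.mul_pos ok.P_pos (pow_pos ok.Q_pos _),
          by rw [h3', length_tabS]; ring, by rw [← ok.level]; exact ok.dvd_level i⟩
      have adm : Adm 1 ((⟨ν a⟩, ⟨β a⟩, tabS (P a) (γ a) (δ a) (2 ^ β a) (g a)),
          ⟨P a ^ j * Z a⟩, y) (w a + (e a + 1) * (wt a + β a)) :=
        ⟨lev, fun r hr => (row_tabS hw r hr).2.of_le (wt_le _ _ _ _), h4.of_le (width_le hi.le)⟩
      refine ⟨⟨_, adm⟩, ?_, rfl, fun hi' => ?_, ?_, ?_⟩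
      · refine (Nat.add_le_add_right (hS' _ _ adm) _).trans (adm_bound μ le_rfl adm ?_)
        have := len_le (Z := Z a) (i := e a + 1 - i) (e := e a) ok.Q_le (Nat.sub_le _ _)
        rwa [show e a + 1 - (e a + 1 - i) = i by omega, ← h3] at this
      · simp only [synStep, length_tabS]
        rw [show j = e a - (i + 1) + 1 by omega, pow_succ', mul_assoc,
          Nat.mul_div_cancel_left _ ok.P_pos]
      · simp only [synStep]
        rw [eq_tab h3' 0, synL_level hA (ok.pow_mul j) hs, length_tab,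
          show e a + 1 - (i + 1) = j by omega]
      · refine ((hW _ _ _ _ _ _ _ (fun r hr => (row_tabS hw r hr).2) h4).2 lev).of_le (le_of_eq ?_)
        ring)
    ((hB.const_mul 61).mono (fun a _ => le_of_eq (by unfold bankCost; ring)))
  have hall : TC D T (fun a => synAllL (ν a) (β a) (tabS (P a) (γ a) (δ a) (2 ^ β a) (g a))
      (e a + 1) (Z a) (x a)) := hit.snd.snd.congr (fun a ha => by
    have := synStep_iterate (ν a) (β a) (tb := tabS (P a) (γ a) (δ a) (2 ^ β a) (g a))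
      (by simpa using (hD a ha).1.P_pos) (e a) (Z a) (x a)
    rw [length_tabS] at this
    rw [this])
  have hlen : ∀ a, D a → (synAllL (ν a) (β a) (tabS (P a) (γ a) (δ a) (2 ^ β a) (g a))
      (e a + 1) (Z a) (x a)).length ≤ P a ^ (e a + 2) * Z a := fun a ha => by
    obtain ⟨ok, hs, -, -, hl, -⟩ := hD a ha
    rw [eq_tab hl 0, synAllL_tab hA hs _ ok, length_tab]
    simpa using len_le (Z := Z a) (i := 0) (e := e a) ok.Q_le (Nat.zero_le _)
  have hpe : TU D T (fun a => p a * (e a + 3)) := hp.mul (he.add (TU.const 3))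
    ((hb (fun _ => 1) (fun a ha => ((hD a ha).1.pow_mul _).Z_pos)).mono (fun a _ => by simp))
  exact TC.mapCtx_lin (f := fun (k : Un) (v : ℤ) => (v + 2 ^ k.val / 2) / 2 ^ k.val)
    (TC.intDivTwoPow (TC.intAdd TC.id.snd (TC.intDivTwo (TC.intTwoPow (TU.val TC.id.fst))))
      (TU.val TC.id.fst)) hpe.tc hall ((hb _ hlen).mono (fun a _ => by simp))

end Crest.Agent.X326.FB
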